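import Vale.Agent.P132.L2
import Vale.Agent.P104.Kapl
import Vale.Agent.P078.Kap
import Vale.Agent.P078.Gns

/-! P132: the GNS representation of a faithful normal state. -/

namespace Vale.Agent.P132

open scoped InnerProductSpace BoundedContinuousFunction
open Filter Topology MeasureTheory Vale.Agent.P104

universe u

variable {H : Type u} [NormedAddCommGroup H] [InnerProductSpace ℂ H] [CompleteSpace H]

/-- elements of the predual are weakly continuous on bounded sets -/
theorem predual_tendsto {M : VonNeumannAlgebra H} {ω : M.toStarSubalgebra →L[ℂ] ℂ}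
    (hω : ω ∈ predual M) {I : Type*} {l : Filter I} {x : I → M.toStarSubalgebra}
    {y : M.toStarSubalgebra} {C : ℝ} (hC : ∀ i, ‖x i‖ ≤ C)
    (h : ∀ η ζ : H, Tendsto (fun i => ⟪η, (x i : Op H) ζ⟫_ℂ) l (𝓝 ⟪η, (y : Op H) ζ⟫_ℂ)) :
    Tendsto (fun i => ω (x i)) l (𝓝 (ω y)) := by
  refine Metric.tendsto_nhds.2 fun ε hε => ?_
  have hD : 0 < |C| + ‖y‖ + 1 := by positivity
  obtain ⟨ω', h1, h2⟩ := Metric.mem_closure_iff.1 hω (ε / 2 / (|C| + ‖y‖ + 1)) (by positivity)
  have h3 : Tendsto (fun i => ω' (x i)) l (𝓝 (ω' y)) := by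
    clear h2
    induction h1 using Submodule.span_induction with
    | mem ω hω =>
      obtain ⟨η, ζ, e⟩ := hω
      simp only [e]
      exact h η ζ
    | zero => exact tendsto_const_nhds
    | add a b _ _ ha hb => exact ha.add hb
    | smul c a _ ha => exact ha.const_smul c
  filter_upwards [Metric.tendsto_nhds.1 h3 _ (half_pos hε)] with i hi
  rw [dist_eq_norm] at h2 hi ⊢
  have e : ω (x i) - ω y = (ω - ω') (x i - y) + (ω' (x i) - ω' y) := by
    simp only [sub_apply, map_sub]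
    ring
  have h4 : ‖x i - y‖ ≤ |C| + ‖y‖ + 1 := by
    linarith [norm_sub_le (x i) y, hC i, le_abs_self C]
  have h5 := ((ω - ω').le_opNorm (x i - y)).trans
    (mul_le_mul h2.le h4 (norm_nonneg _) (by positivity))
  rw [div_mul_cancel₀ _ hD.ne'] at h5
  rw [e]
  linarith [norm_add_le ((ω - ω') (x i - y)) (ω' (x i) - ω' y)]

/-- the predual is a bimodule -/
theorem predual_conj {M : VonNeumannAlgebra H} {ω ω' : M.toStarSubalgebra →L[ℂ] ℂ}
    (hω : ω ∈ predual M) (a b : M.toStarSubalgebra) (h : ∀ x, ω' x = ω (a * x * b)) :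
    ω' ∈ predual M := by
  let L := ContinuousLinearMap.mulLeftRight ℂ M.toStarSubalgebra a b
  have e : ω' = ω.comp L := ContinuousLinearMap.ext h
  rw [e]
  refine map_mem_closure (f := fun ω : M.toStarSubalgebra →L[ℂ] ℂ => ω.comp L)
    (continuous_id.clm_comp continuous_const) hω fun ω h1 => ?_
  induction h1 using Submodule.span_induction with
  | mem ω hω =>
    obtain ⟨η, ζ, e⟩ := hω
    refine Submodule.subset_span ⟨star (a : Op H) η, (b : Op H) ζ, fun x => ?_⟩
    rw [inner_star_left]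
    exact e (a * x * b)
  | zero => exact Submodule.zero_mem _
  | add a b _ _ ha hb => exact Submodule.add_mem _ ha hb
  | smul c a _ ha => exact Submodule.smul_mem _ c ha

open scoped ComplexOrder in
theorem gns_abs {A : Type u} [CStarAlgebra A] (φ : A →L[ℂ] ℂ) (h : ∀ x, 0 ≤ φ (star x * x)) :
    ∃ (K : Type u) (_ : NormedAddCommGroup K) (_ : InnerProductSpace ℂ K) (_ : CompleteSpace K)
      (Λ : A → K) (π : A →⋆ₐ[ℂ] Op K), DenseRange Λ ∧ (∀ a x, π a (Λ x) = Λ (a * x)) ∧
      ∀ x y, ⟪Λ x, Λ y⟫_ℂ = φ (star x * y) := by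
  let _ : PartialOrder A := CStarAlgebra.spectralOrder A
  have _ : StarOrderedRing A := CStarAlgebra.spectralOrderedRing A
  let ω : A →ₚ[ℂ] ℂ := PositiveLinearMap.mk₀ φ.toLinearMap fun x hx => by
    obtain ⟨y, rfl⟩ := CStarAlgebra.nonneg_iff_eq_star_mul_self.1 hx
    exact h y
  exact ⟨ω.GNS, inferInstance, inferInstance, inferInstance, P078.hat ω, ω.gnsStarAlgHom,
    P078.denseRange_hat ω, P078.gns_hat ω, P078.inner_hat ω⟩

theorem gns_cont {A : Type u} [CStarAlgebra A] (π : A →⋆ₐ[ℂ] Op H) : Continuous π :=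
  AddMonoidHomClass.continuous_of_bound π 1 fun x => by
    simpa only [one_mul] using NonUnitalStarAlgHom.norm_apply_le π x

theorem gns_vn {A : Type u} [CStarAlgebra A] (π : A →⋆ₐ[ℂ] Op H)
    (hw : ∀ (U : Ultrafilter (Finset H × ℕ)) (a : Finset H × ℕ → A), (∀ i, ‖a i‖ ≤ 1) →
      ∃ x, ∀ η ζ, Tendsto (fun i => ⟪η, π (a i) ζ⟫_ℂ) U (𝓝 ⟪η, π x ζ⟫_ℂ)) {y : Op H}
    (hy : y ∈ (vnComm (Set.range π)).commutant) : ∃ x, π x = y := by
  have k1 : ∀ z ∈ (vnComm (Set.range π)).commutant, IsSelfAdjoint z → ‖z‖ ≤ 1 → ∃ x, π x = z := by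
    intro z hz hs h1
    choose a ha hd using fun i : Finset H × ℕ => kapl_dense_sa π hz hs
      (fun k => (i.1.equivFin.symm k : H)) (Nat.one_div_pos_of_nat (α := ℝ) (n := i.2))
    have h2 : ∀ η ∈ Set.univ, Tendsto (fun i => π (a i) η) (atTop ×ˢ atTop) (𝓝 (z η)) := by
      intro η _
      rw [tendsto_iff_norm_sub_tendsto_zero]
      refine squeeze_zero' (Eventually.of_forall fun _ => norm_nonneg _) ?_
        (tendsto_one_div_add_atTop_nhds_zero_nat.comp tendsto_snd)
      filter_upwards [tendsto_fst.eventually (eventually_ge_atTop {η})] with i hi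
      have := hd i (i.1.equivFin ⟨η, hi (Finset.mem_singleton_self η)⟩)
      rw [Equiv.symm_apply_apply] at this
      exact this.le
    have h3 := P078.kaplansky (fun i => (ha i).map π) hs h1 (K := ⊤) isClosed_univ
      (fun _ _ => trivial) subset_closure h2
    obtain ⟨x, hx⟩ := hw (Ultrafilter.of (atTop ×ˢ atTop)) (fun i => cfc P078.kapF (a i))
      fun i => norm_cfc_le zero_le_one fun t _ => P078.abs_kapF_le t
    refine ⟨x, ContinuousLinearMap.ext fun ζ => ext_inner_left ℂ fun η =>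
      tendsto_nhds_unique (hx η ζ) ?_⟩
    refine ((tendsto_const_nhds.inner (h3 ζ trivial)).mono_left (Ultrafilter.of_le _)).congr
      fun i => ?_
    rw [π.map_cfc P078.kapF (a i) P078.continuous_kapF.continuousOn (gns_cont π) (ha i)
      ((ha i).map π)]
  have k2 : ∀ z ∈ (vnComm (Set.range π)).commutant, IsSelfAdjoint z → ∃ x, π x = z := by
    intro z hz hs
    have h0 : 0 < ‖z‖ + 1 := by positivity
    obtain ⟨x, hx⟩ := k1 _ (vn_rsmul_mem (‖z‖ + 1)⁻¹ hz) ((IsSelfAdjoint.all _).smul hs) (by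
      rw [norm_smul, norm_inv, Real.norm_of_nonneg h0.le, inv_mul_le_iff₀ h0]
      linarith)
    refine ⟨((‖z‖ + 1 : ℝ) : ℂ) • x, ?_⟩
    rw [map_smul, hx, Complex.coe_smul, smul_smul, mul_inv_cancel₀ h0.ne', one_smul]
  obtain ⟨a, ha⟩ := k2 _ (add_mem hy (star_mem hy)) (IsSelfAdjoint.add_star_self y)
  obtain ⟨b, hb⟩ := k2 (Complex.I • (star y - y))
    (SMulMemClass.smul_mem _ (sub_mem (star_mem hy) hy)) (by
      rw [IsSelfAdjoint, star_smul, star_sub, star_star, RCLike.star_def, Complex.conj_I, neg_smul,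
        ← smul_neg, neg_sub])
  refine ⟨(1 / 2 : ℂ) • (a + Complex.I • b), ?_⟩
  rw [map_smul, map_add, map_smul, ha, hb, smul_smul, Complex.I_mul_I]
  module

/-- Make `M.toStarSubalgebra` a C*-algebra with the spectral order (see `P078.exists_walg`), use
`PositiveLinearMap.gnsStarAlgHom` and `P078.hat`. Let `N` be the bicommutant of the range. A
selfadjoint contraction `z ∈ N` is a strong limit of `π (a i)` (`kapl_dense_sa`), then of
`π (cfc kapF (a i))` (`P078.kaplansky`); a weak cluster point `x` of `cfc kapF (a i)`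
(`exists_wot_lim`) has `π x = z` by `predual_tendsto`. The projection on the closure of `N' ξ` is
in `N` and fixes the separating vector `ξ`. -/
theorem exists_gns (M : VonNeumannAlgebra H) {φ : M.toStarSubalgebra →L[ℂ] ℂ}
    (hφ : IsFNState M φ) :
    ∃ (K : Type u) (_ : NormedAddCommGroup K) (_ : InnerProductSpace ℂ K) (_ : CompleteSpace K)
      (N : VonNeumannAlgebra K) (ξ : K) (π : M.toStarSubalgebra →⋆ₐ[ℂ] Op K),
      (∀ y, y ∈ N ↔ ∃ x, π x = y) ∧ (∀ x, ‖π x‖ = ‖x‖) ∧ ‖ξ‖ = 1 ∧ Dense (orb N ξ) ∧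
      Dense (orb N.commutant ξ) ∧ (∀ x, φ x = ⟪ξ, π x ξ⟫_ℂ) ∧
      ∀ η : K, ∃ ω ∈ predual M, ∀ x, ω x = ⟪η, π x η⟫_ℂ := by
  have hM : IsClosed (M.toStarSubalgebra : Set (Op H)) := vn_isClosed M
  obtain ⟨K, _, _, _, Λ, π, hΛ, h1, h2⟩ := gns_abs φ hφ.2.2.1
  have hinj : ∀ x, π x (Λ 1) = 0 → x = 0 := fun x hx => hφ.2.2.2 x (by
    rw [h1, mul_one] at hx
    rw [← h2, hx, inner_zero_left])
  let πL : M.toStarSubalgebra →L[ℂ] Op K := ⟨π.toLinearMap, gns_cont π⟩
  have hpre : ∀ η ζ : K,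
      (innerSL ℂ η).comp ((ContinuousLinearMap.apply ℂ K ζ).comp πL) ∈ predual M := by
    refine hΛ.induction_on₂ (isClosed_closure.preimage (by fun_prop)) fun a b =>
      predual_conj hφ.1 (star a) b fun x => ?_
    change ⟪Λ a, π x (Λ b)⟫_ℂ = _
    rw [h1, h2, mul_assoc]
  have hN : ∀ y, y ∈ (vnComm (Set.range π)).commutant ↔ ∃ x, π x = y := by
    refine fun y => ⟨gns_vn π fun U a ha => ?_, ?_⟩
    · obtain ⟨L, -, hL⟩ := exists_wot_lim U (fun i => (a i : Op H)) 1 ha
      have hT : L ∈ M := (mem_iff_comm M).2 fun g hg => by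
        refine ContinuousLinearMap.ext fun η => ext_inner_left ℂ fun ζ => ?_
        rw [mul_apply_eq_comp, mul_apply_eq_comp, ← inner_star_left]
        refine tendsto_nhds_unique ((hL _ _).congr fun i => ?_) (hL _ _)
        rw [inner_star_left, ← mul_apply_eq_comp, comm_of_mem hg (a i).2, mul_apply_eq_comp]
      exact ⟨⟨L, hT⟩, fun η ζ => predual_tendsto (y := ⟨L, hT⟩) (hpre η ζ) ha fun η ζ => hL ζ η⟩
    · rintro ⟨x, rfl⟩
      exact VonNeumannAlgebra.mem_commutant_iff.2 fun s hs =>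
        ((mem_vnComm.1 hs _ ⟨x, rfl⟩).1).symm
  refine ⟨K, _, _, inferInstance, (vnComm (Set.range π)).commutant, Λ 1, π, hN,
    NonUnitalStarAlgHom.norm_map π ((injective_iff_map_eq_zero π).2 fun x hx =>
      hinj x (by rw [hx, zero_apply])), ?_, hΛ.mono ?_, fun η => ?_, fun x => ?_,
    fun η => ⟨_, hpre η η, fun _ => rfl⟩⟩
  · have := h2 1 1
    rw [star_one, mul_one, hφ.2.1, inner_self_eq_norm_sq_to_K] at this
    refine (pow_eq_one_iff_of_nonneg (norm_nonneg _) two_ne_zero).1 ?_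
    have h4 := congrArg Complex.re this
    simpa [← Complex.ofReal_pow] using h4
  · rintro _ ⟨x, rfl⟩
    exact ⟨π x, (hN _).2 ⟨x, rfl⟩, by rw [h1, mul_one]⟩
  · refine (projOn_orb_iff _ _ _).1 ?_
    obtain ⟨x, hx⟩ := (hN (projOn (orb (vnComm (Set.range π)).commutant.commutant (Λ 1)))).1 (by
      rw [← VonNeumannAlgebra.commutant_commutant (vnComm (Set.range π)).commutant]
      refine projOn_comm ?_
      rintro s hs _ ⟨t, ht, rfl⟩
      rw [VonNeumannAlgebra.commutant_commutant]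
      exact ⟨s * t, mul_mem hs (by simpa using ht), rfl⟩)
    have hm : Λ 1 ∈ orb (vnComm (Set.range π)).commutant.commutant (Λ 1) :=
      ⟨1, one_mem _, rfl⟩
    have h3 : 1 - x = 0 := hinj _ (by
      rw [map_sub, map_one, hx, sub_apply, one_apply_eq_self, projOn_apply_of_mem hm, sub_self])
    rw [← hx, ← sub_eq_zero.1 h3, map_one, one_apply_eq_self]
  · rw [h1, h2, star_one, one_mul, mul_one]

end Vale.Agent.P132
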