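import Vale.Agent.P132.FCB

/-! P132: construction of the functional calculus from `R`. -/

namespace Vale.Agent.P132

open scoped InnerProductSpace BoundedContinuousFunction
open Filter Topology MeasureTheory Vale.Agent.P104

universe u

variable {H : Type u} [NormedAddCommGroup H] [InnerProductSpace ℂ H] [CompleteSpace H]

/-- `lift g r = √(r (2 - r)) g (log ((2 - r) / r))` on `(0, 2)` and `0` elsewhere -/
noncomputable def lift (g : ℝ → ℝ) (r : ℝ) : ℝ :=
  if 0 < r ∧ r < 2 then √(r * (2 - r)) * g (Real.log ((2 - r) / r)) else 0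

theorem lift_rr (g : ℝ → ℝ) (u : ℝ) : lift g (rr u) = sech u * g u := by
  have hs := sech_pos u
  have e : (2 - rr u) / rr u = Real.exp u := by
    rw [div_eq_iff (rr_pos u).ne']
    unfold rr
    field_simp
    ring
  rw [lift, if_pos ⟨rr_pos u, rr_lt_two u⟩, ← sech_sq, Real.sqrt_sq hs.le, e, Real.log_exp]

theorem continuous_lift {g : ℝ → ℝ} (hg : Continuous g) {C : ℝ} (hC : ∀ u, |g u| ≤ C) :
    Continuous (lift g) := by
  rw [continuous_iff_continuousAt]
  intro r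
  by_cases hr : 0 < r ∧ r < 2
  · have h1 : ContinuousAt (fun r : ℝ => √(r * (2 - r)) * g (Real.log ((2 - r) / r))) r := by
      have h2 : ContinuousAt (fun r : ℝ => Real.log ((2 - r) / r)) r :=
        ContinuousAt.log (ContinuousAt.div (by fun_prop) continuousAt_id hr.1.ne')
          (div_pos (sub_pos.2 hr.2) hr.1).ne'
      exact ContinuousAt.mul (by fun_prop) (hg.continuousAt.comp h2)
    refine h1.congr ?_
    filter_upwards [Ioo_mem_nhds hr.1 hr.2] with x hx
    rw [lift, if_pos ⟨hx.1, hx.2⟩]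
  · have h0 : √(r * (2 - r)) = 0 := by
      refine Real.sqrt_eq_zero_of_nonpos ?_
      rcases not_and_or.1 hr with h | h <;> nlinarith [not_lt.1 h]
    have h1 : Tendsto (fun x : ℝ => √(x * (2 - x)) * C) (𝓝 r) (𝓝 0) := by
      have h2 : ContinuousAt (fun x : ℝ => √(x * (2 - x)) * C) r := by fun_prop
      simpa [h0] using h2.tendsto
    rw [ContinuousAt, lift, if_neg hr]
    refine squeeze_zero_norm (fun x => ?_) h1
    have hC0 : 0 ≤ C := (abs_nonneg _).trans (hC 0)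
    rw [lift]
    split_ifs
    · rw [norm_mul, Real.norm_of_nonneg (Real.sqrt_nonneg _)]
      exact mul_le_mul_of_nonneg_left (hC _) (Real.sqrt_nonneg _)
    · rw [norm_zero]
      positivity

theorem lift_neg (g : ℝ → ℝ) (r : ℝ) : lift (fun u => g (-u)) r = lift g (2 - r) := by
  unfold lift
  by_cases hr : 0 < r ∧ r < 2
  · rw [if_pos hr, if_pos ⟨sub_pos.2 hr.2, sub_lt_self _ hr.1⟩, sub_sub_cancel, mul_comm r]
    beta_reduce
    rw [← Real.log_inv, inv_div]
  · rw [if_neg hr, if_neg fun h => hr ⟨by linarith [h.2], by linarith [h.1]⟩]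

/-- evaluation at a point -/
noncomputable def liftEv (u : ℝ) : (ℝ →ᵇ ℂ) →⋆ₐ[ℂ] ℂ where
  toFun f := f u
  map_one' := rfl
  map_mul' _ _ := rfl
  map_zero' := rfl
  map_add' _ _ := rfl
  commutes' c := by simp
  map_star' _ := rfl

theorem lift_cont_re (f : ℝ →ᵇ ℂ) : Continuous (lift fun u => (f u).re) :=
  continuous_lift (by fun_prop) fun u => (Complex.abs_re_le_norm _).trans (f.norm_coe_le_norm u)

theorem lift_cont_im (f : ℝ →ᵇ ℂ) : Continuous (lift fun u => (f u).im) :=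
  continuous_lift (by fun_prop) fun u => (Complex.abs_im_le_norm _).trans (f.norm_coe_le_norm u)

theorem lift_map_cfc {A B : Type*} [CStarAlgebra A] [CStarAlgebra B] (π : A →⋆ₐ[ℂ] B)
    (ev : ℝ → A →⋆ₐ[ℂ] ℂ) (hsep : ∀ a b, (∀ u, ev u a = ev u b) → a = b) {φ r : ℝ → ℝ}
    (hφ : Continuous φ) {a f : A} (ha : IsSelfAdjoint a) (hr : ∀ u, ev u a = r u)
    (hf : ∀ u, ev u f = φ (r u)) : π f = cfc φ (π a) := by
  have e : f = cfc φ a := by
    refine hsep _ _ fun u => ?_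
    have h1 := (ev u).map_cfc φ a hφ.continuousOn (map_continuous _) ha (ha.map _)
    have h2 : ev u a = algebraMap ℝ ℂ (r u) := hr u
    rw [h2, cfc_algebraMap] at h1
    rw [hf]
    exact h1.symm
  have hc : Continuous π := AddMonoidHomClass.continuous_of_bound π 1 fun g => by
    rw [one_mul]
    exact NonUnitalStarAlgHom.norm_apply_le π g
  rw [e]
  exact π.map_cfc φ a hφ.continuousOn hc ha (ha.map _)

/-- `StarAlgHom.map_cfc` for `Θ` and for the evaluations at points -/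
theorem FC.Θ_cfc (F : FC H) {φ : ℝ → ℝ} (hφ : Continuous φ) {f : ℝ →ᵇ ℂ}
    (h : ∀ u, f u = (φ (rr u) : ℂ)) : F.Θ f = cfc φ F.R := by
  have hsa : IsSelfAdjoint rB := by
    ext u
    simp
  exact lift_map_cfc F.Θ liftEv (fun a b h => BoundedContinuousFunction.ext h) hφ hsa
    (fun _ => rfl) h

theorem FC.T_mul_Θ (F : FC H) (f : ℝ →ᵇ ℂ) : F.T * F.Θ f =
    cfc (lift fun u => (f u).re) F.R + Complex.I • cfc (lift fun u => (f u).im) F.R := by
  have h1 := F.Θ_cfc (lift_cont_re f) (f := (1 / 2 : ℂ) • (sechB * (f + star f))) fun u => by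
    rw [lift_rr]
    simp [Complex.add_conj]
    ring
  have h2 := F.Θ_cfc (lift_cont_im f) (f := (-Complex.I / 2 : ℂ) • (sechB * (f - star f))) fun u => by
    rw [lift_rr]
    simp [Complex.sub_conj]
    linear_combination (-(sech u : ℂ) * (f u).im) * Complex.I_mul_I
  rw [← h1, ← h2, FC.T, ← map_mul, ← map_smul, ← map_add]
  congr 1
  ext u
  simp
  linear_combination ((sech u : ℂ) * (f u - (starRingEnd ℂ) (f u)) / 2) * Complex.I_mul_I

theorem FC.comm_of_R (F : FC H) {Y : Op H} (h : F.R * Y = Y * F.R) (f : ℝ →ᵇ ℂ) :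
    F.Θ f * Y = Y * F.Θ f := by
  have h1 : ∀ g, Commute (F.T * F.Θ g) Y := fun g => by
    rw [F.T_mul_Θ]
    exact (Commute.cfc_real h _).add_left ((Commute.cfc_real h _).smul_left _)
  have h2 : Commute F.T Y := by simpa using h1 1
  refine F.T_cancel ?_
  rw [← mul_assoc, (h1 f).eq, ← mul_assoc, ← h2.eq, mul_assoc]

/-- the complex version of `lift` -/
noncomputable def liftC (f : ℝ →ᵇ ℂ) (z : ℂ) : ℂ :=
  (lift (fun u => (f u).re) z.re : ℝ) + (lift (fun u => (f u).im) z.re : ℝ) * Complex.I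

theorem continuous_liftC (f : ℝ →ᵇ ℂ) : Continuous (liftC f) := by
  have h1 := lift_cont_re f
  have h2 := lift_cont_im f
  unfold liftC
  fun_prop

theorem liftC_cases (z : ℂ) :
    (∀ f, liftC f z = 0) ∨ ∃ u, z.re = rr u ∧ ∀ f, liftC f z = sech u * f u := by
  by_cases h : 0 < z.re ∧ z.re < 2
  · obtain ⟨u, hu⟩ := exists_rr h.1 h.2
    refine Or.inr ⟨u, hu.symm, fun f => ?_⟩
    rw [liftC, ← hu, lift_rr, lift_rr, Complex.ofReal_mul, Complex.ofReal_mul, mul_assoc, ← mul_add,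
      Complex.re_add_im]
  · refine Or.inl fun f => ?_
    simp [liftC, lift, h]

theorem liftC_sq {r : ℝ} (h0 : 0 ≤ r) (h2 : r ≤ 2) : liftC 1 r * liftC 1 r = r * (2 - r) := by
  have e : liftC 1 r = (√(r * (2 - r)) : ℝ) := by
    by_cases h : 0 < r ∧ r < 2
    · simp [liftC, lift, h]
    · have h3 : r * (2 - r) = 0 := by
        rcases not_and_or.1 h with h | h
        · rw [le_antisymm (not_lt.1 h) h0, zero_mul]
        · rw [le_antisymm h2 (not_lt.1 h), sub_self, mul_zero]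
      simp [liftC, lift, h, h3]
  rw [e, ← Complex.ofReal_mul, Real.mul_self_sqrt (mul_nonneg h0 (sub_nonneg.2 h2))]
  push_cast
  rfl

open scoped ComplexOrder in

/-- Put `L f = cfc (lift (re f)) R + I • cfc (lift (im f)) R` and `T = L 1`, which is injective
(`T * T = R * (2 - R)`), selfadjoint, hence of dense range. `L f * L g = T * L (f * g)`,
`‖L f η‖ ≤ ‖f‖ ‖T η‖`; define `Θ f` by `Θ f (T η) = L f η` (`LinearMap.extendOfNorm`). -/
theorem exists_fc {R : Op H} (hR : IsSelfAdjoint R) (h0 : ∀ η, 0 ≤ qf R η)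
    (h2 : ∀ η, qf R η ≤ 2 * ‖η‖ ^ 2) (i0 : ∀ η, R η = 0 → η = 0)
    (i2 : ∀ η, (2 - R) η = 0 → η = 0) : ∃ F : FC H, F.R = R := by
  have hn : IsStarNormal R := hR.isStarNormal
  have hsp : ∀ z ∈ spectrum ℂ R, ∃ r : ℝ, z = r ∧ 0 ≤ r ∧ r ≤ 2 := by
    intro z hz
    have h3 : (z.re : ℂ) = z := (hR.mem_spectrum_eq_re hz).symm
    have h4 : z.re ∈ spectrum ℝ R := by
      rw [← spectrum.algebraMap_mem_iff ℂ]
      exact h3.symm ▸ hz
    have h5 : R ≤ algebraMap ℝ (Op H) 2 := by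
      rw [Algebra.algebraMap_eq_smul_one]
      refine (le_iff_qf hR ((IsSelfAdjoint.all (2 : ℝ)).smul (IsSelfAdjoint.one _))).2 fun η => ?_
      rw [qf_rsmul, qf_one]
      exact h2 η
    exact ⟨z.re, h3.symm, spectrum_nonneg_of_nonneg (nonneg_iff_qf.2 ⟨hR, h0⟩) h4,
      (le_algebraMap_iff_spectrum_le hR).1 h5 _ h4⟩
  obtain ⟨L, hL⟩ : ∃ L : (ℝ →ᵇ ℂ) → Op H, ∀ f, L f = cfc (liftC f) R := ⟨_, fun _ => rfl⟩
  have hc := fun f => (continuous_liftC f).continuousOn (s := spectrum ℂ R)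
  have hmul : ∀ f g f' g', f * g = f' * g' → L f * L g = L f' * L g' := by
    intro f g f' g' e
    rw [hL, hL, hL, hL, ← cfc_mul _ _ R (hc _) (hc _), ← cfc_mul _ _ R (hc _) (hc _)]
    refine cfc_congr fun z _ => ?_
    rcases liftC_cases z with h | ⟨u, -, h⟩
    · simp only [h]
    · simp only [h]
      rw [mul_mul_mul_comm, mul_mul_mul_comm _ (f' u)]
      exact congrArg (fun k : ℝ →ᵇ ℂ => (sech u : ℂ) * sech u * k u) e
  have hadd : ∀ f g, L (f + g) = L f + L g := by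
    intro f g
    rw [hL, hL, hL, ← cfc_add R _ _ (hc _) (hc _)]
    refine cfc_congr fun z _ => ?_
    rcases liftC_cases z with h | ⟨u, -, h⟩ <;> simp [h, mul_add]
  have hsmul : ∀ (c : ℂ) f, L (c • f) = c • L f := by
    intro c f
    rw [hL, hL, ← cfc_smul c _ R (hc _)]
    refine cfc_congr fun z _ => ?_
    rcases liftC_cases z with h | ⟨u, -, h⟩ <;> simp [h, mul_left_comm]
  have hstar : ∀ f, L (star f) = star (L f) := by
    intro f
    rw [hL, hL, ← cfc_star]
    refine cfc_congr fun z _ => ?_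
    rcases liftC_cases z with h | ⟨u, -, h⟩ <;> simp [h]
  have hsub : cfc (fun z : ℂ => 2 - z) R = 2 - R := by
    rw [cfc_sub (fun _ => 2) (fun z => z) R, cfc_id' ℂ R, cfc_const (2 : ℂ) R, map_ofNat]
  have hTT : L 1 * L 1 = R * (2 - R) := by
    rw [hL, ← cfc_mul _ _ R (hc _) (hc _), ← hsub]
    nth_rewrite 2 [← cfc_id' ℂ R]
    rw [← cfc_mul _ _ R]
    refine cfc_congr fun z hz => ?_
    obtain ⟨r, rfl, h3, h4⟩ := hsp z hz
    exact liftC_sq h3 h4
  have hRT : L rB = R * L 1 := by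
    rw [hL, hL]
    nth_rewrite 2 [← cfc_id' ℂ R]
    rw [← cfc_mul _ _ R (by fun_prop) (hc _)]
    refine cfc_congr fun z hz => ?_
    obtain ⟨r, rfl, -⟩ := hsp z hz
    rcases liftC_cases r with h | ⟨u, hu, h⟩
    · simp [h]
    · rw [Complex.ofReal_re] at hu
      simp only [h]
      rw [hu]
      simp [mul_comm]
  have hS : L sechB = L 1 * L 1 := by
    rw [hL, hL, ← cfc_mul _ _ R (hc _) (hc _)]
    refine cfc_congr fun z _ => ?_
    rcases liftC_cases z with h | ⟨u, -, h⟩ <;> simp [h]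
  have hT : star (L 1) = L 1 := by rw [← hstar, star_one]
  have hinj : ∀ η, L 1 η = 0 → η = 0 := fun η h => i2 η (i0 _ (by
    change (R * (2 - R)) η = 0
    rw [← hTT]
    change L 1 (L 1 η) = 0
    rw [h, map_zero]))
  have hd : DenseRange (L 1) := by
    refine Submodule.dense_iff_topologicalClosure_eq_top (s := LinearMap.range (L 1).toLinearMap) |>.2 ?_
    rw [Submodule.topologicalClosure_eq_top_iff, Submodule.eq_bot_iff]
    intro η hη
    refine hinj η (inner_self_eq_zero (𝕜 := ℂ).1 ?_)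
    have h3 : ⟪L 1 (L 1 η), η⟫_ℂ = 0 := hη _ ⟨L 1 η, rfl⟩
    rw [← inner_star_right, hT, ← inner_conj_symm, h3, map_zero]
  have hbd : ∀ f η, ‖L f η‖ ≤ ‖f‖ * ‖L 1 η‖ := by
    intro f η
    have h3 : star (L f) * L f ≤ star (L ((‖f‖ : ℂ) • 1)) * L ((‖f‖ : ℂ) • 1) := by
      rw [hL, hL, ← cfc_star, ← cfc_star, ← cfc_mul _ _ R (hc _).star (hc _),
        ← cfc_mul _ _ R (hc _).star (hc _)]
      refine cfc_mono (fun z _ => ?_) ((hc _).star.mul (hc _)) ((hc _).star.mul (hc _))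
      rw [RCLike.star_def, RCLike.conj_mul, RCLike.conj_mul, ← RCLike.ofReal_pow, ← RCLike.ofReal_pow,
        RCLike.ofReal_le_ofReal]
      refine pow_le_pow_left₀ (norm_nonneg _) ?_ 2
      rcases liftC_cases z with h | ⟨u, -, h⟩
      · rw [h, h]
      · rw [h, h, norm_mul, norm_mul]
        refine mul_le_mul_of_nonneg_left ?_ (norm_nonneg _)
        simpa using f.norm_coe_le_norm u
    have h4 := (le_iff_qf (IsSelfAdjoint.star_mul_self _) (IsSelfAdjoint.star_mul_self _)).1 h3 η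
    rw [qf_star_mul_self, qf_star_mul_self, hsmul, smul_apply, norm_smul, Complex.norm_real,
      norm_norm] at h4
    exact (pow_le_pow_iff_left₀ (norm_nonneg _) (by positivity) two_ne_zero).1 h4
  have hex : ∀ f, ∃ Y : Op H, Y * L 1 = L f := fun f =>
    ⟨(L f).toLinearMap.extendOfNorm (L 1).toLinearMap, ContinuousLinearMap.ext fun η =>
      LinearMap.extendOfNorm_eq hd ⟨‖f‖, hbd f⟩ η⟩
  choose Θ hΘ using hex
  have hcr : ∀ a b : Op H, a * L 1 = b * L 1 → a = b := fun a b h =>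
    DFunLike.coe_injective (hd.equalizer a.continuous b.continuous
      (congrArg (fun k : Op H => (k : H → H)) h))
  have hcl : ∀ a b : Op H, L 1 * a = L 1 * b → a = b := fun a b h =>
    ContinuousLinearMap.ext fun η => sub_eq_zero.1 (hinj _ (by
      rw [map_sub, sub_eq_zero]
      exact congrArg (fun k : Op H => k η) h))
  have hΘ' : ∀ f, L 1 * Θ f = L f := fun f => hcr _ _ (by
    rw [mul_assoc, hΘ]
    exact hmul _ _ _ _ (mul_comm _ _))
  have h1 : Θ 1 = 1 := hcr _ _ (by rw [hΘ, one_mul])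
  have ha : ∀ f g, Θ (f + g) = Θ f + Θ g := fun f g => hcr _ _ (by rw [add_mul, hΘ, hΘ, hΘ, hadd])
  have hs : ∀ (c : ℂ) f, Θ (c • f) = c • Θ f := fun c f =>
    hcr _ _ (by rw [smul_mul_assoc, hΘ, hΘ, hsmul])
  have hm : ∀ f g, Θ (f * g) = Θ f * Θ g := fun f g => hcr _ _ (hcl _ _ (by
    rw [hΘ, mul_assoc, hΘ, ← mul_assoc, hΘ']
    exact hmul _ _ _ _ (one_mul _)))
  let Θ₁ : (ℝ →ᵇ ℂ) →ₗ[ℂ] Op H := ⟨⟨Θ, ha⟩, hs⟩
  refine ⟨⟨⟨AlgHom.ofLinearMap Θ₁ h1 hm, fun f => hcr _ _ ?_⟩, fun η hη => hinj η ?_⟩,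
    hcr _ _ ((hΘ rB).trans hRT)⟩
  · change Θ (star f) * L 1 = star (Θ f) * L 1
    rw [hΘ, hstar, ← hΘ', star_mul, hT]
  · have h3 : Θ sechB = L 1 := hcr _ _ ((hΘ _).trans hS)
    rw [← h3]
    exact hη

end Vale.Agent.P132
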