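import Vale.Agent.P132.RvD
import Vale.Agent.P132.Lift

/-! P132: the modular conjugation, `A = J T`. -/

namespace Vale.Agent.P132

open scoped InnerProductSpace BoundedContinuousFunction
open Filter Topology MeasureTheory Vale.Agent.P104

universe u

variable {H : Type u} [NormedAddCommGroup H] [InnerProductSpace ℂ H] [CompleteSpace H]

omit [CompleteSpace H] in
theorem j_rsmul (A : H →L⋆[ℂ] H) (r : ℝ) (η : H) : A (r • η) = r • A η := by
  rw [← Complex.coe_smul, ← Complex.coe_smul, map_smulₛₗ, Complex.conj_ofReal]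

/-- `ContinuousMap.induction_on_of_compact` or polynomial approximation -/
theorem conj_cfc {A : H →L⋆[ℂ] H} {a b : Op H} (ha : IsSelfAdjoint a) (hb : IsSelfAdjoint b)
    (h : ∀ η, A (a η) = b (A η)) {φ : ℝ → ℝ} (hφ : Continuous φ) (η : H) :
    A (cfc φ a η) = cfc φ b (A η) := by
  have hp : ∀ (p : Polynomial ℝ) (η : H),
      A (Polynomial.aeval a p η) = Polynomial.aeval b p (A η) := by
    intro p
    induction p using Polynomial.induction_on with
    | C c =>
      intro η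
      rw [Polynomial.aeval_C, Polynomial.aeval_C, Algebra.algebraMap_eq_smul_one,
        _root_.smul_apply, _root_.smul_apply, j_rsmul]
      rfl
    | add p q hp hq =>
      intro η
      simp only [map_add, _root_.add_apply, hp, hq]
    | monomial n c ih =>
      intro η
      rw [pow_succ, ← mul_assoc, map_mul, map_mul (Polynomial.aeval b), Polynomial.aeval_X,
        Polynomial.aeval_X, mul_apply_eq_comp, mul_apply_eq_comp, ih, h]
  have hs : ∀ {c : Op H}, IsSelfAdjoint c → ∀ (p : Polynomial ℝ) (M ε : ℝ), ‖c‖ ≤ M → 0 ≤ ε →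
      (∀ x ∈ Set.Icc (-M) M, |p.eval x - φ x| < ε) → ‖Polynomial.aeval c p - cfc φ c‖ ≤ ε := by
    intro c hc p M ε hM hε hpε
    rw [← cfc_polynomial p c, ← cfc_sub _ _ c]
    refine norm_cfc_le hε fun x hx => (hpε x (abs_le.1 ?_)).le
    rcases subsingleton_or_nontrivial H with hH | hH
    · simp [spectrum.of_subsingleton] at hx
    · exact (spectrum.norm_le_norm_of_mem hx).trans hM
  refine eq_of_norm_sub_le_zero (le_of_forall_pos_le_add fun ε hε => ?_)
  obtain ⟨p, hpε⟩ := exists_polynomial_near_of_continuousOn (-(‖a‖ + ‖b‖)) (‖a‖ + ‖b‖) φ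
    hφ.continuousOn (ε / (2 * (‖A‖ * ‖η‖) + 1)) (by positivity)
  have h1 := hs ha p _ _ (le_add_of_nonneg_right (norm_nonneg b)) (by positivity) hpε
  have h2 := hs hb p _ _ (le_add_of_nonneg_left (norm_nonneg a)) (by positivity) hpε
  have e : A (cfc φ a η) - cfc φ b (A η) =
      (Polynomial.aeval b p - cfc φ b) (A η) - A ((Polynomial.aeval a p - cfc φ a) η) := by
    rw [_root_.sub_apply, _root_.sub_apply, map_sub, hp]
    abel
  have h3 := (A.le_opNorm _).trans (mul_le_mul_of_nonneg_left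
    ((Polynomial.aeval a p - cfc φ a).le_of_opNorm_le h1 η) (norm_nonneg A))
  have h4 := ((Polynomial.aeval b p - cfc φ b).le_of_opNorm_le h2 (A η)).trans
    (mul_le_mul_of_nonneg_left (A.le_opNorm η) (by positivity))
  have h5 : ε / (2 * (‖A‖ * ‖η‖) + 1) * (2 * (‖A‖ * ‖η‖) + 1) = ε :=
    div_mul_cancel₀ _ (by positivity)
  have h6 : 0 ≤ ε / (2 * (‖A‖ * ‖η‖) + 1) := by positivity
  rw [e]
  refine (norm_sub_le _ _).trans ?_
  linarith

theorem j_lift {W : Set H} {A : H →L⋆[ℂ] H} (F : FC H) (h : RvD W F.R A) {g : ℝ → ℝ}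
    (hg : Continuous g) {C : ℝ} (hC : ∀ u, |g u| ≤ C) (η : H) :
    A (cfc (lift g) F.R η) = cfc (lift fun u => g (-u)) F.R (A η) := by
  have hR := F.R_sa
  have e : cfc (fun r : ℝ => 2 - r) F.R = 2 - F.R := by
    rw [cfc_sub _ _ F.R, cfc_const _ F.R, cfc_id' ℝ F.R, map_ofNat]
  have hl := continuous_lift hg hC
  rw [conj_cfc hR (b := 2 - F.R) (e ▸ cfc_predicate _ _) h.AR hl, ← e,
    ← cfc_comp' (lift g) _ F.R, funext (lift_neg g)]

theorem j_TΘ {W : Set H} {A : H →L⋆[ℂ] H} (F : FC H) (h : RvD W F.R A) (f : ℝ →ᵇ ℂ) (η : H) :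
    A (F.T (F.Θ f η)) = F.T (F.Θ (flat f) (A η)) := by
  have e1 : (fun u => (flat f u).re) = fun u => (f (-u)).re := by
    funext u
    simp
  have e2 : (lift fun u => (flat f u).im) = fun r => -lift (fun u => (f (-u)).im) r := by
    funext r
    simp only [lift, flat_apply, Complex.conj_im]
    split_ifs <;> simp
  rw [← mul_apply_eq_comp, ← mul_apply_eq_comp, F.T_mul_Θ, F.T_mul_Θ, e1, e2, cfc_neg,
    _root_.add_apply, _root_.add_apply, _root_.smul_apply,
    _root_.smul_apply, map_add, map_smulₛₗ,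
    j_lift F h (g := fun u => (f u).re) (by fun_prop) (C := ‖f‖)
      fun u => (Complex.abs_re_le_norm _).trans (f.norm_coe_le_norm u),
    j_lift F h (g := fun u => (f u).im) (by fun_prop) (C := ‖f‖)
      fun u => (Complex.abs_im_le_norm _).trans (f.norm_coe_le_norm u),
    Complex.conj_I, _root_.neg_apply, neg_smul, smul_neg]

/-- `‖A η‖ = ‖T η‖` and `T` has dense range. `A` commutes with `T` and
`A (T Θ f η) = Θ (flat f) T (A η)` by `T_mul_Θ`, `conj_cfc`, `lift_neg`. For the last point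
approximate `k` by `P T ζ = T P ζ` and use `im_A`. -/
theorem exists_J {W : Set H} {A : H →L⋆[ℂ] H} (F : FC H) (h : RvD W F.R A) :
    ∃ J : H →L⋆[ℂ] H, (∀ η, J (J η) = η) ∧ (∀ η ζ, ⟪J η, J ζ⟫_ℂ = ⟪ζ, η⟫_ℂ) ∧
      (∀ η, J (F.T η) = A η) ∧ (∀ f η, J (F.Θ f η) = F.Θ (flat f) (J η)) ∧
      ∀ k ∈ closure W, ∀ k' ∈ closure W, (⟪J k, k'⟫_ℂ).im = 0 := by
  have hT : ∀ η ζ, ⟪F.T η, ζ⟫_ℂ = ⟪η, F.T ζ⟫_ℂ := fun η ζ => by
    rw [← inner_star_left, F.T_sa.star_eq]
  have hAA : ∀ η, A (A η) = F.T (F.T η) := fun η => by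
    rw [h.AA, ← mul_apply_eq_comp, ← F.T_mul_T, mul_apply_eq_comp]
  have hin : ∀ η ζ, ⟪A η, A ζ⟫_ℂ = ⟪F.T ζ, F.T η⟫_ℂ := fun η ζ => by
    rw [h.symm, hAA, hT]
  have hn : ∀ η, ‖A η‖ ≤ 1 * ‖F.T η‖ := fun η => by
    rw [one_mul, @norm_eq_sqrt_re_inner ℂ, hin, ← @norm_eq_sqrt_re_inner ℂ]
  have hd := F.denseRange_T
  obtain ⟨J, hJ⟩ : ∃ J : H →L⋆[ℂ] H, ∀ η, J (F.T η) = A η :=
    ⟨LinearMap.extendOfNorm A.toLinearMap F.T.toLinearMap,
      LinearMap.extendOfNorm_eq (f := A.toLinearMap) (e := F.T.toLinearMap) hd ⟨1, hn⟩⟩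
  have h1 : ∀ f η, A (F.T (F.Θ f η)) = F.T (F.Θ (flat f) (A η)) := j_TΘ F h
  have h2 : ∀ η, A (F.T η) = F.T (A η) := fun η => by
    have e : flat 1 = 1 := by
      ext u
      simp
    have h3 := h1 1 η
    rwa [e, map_one] at h3
  have h3 : ∀ f η, A (F.Θ f η) = F.Θ (flat f) (A η) := fun f η => by
    refine sub_eq_zero.1 (F.T_inj ?_)
    rw [map_sub, ← h2, h1, sub_self]
  have h4 : ∀ η, J (F.T η) = F.T (J η) := fun η => by
    induction η using hd.induction_on with
    | hp => exact isClosed_eq (by fun_prop) (by fun_prop)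
    | ih η => rw [hJ, hJ, h2]
  refine ⟨J, fun η => ?_, fun η ζ => ?_, hJ, fun f η => ?_, fun k hk k' hk' => ?_⟩
  · induction η using hd.induction_on with
    | hp => exact isClosed_eq (by fun_prop) (by fun_prop)
    | ih η =>
      refine sub_eq_zero.1 (F.T_inj ?_)
      rw [map_sub, ← h4, hJ, hJ, hAA, sub_self]
  · induction η, ζ using hd.induction_on₂ with
    | hp => exact isClosed_eq (by fun_prop) (by fun_prop)
    | h η ζ => rw [hJ, hJ, hin]
  · induction η using hd.induction_on with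
    | hp => exact isClosed_eq (by fun_prop) (by fun_prop)
    | ih η =>
      have e : F.Θ f (F.T η) = F.T (F.Θ f η) := by
        rw [← mul_apply_eq_comp, ← mul_apply_eq_comp, FC.T, F.Θ_comm]
      rw [e, hJ, hJ, h3]
  · have key : ∀ x, (⟪J (F.R x + A x), k'⟫_ℂ).im = 0 := fun x => by
      induction x using hd.induction_on with
      | hp => exact isClosed_eq (by fun_prop) (by fun_prop)
      | ih ζ =>
        obtain ⟨k₁, hk₁, e⟩ := h.P_mem ζ
        have e2 : F.R (F.T ζ) = F.T (F.R ζ) := by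
          rw [← mul_apply_eq_comp, ← mul_apply_eq_comp, FC.T, FC.R, F.Θ_comm]
        rw [e2, h2, ← map_add, hJ, e, two_smul, map_add, inner_add_left, Complex.add_im,
          h.im_A hk₁ hk', add_zero]
    have h5 := key k
    rw [h.P_fix hk, two_smul, map_add, inner_add_left, Complex.add_im] at h5
    linarith

end Vale.Agent.P132
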