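import Vale.Agent.P132.Tom2
import Vale.Agent.P132.J

/-! P132: Tomita theory III, the standard form. -/

namespace Vale.Agent.P132

open scoped InnerProductSpace BoundedContinuousFunction
open Filter Topology MeasureTheory Vale.Agent.P104

universe u

variable {H : Type u} [NormedAddCommGroup H] [InnerProductSpace ℂ H] [CompleteSpace H]

theorem Tom3_mem {M : VonNeumannAlgebra H} {ξ : H} {a : Op H} (ha : a ∈ M) (hs : IsSelfAdjoint a) :
    a ξ ∈ closure (saOrb M ξ : Set H) := subset_closure ⟨a, ha, hs, rfl⟩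

theorem Pre.inner_J_star {M : VonNeumannAlgebra H} {ξ : H} {F : FC H} {A J : H →L⋆[ℂ] H}
    (h : Pre M ξ F A J) {x y : Op H} (hx : x ∈ M) (hy : y ∈ M) :
    ⟪J (star x ξ), star y ξ⟫_ℂ = ⟪y ξ, J (x ξ)⟫_ℂ := by
  obtain ⟨a, ha, b, hb, h1, h2, e1, e2⟩ := Tom2_split hx
  obtain ⟨c, hc, d, hd, h3, h4, e3, e4⟩ := Tom2_split hy
  have key : ∀ k ∈ closure (saOrb M ξ : Set H), ∀ k' ∈ closure (saOrb M ξ : Set H),
      ⟪k', J k⟫_ℂ = ⟪J k, k'⟫_ℂ := fun k hk k' hk' => by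
    rw [← inner_conj_symm, Complex.conj_eq_iff_im]
    exact h.im k hk k' hk'
  rw [e2, e4, e1, e3]
  simp only [sub_apply, add_apply, smul_apply, map_sub, map_add, map_smulₛₗ, inner_sub_left,
    inner_sub_right, inner_add_left, inner_add_right, inner_smul_left, inner_smul_right,
    Complex.conj_I, map_neg, key _ (Tom3_mem ha h1) _ (Tom3_mem hc h3),
    key _ (Tom3_mem ha h1) _ (Tom3_mem hd h4), key _ (Tom3_mem hb h2) _ (Tom3_mem hc h3),
    key _ (Tom3_mem hb h2) _ (Tom3_mem hd h4)]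
  ring

/-- `im` gives `⟪J x* ξ, y* ξ⟫ = conj ⟪J x ξ, y ξ⟫` for `x, y ∈ M`. Replace `y` by `y n` with
`n = J y' J ∈ M`: `⟪J y' ξ, (J x J) y* ξ⟫ = ⟪J y' ξ, y* (J x J) ξ⟫`. -/
theorem Pre.jconj_mem {M : VonNeumannAlgebra H} {ξ : H} {F : FC H} {A J : H →L⋆[ℂ] H}
    (h : Pre M ξ F A J) (hξ : J ξ = ξ) {x : Op H} (hx : x ∈ M) : jconj J x ∈ M.commutant := by
  have h1 : ∀ y ∈ M, jconj J x (y ξ) = y (jconj J x ξ) := by
    intro y hy
    have h2 : J (jconj J x (y ξ)) = J (y (jconj J x ξ)) := by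
      refine h.cyc'.eq_of_inner_left ℂ ?_
      rintro _ ⟨y', hy', rfl⟩
      have hn := h.σ_jconj hy' 0
      rw [F.σ_zero] at hn
      have h3 := h.inner_J_star hx (mul_mem (star_mem hy) hn)
      have h4 : y' (star x ξ) = star x (y' ξ) :=
        congrArg (fun z : Op H => z ξ) (comm_of_mem hy' (star_mem hx))
      have h5 : ⟪J (star x ξ), star (star y * jconj J y') ξ⟫_ℂ = ⟪x (J (y ξ)), y' ξ⟫_ℂ := by
        rw [star_mul, star_star, mul_apply_eq_comp, inner_star_right, jconj_apply, h.JJ, h4,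
          ← h.JJ (y ξ), h.inner_J, inner_star_right, h.JJ]
      have h6 : ⟪(star y * jconj J y') ξ, J (x ξ)⟫_ℂ = ⟪J (y (J (x ξ))), y' ξ⟫_ℂ := by
        rw [mul_apply_eq_comp, inner_star_left, jconj_apply, hξ, ← h.inner_J, h.JJ]
      rw [jconj_apply, jconj_apply, h.JJ, hξ, ← h5, ← h6, h3]
    rw [← h.JJ (jconj J x (y ξ)), h2, h.JJ]
  refine VonNeumannAlgebra.mem_commutant_iff.2 fun z hz => ?_
  refine ContinuousLinearMap.coeFn_injective (Continuous.ext_on h.cyc (z * jconj J x).continuous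
    (jconj J x * z).continuous ?_)
  rintro _ ⟨y, hy, rfl⟩
  rw [mul_apply_eq_comp, mul_apply_eq_comp, h1 y hy]
  exact (h1 (z * y) (mul_mem hz hy)).symm

/-- `exists_rvd`, `inj0`, `inj2` (for `k` in the closure of `saOrb` and selfadjoint `y'` in the
commutant `⟪y' ξ, k⟫` is real), `exists_fc`, `exists_J` -/
theorem exists_pre (M : VonNeumannAlgebra H) {ξ : H} (h : Dense (orb M ξ))
    (h' : Dense (orb M.commutant ξ)) : ∃ F A J, Pre M ξ F A J := by
  obtain ⟨R, A, hR⟩ := exists_rvd (saOrb M ξ)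
  obtain ⟨F, rfl⟩ := exists_fc hR.sa hR.nonneg hR.le_two
    (hR.inj0 fun η hη => h.eq_zero_of_inner_right ℂ (by
      rintro _ ⟨x, hx, rfl⟩
      obtain ⟨a, ha, b, hb, h1, h2, e, -⟩ := Tom2_split hx
      rw [e, add_apply, smul_apply, inner_add_left, inner_smul_left, hη _ ⟨a, ha, h1, rfl⟩,
        hη _ ⟨b, hb, h2, rfl⟩, mul_zero, add_zero]))
    (hR.inj2 fun k₁ hk₁ k₂ hk₂ e => h'.eq_zero_of_inner_right ℂ (by
      have key : ∀ y ∈ M.commutant, IsSelfAdjoint y → ⟪y ξ, k₁⟫_ℂ = 0 := by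
        intro y hy hs
        have h1 : closure (saOrb M ξ : Set H) ⊆ {k | (⟪y ξ, k⟫_ℂ).im = 0} := by
          refine closure_minimal ?_ (isClosed_eq (by fun_prop) continuous_const)
          rintro _ ⟨a, ha, h2, rfl⟩
          refine Complex.conj_eq_iff_im.1 ?_
          rw [inner_conj_symm, ← inner_star_right, ← inner_star_right, h2.star_eq, hs.star_eq]
          exact congrArg (fun z : Op H => ⟪ξ, z ξ⟫_ℂ) (comm_of_mem hy ha).symm
        have h2 : (⟪y ξ, k₂⟫_ℂ).im = 0 := h1 hk₂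
        refine Complex.ext ?_ (h1 hk₁)
        rw [e, inner_smul_right]
        simp [h2]
      rintro _ ⟨x, hx, rfl⟩
      obtain ⟨a, ha, b, hb, h1, h2, e, -⟩ := Tom2_split hx
      rw [e, add_apply, smul_apply, inner_add_left, inner_smul_left, key a ha h1, key b hb h2,
        mul_zero, add_zero]))
  obtain ⟨J, j1, j2, j3, j4, j5⟩ := exists_J F hR
  exact ⟨F, A, J, h, h', hR, j1, j2, j3, j4, j5⟩

/-- `R ξ = ξ = A ξ` by `im0` and `onW`, `T ξ = ξ` by `eig`; `core` from `dec` -/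
theorem exists_sf (M : VonNeumannAlgebra H) {ξ : H} (h1 : ‖ξ‖ = 1) (h : Dense (orb M ξ))
    (h' : Dense (orb M.commutant ξ)) : ∃ S : SF H, S.M = M ∧ S.ξ = ξ := by
  obtain ⟨F, A, J, hP⟩ := exists_pre M h h'
  have a1 : A ξ = F.R ξ := hP.rvd.im0 ξ (by
    rintro _ ⟨a, -, ha, rfl⟩
    refine Complex.conj_eq_iff_im.1 ?_
    rw [inner_conj_symm, ← inner_star_right, ha.star_eq])
  have a2 : A ξ = (2 - F.R) ξ := hP.rvd.onW ξ (Tom3_mem (one_mem M) (IsSelfAdjoint.one _))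
  have a3 : F.R ξ = ξ := by
    rw [a1, sub_apply, eq_sub_iff_add_eq, ← two_smul ℂ, ← one_add_one_eq_two (R := Op H),
      add_apply, one_apply_eq_self, ← two_smul ℂ] at a2
    exact smul_right_injective H two_ne_zero a2
  have a4 : F.T ξ = ξ := by
    have := F.eig (s := 0) (η := ξ) (by rw [rr_zero, a3]; simp) sechB
    rw [FC.T, this]
    simp [sech]
  have a5 : J ξ = ξ := by
    have := hP.JT ξ
    rwa [a4, a1, a3] at this
  have a6 : flat sechB = sechB := by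
    ext u
    rw [flat_apply, sechB_apply, sechB_apply, sech_neg, Complex.conj_ofReal]
  refine ⟨⟨F, M, ξ, h1, h, h', J, hP.JJ, hP.inner_J, a5, a3, hP.J_Θ, fun x hx => ?_,
    fun x hx => hP.jconj_mem a5 hx, fun x hx t => ?_, fun ζ => ?_⟩, rfl, rfl⟩
  · have := hP.J_Θ sechB (star x ξ)
    rw [a6] at this
    rw [← hP.A_star hx, ← hP.JT]
    exact this.symm
  · have e : jconj J (jconj J x) = x := by
      ext η
      simp only [jconj_apply, hP.JJ]
    have := hP.σ_jconj (hP.jconj_mem a5 hx) t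
    rwa [e] at this
  · obtain ⟨k₁, hk₁, k₂, hk₂, e1, e2⟩ := hP.rvd.dec ζ
    rw [hP.JT, e1, e2]
    refine map_mem_closure₂ (f := fun k₁ k₂ : H => (k₁ + Complex.I • k₂, k₁ - Complex.I • k₂))
      (by fun_prop) hk₁ hk₂ ?_
    rintro _ ⟨a, ha, h2, rfl⟩ _ ⟨b, hb, h3, rfl⟩
    refine ⟨a + Complex.I • b, add_mem ha (SMulMemClass.smul_mem _ hb), ?_⟩
    rw [star_add, star_smul, h2.star_eq, h3.star_eq, Complex.star_def, Complex.conj_I, neg_smul,
      ← sub_eq_add_neg]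
    rfl

end Vale.Agent.P132
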