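import Vale.Agent.P132.FCB

/-! P132: identities between functions of two variables pass to `Θ f * Y * Θ g`. -/

namespace Vale.Agent.P132

open scoped InnerProductSpace BoundedContinuousFunction
open Filter Topology MeasureTheory Vale.Agent.P104

universe u

variable {H : Type u} [NormedAddCommGroup H] [InnerProductSpace ℂ H] [CompleteSpace H]

/-- the clamp function -/
noncomputable def bmCl (t : ℝ) : ℝ := max 0 (min 1 t)

theorem bmCl_mono : Monotone bmCl := fun _ _ h => max_le_max le_rfl (min_le_min le_rfl h)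

theorem bmCl_nonneg (t : ℝ) : 0 ≤ bmCl t := le_max_left _ _

theorem bmCl_le_one (t : ℝ) : bmCl t ≤ 1 := max_le zero_le_one (min_le_left _ _)

theorem bmCl_of_le {t : ℝ} (h : t ≤ 0) : bmCl t = 0 := max_eq_left ((min_le_right _ _).trans h)

theorem bmCl_of_ge {t : ℝ} (h : 1 ≤ t) : bmCl t = 1 := by
  rw [bmCl, min_eq_left h, max_eq_right zero_le_one]

/-- the hat function of width `1 / N` at `x` -/
noncomputable def bmHat (N x u : ℝ) : ℝ := bmCl (N * (u - x) + 1) - bmCl (N * (u - x))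

theorem bmHat_nonneg (N x u : ℝ) : 0 ≤ bmHat N x u := sub_nonneg.2 (bmCl_mono (by linarith))

theorem bmHat_near {N x u : ℝ} (hN : 0 < N) (h : bmHat N x u ≠ 0) : |u - x| ≤ 1 / N := by
  by_contra h1
  rw [not_le, div_lt_iff₀ hN, lt_iff_not_ge, ← abs_of_pos hN, ← abs_mul, abs_le, not_and_or,
    not_le, not_le] at h1
  refine h ?_
  rcases h1 with h1 | h1
  · rw [bmHat, bmCl_of_le (by linarith), bmCl_of_le (by linarith), sub_self]
  · rw [bmHat, bmCl_of_ge (by linarith), bmCl_of_ge (by linarith), sub_self]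

noncomputable def bmHatB (N x : ℝ) : ℝ →ᵇ ℂ :=
  reB (bmHat N x) (by unfold bmHat bmCl; fun_prop) 1 fun u => by
    rw [abs_of_nonneg (bmHat_nonneg N x u), bmHat]
    linarith [bmCl_le_one (N * (u - x) + 1), bmCl_nonneg (N * (u - x))]

/-- the interpolation nodes -/
noncomputable def bmPts (n : ℕ) : Finset ℝ :=
  (Finset.range (2 * (n + 1) ^ 2 + 1)).image fun i : ℕ => (i : ℝ) / (n + 1) - (n + 1)

theorem bm_sum_hat (n : ℕ) (u : ℝ) : ∑ x ∈ bmPts n, bmHat (n + 1) x u =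
    bmCl ((n + 1) * u + (n + 1) ^ 2 + 1) - bmCl ((n + 1) * u - (n + 1) ^ 2) := by
  have hN : (0 : ℝ) < n + 1 := by positivity
  rw [bmPts, Finset.sum_image fun i _ j _ h => by
    have h1 : (i : ℝ) / (n + 1) = (j : ℝ) / (n + 1) := sub_left_injective h
    exact_mod_cast (div_left_inj' hN.ne').1 h1]
  have e : ∀ i : ℕ, bmHat (n + 1) ((i : ℝ) / (n + 1) - (n + 1)) u =
      bmCl ((n + 1) * u + (n + 1) ^ 2 + 1 - i) -
        bmCl ((n + 1) * u + (n + 1) ^ 2 + 1 - ((i + 1 : ℕ) : ℝ)) := by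
    intro i
    unfold bmHat
    congr 2
    · field_simp
      ring
    · push_cast
      field_simp
      ring
  simp only [e]
  rw [Finset.sum_range_sub' fun i : ℕ => bmCl ((n + 1) * u + (n + 1) ^ 2 + 1 - i)]
  congr 2
  · simp
  · push_cast
    ring

theorem bm_sum_hat_le (n : ℕ) (u : ℝ) : ∑ x ∈ bmPts n, bmHat (n + 1) x u ≤ 1 := by
  rw [bm_sum_hat]
  linarith [bmCl_le_one ((n + 1) * u + (n + 1) ^ 2 + 1), bmCl_nonneg ((n + 1) * u - (n + 1) ^ 2)]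

theorem bm_sum_hat_eq (n : ℕ) {u : ℝ} (hu : |u| ≤ n + 1) :
    ∑ x ∈ bmPts n, bmHat (n + 1) x u = 1 := by
  have hN : (0 : ℝ) < n + 1 := by positivity
  rw [abs_le] at hu
  rw [bm_sum_hat, bmCl_of_ge (by nlinarith), bmCl_of_le (by nlinarith), sub_zero]

/-- the interpolation operator -/
noncomputable def bmP (n : ℕ) (f : ℝ →ᵇ ℂ) : ℝ →ᵇ ℂ := ∑ x ∈ bmPts n, f x • bmHatB (n + 1) x

theorem bmP_apply (n : ℕ) (f : ℝ →ᵇ ℂ) (u : ℝ) :
    bmP n f u = ∑ x ∈ bmPts n, f x * (bmHat (n + 1) x u : ℂ) := by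
  simp [bmP, bmHatB]

theorem bm_norm_sum_le (n : ℕ) (u : ℝ) {a : ℝ → ℂ} {C : ℝ} (hC : 0 ≤ C)
    (h : ∀ x, |u - x| ≤ 1 / (n + 1) → ‖a x‖ ≤ C) :
    ‖∑ x ∈ bmPts n, a x * (bmHat (n + 1) x u : ℂ)‖ ≤ C := by
  calc _ ≤ ∑ x ∈ bmPts n, C * bmHat (n + 1) x u := by
        refine norm_sum_le_of_le _ fun x _ => ?_
        rw [norm_mul, Complex.norm_real, Real.norm_eq_abs, abs_of_nonneg (bmHat_nonneg _ _ _)]
        by_cases h0 : bmHat (n + 1) x u = 0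
        · simp [h0]
        · exact mul_le_mul_of_nonneg_right (h x (bmHat_near (by positivity) h0))
            (bmHat_nonneg _ _ _)
    _ ≤ C := by
        rw [← Finset.mul_sum]
        exact mul_le_of_le_one_right hC (bm_sum_hat_le n u)

theorem norm_bmP_le (n : ℕ) (f : ℝ →ᵇ ℂ) : ‖bmP n f‖ ≤ ‖f‖ := by
  refine (BoundedContinuousFunction.norm_le (norm_nonneg _)).2 fun u => ?_
  rw [bmP_apply]
  exact bm_norm_sum_le n u (norm_nonneg _) fun x _ => f.norm_coe_le_norm x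

theorem bmP_loc (f : ℝ →ᵇ ℂ) (L : ℝ) {ε : ℝ} (hε : 0 < ε) :
    ∀ᶠ n in atTop, ∀ u, |u| ≤ L → ‖(bmP n f - f) u‖ ≤ ε := by
  have hu : UniformContinuousOn f (Set.Icc (-(L + 1)) (L + 1)) :=
    isCompact_Icc.uniformContinuousOn_of_continuous f.continuous.continuousOn
  obtain ⟨δ, hδ, hf⟩ := Metric.uniformContinuousOn_iff.1 hu ε hε
  have h1 : ∀ᶠ n : ℕ in atTop, 1 / ((n : ℝ) + 1) < δ :=
    tendsto_one_div_add_atTop_nhds_zero_nat.eventually (gt_mem_nhds hδ)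
  have h2 : ∀ᶠ n : ℕ in atTop, L ≤ (n : ℝ) := tendsto_natCast_atTop_atTop.eventually_ge_atTop L
  filter_upwards [h1, h2] with n hn1 hn2 u huL
  have e : (bmP n f - f) u = ∑ x ∈ bmPts n, (f x - f u) * (bmHat (n + 1) x u : ℂ) := by
    have h3 : ∑ x ∈ bmPts n, (bmHat (n + 1) x u : ℂ) = 1 := by
      exact_mod_cast bm_sum_hat_eq n (u := u) (by linarith)
    simp only [BoundedContinuousFunction.coe_sub, Pi.sub_apply, bmP_apply, sub_mul,
      Finset.sum_sub_distrib, ← Finset.mul_sum, h3, mul_one]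
  rw [e]
  refine bm_norm_sum_le n u hε.le fun x hx => ?_
  have h4 : 1 / ((n : ℝ) + 1) ≤ 1 := by
    rw [div_le_one (by positivity)]
    linarith [(Nat.cast_nonneg n : (0 : ℝ) ≤ n)]
  rw [← dist_eq_norm]
  have a1 := abs_le.1 huL
  have a2 := abs_le.1 (hx.trans h4)
  refine (hf x ⟨by linarith, by linarith⟩ u ⟨by linarith, by linarith⟩ ?_).le
  rw [Real.dist_eq, abs_sub_comm]
  exact hx.trans_lt hn1

namespace FC
variable (F : FC H)

/-- bounded and locally uniform convergence gives strong convergence -/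
theorem bm_strong {k : ℕ → ℝ →ᵇ ℂ} {C : ℝ} (hC : ∀ n, ‖k n‖ ≤ C)
    (h : ∀ L ε : ℝ, 0 < ε → ∀ᶠ n in atTop, ∀ u, |u| ≤ L → ‖k n u‖ ≤ ε) (ζ : H) :
    Tendsto (fun n => F.Θ (k n) ζ) atTop (𝓝 0) := by
  have hC0 : 0 ≤ C := (norm_nonneg _).trans (hC 0)
  rw [NormedAddGroup.tendsto_nhds_zero]
  intro ε hε
  obtain ⟨ζ', hζ⟩ := Metric.denseRange_iff.1 F.denseRange_T ζ (ε / (2 * (C + 1))) (by positivity)
  set τ := ε / (2 * (‖ζ'‖ + 1)) with hτ
  have hτ0 : 0 < τ := by positivity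
  filter_upwards [h (4 * C / τ) τ hτ0] with n hn
  have h1 : ‖k n * sechB‖ ≤ τ := by
    refine (BoundedContinuousFunction.norm_le hτ0.le).2 fun u => ?_
    simp only [BoundedContinuousFunction.coe_mul, Pi.mul_apply, sechB_apply, norm_mul,
      Complex.norm_real, Real.norm_eq_abs, abs_of_pos (sech_pos u)]
    by_cases hu : |u| ≤ 4 * C / τ
    · exact (mul_le_of_le_one_right (norm_nonneg _) (sech_le_one u)).trans (hn u hu)
    · rw [not_le, div_lt_iff₀ hτ0] at hu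
      have h2 : ‖k n u‖ ≤ C := ((k n).norm_coe_le_norm u).trans (hC n)
      have h3 := fcb_abs_sech u
      have h4 : 0 < |u| := by
        by_contra h5
        have : |u| = 0 := le_antisymm (not_lt.1 h5) (abs_nonneg u)
        rw [this] at hu
        linarith
      refine le_of_mul_le_mul_left ?_ h4
      calc |u| * (‖k n u‖ * sech u) = ‖k n u‖ * (|u| * sech u) := by ring
        _ ≤ C * 4 := mul_le_mul h2 h3 (mul_nonneg h4.le (sech_pos u).le) hC0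
        _ ≤ |u| * τ := by linarith
  have e : F.Θ (k n) ζ = F.Θ (k n) (ζ - F.T ζ') + F.Θ (k n * sechB) ζ' := by
    simp [T]
  have h2 : ‖F.Θ (k n) (ζ - F.T ζ')‖ ≤ C * (ε / (2 * (C + 1))) := by
    refine (ContinuousLinearMap.le_opNorm _ _).trans
      (mul_le_mul ((F.norm_Θ_le _).trans (hC n)) ?_ (norm_nonneg _) hC0)
    rw [← dist_eq_norm]
    exact hζ.le
  have h3 : ‖F.Θ (k n * sechB) ζ'‖ ≤ τ * ‖ζ'‖ :=
    (ContinuousLinearMap.le_opNorm _ _).trans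
      (mul_le_mul_of_nonneg_right ((F.norm_Θ_le _).trans h1) (norm_nonneg _))
  have h4 : C * (ε / (2 * (C + 1))) < ε / 2 := by
    rw [← mul_div_assoc, div_lt_div_iff₀ (by positivity) (by positivity)]
    nlinarith
  have h5 : τ * ‖ζ'‖ < ε / 2 := by
    rw [hτ, div_mul_eq_mul_div, div_lt_div_iff₀ (by positivity) (by positivity)]
    nlinarith
  rw [e]
  linarith [norm_add_le (F.Θ (k n) (ζ - F.T ζ')) (F.Θ (k n * sechB) ζ')]

theorem bm_norm_inner_le (f g : ℝ →ᵇ ℂ) (Y : Op H) (η ζ : H) :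
    ‖⟪η, (F.Θ f * Y * F.Θ g) ζ⟫_ℂ‖ ≤ ‖f‖ * ‖g‖ * (‖Y‖ * ‖η‖ * ‖ζ‖) := by
  have h1 : ‖F.Θ f * Y * F.Θ g‖ ≤ ‖f‖ * ‖Y‖ * ‖g‖ :=
    (norm_mul_le _ _).trans (mul_le_mul ((norm_mul_le _ _).trans
      (mul_le_mul_of_nonneg_right (F.norm_Θ_le f) (norm_nonneg _))) (F.norm_Θ_le g)
      (norm_nonneg _) (by positivity))
  calc _ ≤ ‖η‖ * ‖(F.Θ f * Y * F.Θ g) ζ‖ := norm_inner_le_norm _ _
    _ ≤ ‖η‖ * (‖f‖ * ‖Y‖ * ‖g‖ * ‖ζ‖) := mul_le_mul_of_nonneg_left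
        ((ContinuousLinearMap.le_opNorm _ _).trans
          (mul_le_mul_of_nonneg_right h1 (norm_nonneg _))) (norm_nonneg _)
    _ = _ := by ring

/-- Let `P n f = ∑ i ∈ Icc (-n²) n², f (i / n) • hat n i` with the hat functions
`hat n i u = max 0 (1 - |n u - i|)` (sum at most one, equal to one on `[-n, n]`). Then
`‖P n f‖ ≤ ‖f‖` and `sechB * P n f → sechB * f` uniformly, so `Θ (P n f) → Θ f` strongly, and
`star (P n f) = P n (star f)`. -/
theorem bm_core (Y : Op H) (η ζ : H) :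
    ∃ (I : ℕ → Finset (ℝ × ℝ)) (c : ℕ → ℝ × ℝ → ℂ), ∀ f g : ℝ →ᵇ ℂ,
      (∀ n, ‖∑ p ∈ I n, c n p * (f p.1 * g p.2)‖ ≤ ‖f‖ * ‖g‖ * (‖Y‖ * ‖η‖ * ‖ζ‖)) ∧
      Tendsto (fun n => ∑ p ∈ I n, c n p * (f p.1 * g p.2)) atTop
        (𝓝 ⟪η, (F.Θ f * Y * F.Θ g) ζ⟫_ℂ) := by
  refine ⟨fun n => bmPts n ×ˢ bmPts n,
    fun n p => ⟪η, (F.Θ (bmHatB (n + 1) p.1) * Y * F.Θ (bmHatB (n + 1) p.2)) ζ⟫_ℂ, fun f g => ?_⟩
  have e : ∀ n, ∑ p ∈ bmPts n ×ˢ bmPts n,
      ⟪η, (F.Θ (bmHatB (n + 1) p.1) * Y * F.Θ (bmHatB (n + 1) p.2)) ζ⟫_ℂ * (f p.1 * g p.2) =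
      ⟪η, (F.Θ (bmP n f) * Y * F.Θ (bmP n g)) ζ⟫_ℂ := by
    intro n
    rw [Finset.sum_product, bmP, bmP, map_sum, map_sum, Finset.sum_mul, Finset.sum_mul_sum,
      sum_apply, inner_sum]
    refine Finset.sum_congr rfl fun x _ => ?_
    rw [sum_apply, inner_sum]
    refine Finset.sum_congr rfl fun y _ => ?_
    rw [map_smul, map_smul, smul_mul_assoc, smul_mul_smul_comm, smul_apply, inner_smul_right,
      mul_comm]
  simp only [e]
  refine ⟨fun n => (F.bm_norm_inner_le _ _ Y η ζ).trans (mul_le_mul_of_nonneg_right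
    (mul_le_mul (norm_bmP_le n f) (norm_bmP_le n g) (norm_nonneg _) (norm_nonneg _))
    (by positivity)), ?_⟩
  have hb : ∀ (f : ℝ →ᵇ ℂ) n, ‖bmP n f - f‖ ≤ 2 * ‖f‖ := fun f n => by
    linarith [norm_sub_le (bmP n f) f, norm_bmP_le n f]
  have h1 : Tendsto (fun n => F.Θ (bmP n g) ζ) atTop (𝓝 (F.Θ g ζ)) := by
    rw [← tendsto_sub_nhds_zero_iff]
    simpa only [map_sub, sub_apply] using
      F.bm_strong (hb g) (fun L ε hε => bmP_loc g L hε) ζ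
  have h2 : Tendsto (fun n => star (F.Θ (bmP n f)) η) atTop (𝓝 (star (F.Θ f) η)) := by
    rw [← tendsto_sub_nhds_zero_iff]
    have := F.bm_strong (k := fun n => star (bmP n f - f)) (C := 2 * ‖f‖)
      (fun n => by rw [norm_star]; exact hb f n) (fun L ε hε => (bmP_loc f L hε).mono
        fun n hn u hu => by
          rw [BoundedContinuousFunction.star_apply, norm_star]
          exact hn u hu) η
    simpa only [star_sub, map_sub, map_star, sub_apply] using this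
  have h3 := h2.inner (𝕜 := ℂ) ((Y.continuous.tendsto _).comp h1)
  simpa only [inner_star_left, mul_apply_eq_comp, Function.comp_apply] using h3

/-- a dominated family of pairs of functions -/
structure Dom (f g : ℝ → ℝ →ᵇ ℂ) : Prop where
  cf : ∀ u, Continuous fun t => f t u
  cg : ∀ u, Continuous fun t => g t u
  bd : ∃ m : ℝ → ℝ, Integrable m ∧ ∀ t, ‖f t‖ * ‖g t‖ ≤ m t

theorem bm_integrable {f g : ℝ → ℝ →ᵇ ℂ} (h : Dom f g) (Y : Op H) (η ζ : H) :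
    Integrable fun t => ⟪η, (F.Θ (f t) * Y * F.Θ (g t)) ζ⟫_ℂ := by
  obtain ⟨I, c, hc⟩ := F.bm_core Y η ζ
  obtain ⟨m, hm, hb⟩ := h.bd
  refine (hm.mul_const (‖Y‖ * ‖η‖ * ‖ζ‖)).mono' ?_ (Eventually.of_forall fun t =>
    (F.bm_norm_inner_le _ _ Y η ζ).trans (mul_le_mul_of_nonneg_right (hb t) (by positivity)))
  refine aestronglyMeasurable_of_tendsto_ae atTop
    (f := fun n t => ∑ p ∈ I n, c n p * (f t p.1 * g t p.2)) (fun n => ?_)
    (Eventually.of_forall fun t => (hc (f t) (g t)).2)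
  exact (continuous_finsetSum _ fun p _ =>
    continuous_const.mul ((h.cf p.1).mul (h.cg p.2))).aestronglyMeasurable

theorem bm_tendsto {Y : Op H} {η ζ : H} {I : ℕ → Finset (ℝ × ℝ)} {c : ℕ → ℝ × ℝ → ℂ}
    (hc : ∀ f g : ℝ →ᵇ ℂ,
      (∀ n, ‖∑ p ∈ I n, c n p * (f p.1 * g p.2)‖ ≤ ‖f‖ * ‖g‖ * (‖Y‖ * ‖η‖ * ‖ζ‖)) ∧
      Tendsto (fun n => ∑ p ∈ I n, c n p * (f p.1 * g p.2)) atTop
        (𝓝 ⟪η, (F.Θ f * Y * F.Θ g) ζ⟫_ℂ)) {f g : ℝ → ℝ →ᵇ ℂ} (h : Dom f g) :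
    Tendsto (fun n => ∑ p ∈ I n, c n p * ∫ t, f t p.1 * g t p.2) atTop
      (𝓝 (∫ t, ⟪η, (F.Θ (f t) * Y * F.Θ (g t)) ζ⟫_ℂ)) := by
  obtain ⟨m, hm, hb⟩ := h.bd
  have hi : ∀ u v, Integrable fun t => f t u * g t v := fun u v =>
    hm.mono' ((h.cf u).mul (h.cg v)).aestronglyMeasurable (Eventually.of_forall fun t => by
      rw [norm_mul]
      exact (mul_le_mul ((f t).norm_coe_le_norm u) ((g t).norm_coe_le_norm v) (norm_nonneg _)
        (norm_nonneg _)).trans (hb t))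
  have e : ∀ n, ∑ p ∈ I n, c n p * ∫ t, f t p.1 * g t p.2 =
      ∫ t, ∑ p ∈ I n, c n p * (f t p.1 * g t p.2) := by
    intro n
    rw [integral_finsetSum _ fun p _ => (hi p.1 p.2).const_mul _]
    simp only [integral_const_mul]
  simp only [e]
  refine tendsto_integral_of_dominated_convergence (fun t => m t * (‖Y‖ * ‖η‖ * ‖ζ‖))
    (fun n => (continuous_finsetSum _ fun p _ =>
      continuous_const.mul ((h.cf p.1).mul (h.cg p.2))).aestronglyMeasurable)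
    (hm.mul_const _) (fun n => Eventually.of_forall fun t => ((hc (f t) (g t)).1 n).trans
      (mul_le_mul_of_nonneg_right (hb t) (by positivity)))
    (Eventually.of_forall fun t => (hc (f t) (g t)).2)

/-- dominated convergence -/
theorem bm {f g f' g' : ℝ → ℝ →ᵇ ℂ} (h : Dom f g) (h' : Dom f' g')
    (e : ∀ u v, ∫ t, f t u * g t v = ∫ t, f' t u * g' t v) (Y : Op H) (η ζ : H) :
    ∫ t, ⟪η, (F.Θ (f t) * Y * F.Θ (g t)) ζ⟫_ℂ = ∫ t, ⟪η, (F.Θ (f' t) * Y * F.Θ (g' t)) ζ⟫_ℂ := by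
  obtain ⟨I, c, hc⟩ := F.bm_core Y η ζ
  have h1 := F.bm_tendsto hc h
  simp only [e] at h1
  exact tendsto_nhds_unique h1 (F.bm_tendsto hc h')

theorem bm_one {f g : ℝ → ℝ →ᵇ ℂ} (h : Dom f g) {a b : ℝ →ᵇ ℂ}
    (e : ∀ u v, ∫ t, f t u * g t v = a u * b v) (Y : Op H) (η ζ : H) :
    ∫ t, ⟪η, (F.Θ (f t) * Y * F.Θ (g t)) ζ⟫_ℂ = ⟪η, (F.Θ a * Y * F.Θ b) ζ⟫_ℂ := by
  obtain ⟨I, c, hc⟩ := F.bm_core Y η ζ
  have h1 := F.bm_tendsto hc h
  simp only [e] at h1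
  exact tendsto_nhds_unique h1 (hc a b).2

theorem bm_two {f g f' g' : ℝ → ℝ →ᵇ ℂ} (h : Dom f g) (h' : Dom f' g') {a b : ℝ →ᵇ ℂ}
    (e : ∀ u v, (∫ t, f t u * g t v) + ∫ t, f' t u * g' t v = a u * b v) (Y : Op H) (η ζ : H) :
    (∫ t, ⟪η, (F.Θ (f t) * Y * F.Θ (g t)) ζ⟫_ℂ) + ∫ t, ⟪η, (F.Θ (f' t) * Y * F.Θ (g' t)) ζ⟫_ℂ =
      ⟪η, (F.Θ a * Y * F.Θ b) ζ⟫_ℂ := by
  obtain ⟨I, c, hc⟩ := F.bm_core Y η ζ
  have h1 := (F.bm_tendsto hc h).add (F.bm_tendsto hc h')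
  simp only [← Finset.sum_add_distrib, ← mul_add, e] at h1
  exact tendsto_nhds_unique h1 (hc a b).2

end FC

end Vale.Agent.P132
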