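import Vale.Agent.P132.Defs
import Vale.Agent.P104.Basic

/-! P132: auxiliary definitions (none of them appears in the final statement). -/

namespace Vale.Agent.P132

open scoped InnerProductSpace BoundedContinuousFunction
open Filter Topology MeasureTheory Vale.Agent.P104

universe u

/-- bounded operators -/
abbrev Op (H : Type*) [NormedAddCommGroup H] [InnerProductSpace ℂ H] := H →L[ℂ] H

/-! ### bounded continuous functions of the variable `u = log Δ` -/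

noncomputable def sech (u : ℝ) : ℝ := (Real.cosh (u / 2))⁻¹
noncomputable def rr (u : ℝ) : ℝ := 2 / (1 + Real.exp u)
noncomputable def gau (s w u : ℝ) : ℝ := Real.exp (-(u - s) ^ 2 / (2 * w ^ 2))
/-- the centered gaussian probability density with variance `w⁻¹ ^ 2` -/
noncomputable def kap (w t : ℝ) : ℝ := w / √(2 * Real.pi) * Real.exp (-(w ^ 2 * t ^ 2) / 2)
noncomputable def eps (w : ℝ) : ℝ := 1 - 2 * Real.exp (w ^ 2 / 16) + Real.exp (w ^ 2 / 4)

noncomputable def mkB (f : ℝ → ℂ) (hf : Continuous f) (C : ℝ) (hC : ∀ u, ‖f u‖ ≤ C) : ℝ →ᵇ ℂ :=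
  BoundedContinuousFunction.ofNormedAddCommGroup f hf C hC

@[simp] theorem mkB_apply (f hf C hC) (u : ℝ) : mkB f hf C hC u = f u := rfl

noncomputable def reB (f : ℝ → ℝ) (hf : Continuous f) (C : ℝ) (hC : ∀ u, |f u| ≤ C) : ℝ →ᵇ ℂ :=
  mkB (fun u => (f u : ℂ)) (Complex.continuous_ofReal.comp hf) C (fun u => by simpa using hC u)

@[simp] theorem reB_apply (f hf C hC) (u : ℝ) : reB f hf C hC u = (f u : ℂ) := rfl

theorem sech_pos (u : ℝ) : 0 < sech u := inv_pos.2 (Real.cosh_pos _)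
theorem sech_le_one (u : ℝ) : sech u ≤ 1 := inv_le_one_of_one_le₀ (Real.one_le_cosh _)
theorem continuous_sech : Continuous sech :=
  (Real.continuous_cosh.comp (continuous_id.div_const 2)).inv₀ fun _ => (Real.cosh_pos _).ne'
theorem rr_pos (u : ℝ) : 0 < rr u := by unfold rr; positivity
theorem rr_lt_two (u : ℝ) : rr u < 2 := by
  unfold rr
  rw [div_lt_iff₀ (by positivity)]
  linarith [Real.exp_pos u]
theorem continuous_rr : Continuous rr :=
  continuous_const.div (continuous_const.add Real.continuous_exp) fun u => by positivity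
theorem gau_pos (s w u : ℝ) : 0 < gau s w u := Real.exp_pos _
theorem gau_le_one (s w u : ℝ) : gau s w u ≤ 1 :=
  Real.exp_le_one_iff.2 (div_nonpos_of_nonpos_of_nonneg (neg_nonpos.2 (sq_nonneg _)) (by positivity))
theorem continuous_gau (s w : ℝ) : Continuous (gau s w) := by unfold gau; fun_prop

noncomputable def eB (t : ℝ) : ℝ →ᵇ ℂ :=
  mkB (fun u => Complex.exp (Complex.I * t * u)) (by fun_prop) 1 (fun u => by
    rw [mul_assoc, ← Complex.ofReal_mul, mul_comm, Complex.norm_exp_ofReal_mul_I])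
noncomputable def sechB : ℝ →ᵇ ℂ :=
  reB sech continuous_sech 1 fun u => by rw [abs_of_pos (sech_pos u)]; exact sech_le_one u
noncomputable def rB : ℝ →ᵇ ℂ :=
  reB rr continuous_rr 2 fun u => by rw [abs_of_pos (rr_pos u)]; exact (rr_lt_two u).le
noncomputable def gB (s w : ℝ) : ℝ →ᵇ ℂ :=
  reB (gau s w) (continuous_gau s w) 1 fun u => by
    rw [abs_of_pos (gau_pos s w u)]; exact gau_le_one s w u
/-- `u ↦ conj (f (-u))` -/
noncomputable def flat (f : ℝ →ᵇ ℂ) : ℝ →ᵇ ℂ := (star f).compContinuous ⟨Neg.neg, continuous_neg⟩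

@[simp] theorem eB_apply (t u : ℝ) : eB t u = Complex.exp (Complex.I * t * u) := rfl
@[simp] theorem sechB_apply (u : ℝ) : sechB u = (sech u : ℂ) := rfl
@[simp] theorem rB_apply (u : ℝ) : rB u = (rr u : ℂ) := rfl
@[simp] theorem gB_apply (s w u : ℝ) : gB s w u = (gau s w u : ℂ) := rfl
@[simp] theorem flat_apply (f : ℝ →ᵇ ℂ) (u : ℝ) : flat f u = (starRingEnd ℂ) (f (-u)) := rfl

variable {H : Type u} [NormedAddCommGroup H] [InnerProductSpace ℂ H] [CompleteSpace H]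

/-! ### functional calculus of an unbounded selfadjoint operator `X = log Δ` -/

/-- `Θ f = f (X)` -/
structure FC (H : Type u) [NormedAddCommGroup H] [InnerProductSpace ℂ H] [CompleteSpace H] where
  Θ : (ℝ →ᵇ ℂ) →⋆ₐ[ℂ] Op H
  inj : ∀ η, Θ sechB η = 0 → η = 0

namespace FC
variable (F : FC H)
/-- `Δ ^ (i t)` -/
noncomputable def Δ (t : ℝ) : Op H := F.Θ (eB t)
/-- `2 / (1 + Δ)` -/
noncomputable def R : Op H := F.Θ rB
/-- `2 / (Δ ^ (1/2) + Δ ^ (-1/2))` -/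
noncomputable def T : Op H := F.Θ sechB
noncomputable def σ (t : ℝ) (x : Op H) : Op H := F.Δ t * x * F.Δ (-t)
end FC

/-- strong integral `∫ κ t • V t dt` -/
noncomputable def si (κ : ℝ → ℂ) (V : ℝ → Op H) : Op H :=
  Classical.epsilon fun Y : Op H => ∀ η, Y η = ∫ t, κ t • V t η

/-- gaussian smoothing, `G s w x ξ = gau s w (X) (x ξ)` -/
noncomputable def FC.G (F : FC H) (s w : ℝ) (x : Op H) : Op H :=
  si (fun t => (kap w t : ℂ) * Complex.exp (-(Complex.I * t * s))) fun t => F.σ t x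

/-- `J x J` -/
noncomputable def jconj (J : H →L⋆[ℂ] H) (x : Op H) : Op H := J.comp (x.comp J)

omit [CompleteSpace H] in
@[simp] theorem jconj_apply (J : H →L⋆[ℂ] H) (x : Op H) (η : H) : jconj J x η = J (x (J η)) := rfl

/-- the orbit of a vector -/
def orb (N : Set (Op H)) (ξ : H) : Set H := {η | ∃ x ∈ N, η = x ξ}

/-- A von Neumann algebra with a cyclic and separating unit vector and its modular data. -/
structure SF (H : Type u) [NormedAddCommGroup H] [InnerProductSpace ℂ H] [CompleteSpace H]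
    extends FC H where
  M : VonNeumannAlgebra H
  ξ : H
  norm_ξ : ‖ξ‖ = 1
  cyc : Dense (orb M ξ)
  cyc' : Dense (orb M.commutant ξ)
  J : H →L⋆[ℂ] H
  JJ : ∀ η, J (J η) = η
  inner_J : ∀ η ζ, ⟪J η, J ζ⟫_ℂ = ⟪ζ, η⟫_ℂ
  J_ξ : J ξ = ξ
  R_ξ : toFC.R ξ = ξ
  J_Θ : ∀ f η, J (Θ f η) = Θ (flat f) (J η)
  half : ∀ x ∈ M, toFC.T (J (star x ξ)) = (2 - toFC.R) (x ξ)
  J_M : ∀ x ∈ M, jconj J x ∈ M.commutant
  σ_M : ∀ x ∈ M, ∀ t, toFC.σ t x ∈ M
  core : ∀ ζ, (toFC.R ζ, J (toFC.T ζ)) ∈ closure {p : H × H | ∃ x ∈ M, p = (x ξ, star x ξ)}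

/-! ### finite families -/

section Fam
variable {ι : Type*} [Fintype ι]

/-- the `ℓ²` norm of a finite family of vectors -/
noncomputable def l2 {E : Type*} [NormedAddCommGroup E] (v : ι → E) : ℝ := √(∑ k, ‖v k‖ ^ 2)

/-- `∑ x* x ≤ C ^ 2` -/
def Col (x : ι → Op H) (C : ℝ) : Prop := ∀ ζ, l2 (fun k => x k ζ) ≤ C * ‖ζ‖

/-- `∑ μ ^ 2 x x* ≤ C ^ 2` -/
def Row (x : ι → Op H) (μ : ι → ℝ) (C : ℝ) : Prop := Col (fun k => μ k • star (x k)) C

/-- `∑ x* x` -/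
noncomputable def gram (x : ι → Op H) : Op H := ∑ k, star (x k) * x k

/-- the functional `∑ ⟪v k, · v k⟫` is close on `N` to the vector state of `ξ` -/
def Near (N : VonNeumannAlgebra H) (ξ : H) (v : ι → H) (ε : ℝ) : Prop :=
  ∀ z ∈ N, ‖∑ k, ⟪v k, z (v k)⟫_ℂ - ⟪ξ, z ξ⟫_ℂ‖ ≤ ε * ‖z‖

end Fam

/-- the elements of `N` which commute with `A` and `A*` -/
noncomputable def inter (N : VonNeumannAlgebra H) (A : Set (Op H)) : VonNeumannAlgebra H :=
  vnComm ((N.commutant : Set (Op H)) ∪ A)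

namespace SF
variable (S : SF H)

/-- right multiplication, `ρ y η = η y` -/
noncomputable def ρ (y : Op H) : Op H := jconj S.J (star y)

/-- `x ξ - μ ξ x` -/
noncomputable def D (μ : ℝ) (x : Op H) : H := x S.ξ - μ • S.ρ x S.ξ

noncomputable def Dn {ι : Type*} [Fintype ι] (x : ι → Op H) (μ : ι → ℝ) : ℝ :=
  l2 fun k => S.D (μ k) (x k)

/-- the left and right functionals of the family are close to the state -/
def Bin (N : VonNeumannAlgebra H) {ι : Type*} [Fintype ι] (x : ι → Op H) (ε : ℝ) : Prop :=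
  Near N S.ξ (fun k => x k S.ξ) ε ∧ Near N S.ξ (fun k => S.J (x k S.ξ)) ε

structure Good (μ ε : ℝ) {ι : Type*} [Fintype ι] (x : ι → Op H) : Prop where
  mem : ∀ k, x k ∈ S.M
  col : Col x 1
  row : Row x (fun _ => μ) 2
  dn : S.Dn x (fun _ => μ) ≤ ε
  bin : S.Bin S.M x ε

/-- the centralizer -/
noncomputable def C : VonNeumannAlgebra H := inter S.M (Set.range S.Δ)

/-- vectors which commute with asymptotically centralizing sequences -/
def Hc : Set H :=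
  {η | ∀ ε > 0, ∃ K, 0 ≤ K ∧ ∀ w ∈ S.M, ‖w η - S.ρ w η‖ ≤ ε * ‖w‖ + K * ‖S.D 1 w‖}

/-- the bicentralizer -/
noncomputable def B : VonNeumannAlgebra H := (vnComm {a | a ∈ S.M ∧ a S.ξ ∈ S.Hc}).commutant

/-- the projection on `L² (B)` -/
noncomputable def E : Op H := projOn (orb S.B S.ξ)

/-- `b x ≈ x c` for bounded families with `x ξ ≈ μ ξ x` -/
def Itw (μ : ℝ) (b c : Op H) : Prop :=
  c ∈ S.M ∧ ∀ C ε : ℝ, 0 < ε → ∃ K, 0 ≤ K ∧ ∀ (ι : Type) [Fintype ι] (x : ι → Op H),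
    (∀ k, x k ∈ S.M) → Col x C → Row x (fun _ => μ) C →
      l2 (fun k => (b * x k - x k * c) S.ξ) ≤ ε + K * S.Dn x fun _ => μ

def HasW : Prop :=
  ∀ μ ε : ℝ, 0 < μ → 0 < ε → ∃ (ι : Type) (_ : Fintype ι) (x : ι → Op H), S.Good μ ε x

/-- the modular group is ergodic on the bicentralizer -/
def Erg : Prop := ∀ b ∈ S.B, (∀ t, S.σ t b = b) → ∃ c : ℂ, b = c • (1 : Op H)

/-- approximate eigenoperators exist in every corner `e M f` with `e`, `f` in the centralizer -/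
def Eig (μ : ℝ) (e f : Op H) : Prop :=
  ∀ δ > 0, ∃ x ∈ S.M, e * x = x ∧ x * f = x ∧ x ≠ 0 ∧ ‖S.D μ x‖ ≤ δ * ‖x S.ξ‖

end SF

/-- the consequence of the spectral hypothesis which is used in the proof -/
def Hin (M : VonNeumannAlgebra H) : Prop :=
  ∀ (I : Type u) (η : I → H), HasSum (fun i => ‖η i‖ ^ 2) 1 →
    (∀ x ∈ M, (∀ i, x (η i) = 0) → x = 0) → ∀ l δ : ℝ, 0 < l → 0 < δ →
      ∃ x ∈ M, ∑' i, ‖x (η i)‖ ^ 2 = 1 ∧ ∀ y ∈ M,
        ‖∑' i, ⟪star x (η i), star y (η i)⟫_ℂ - l * ∑' i, ⟪y (η i), x (η i)⟫_ℂ‖ ≤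
          δ * (√(∑' i, ‖y (η i)‖ ^ 2) + √(∑' i, ‖star y (η i)‖ ^ 2))

/-! ### finite averages over the real line -/

structure Av where
  ι : Type
  [fin : Fintype ι]
  [ne : Nonempty ι]
  t : ι → ℝ

instance (m : Av) : Fintype m.ι := m.fin
instance (m : Av) : Nonempty m.ι := m.ne

noncomputable def avg {E : Type*} [AddCommGroup E] [Module ℝ E] (m : Av) (f : ℝ → E) : E :=
  (Fintype.card m.ι : ℝ)⁻¹ • ∑ i, f (m.t i)

def Av.refl (m : Av) : Av := ⟨m.ι, fun i => -m.t i⟩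

/-- asymptotic translation invariance -/
def Inv (l : Filter Av) : Prop :=
  ∀ s ε : ℝ, 0 < ε → ∀ᶠ m in l, ∃ π : Equiv.Perm m.ι,
    (Nat.card {i // m.t (π i) ≠ m.t i + s} : ℝ) ≤ ε * Fintype.card m.ι

/-! ### joint approximate eigenvalues -/

structure JP (A : VonNeumannAlgebra H) where
  χ : Op H → ℂ
  l : Filter H
  ne : l.NeBot
  unit : ∀ᶠ η in l, ‖η‖ = 1
  lim : ∀ a ∈ A, Tendsto (fun η => a η - χ a • η) l (𝓝 0)

/-! ### Rieffel - van Daele data of a real subspace `W`: `R = P + Q`, `A = P - Q` -/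

structure RvD (W : Set H) (R : Op H) (A : H →L⋆[ℂ] H) : Prop where
  sa : IsSelfAdjoint R
  nonneg : ∀ η, 0 ≤ qf R η
  le_two : ∀ η, qf R η ≤ 2 * ‖η‖ ^ 2
  symm : ∀ η ζ, ⟪A η, ζ⟫_ℂ = ⟪A ζ, η⟫_ℂ
  AR : ∀ η, A (R η) = (2 - R) (A η)
  AA : ∀ η, A (A η) = R ((2 - R) η)
  onW : ∀ k ∈ closure W, A k = (2 - R) k
  dec : ∀ ζ, ∃ k₁ ∈ closure W, ∃ k₂ ∈ closure W,
    R ζ = k₁ + Complex.I • k₂ ∧ A ζ = k₁ - Complex.I • k₂
  im0 : ∀ η, (∀ k ∈ W, (⟪k, η⟫_ℂ).im = 0) → A η = R η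
  re0 : ∀ η, (∀ k ∈ W, (⟪k, η⟫_ℂ).re = 0) → A η = -R η

end Vale.Agent.P132
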