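import Mathlib

/-! Definitions used in the statement of the P132 result. -/

namespace Vale.Agent.P132

open scoped InnerProductSpace ComplexOrder
open Filter Topology

universe u

section Gns

variable {A : Type u} [Ring A] [StarRing A] [Algebra ℂ A]
  {K : Type u} [NormedAddCommGroup K] [InnerProductSpace ℂ K]

/-- `Λ : A → K` is the GNS map of the functional `ψ`. -/
def IsGNS (ψ : A → ℂ) (Λ : A →ₗ[ℂ] K) : Prop :=
  DenseRange Λ ∧ ∀ x y, ⟪Λ x, Λ y⟫_ℂ = ψ (star x * y)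

/-- The graph of the closure `S` of the conjugate linear map `Λ x ↦ Λ x*`. -/
def graphS (Λ : A →ₗ[ℂ] K) : Set (K × K) := closure {p | ∃ x, p = (Λ x, Λ (star x))}

/-- The graph of the modular operator `Δ = S* S`. -/
def graphDelta (Λ : A →ₗ[ℂ] K) : Set (K × K) :=
  {p | ∃ η, (p.1, η) ∈ graphS Λ ∧ ∀ q ∈ graphS Λ, ⟪q.2, η⟫_ℂ = ⟪p.2, q.1⟫_ℂ}

/-- The spectrum of the operator `D` with graph `Γ`: `D - l` has no bounded inverse. -/
def specOf (Γ : Set (K × K)) : Set ℂ :=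
  {l | ¬ ∃ T : K →L[ℂ] K, (∀ ζ, (T ζ, ζ + l • T ζ) ∈ Γ) ∧ ∀ p ∈ Γ, T (p.2 - l • p.1) = p.1}

/-- The spectrum of the modular operator of `ψ`. -/
def modSpec (ψ : A → ℂ) : Set ℂ :=
  {l | ∃ (K : Type u) (_ : NormedAddCommGroup K) (_ : InnerProductSpace ℂ K) (_ : CompleteSpace K)
    (Λ : A →ₗ[ℂ] K), IsGNS ψ Λ ∧ l ∈ specOf (graphDelta Λ)}

end Gns

variable {H : Type u} [NormedAddCommGroup H] [InnerProductSpace ℂ H] [CompleteSpace H]

/-- The centre of `M` is trivial. -/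
def IsFactor (M : VonNeumannAlgebra H) : Prop :=
  ∀ x ∈ M, x ∈ M.commutant → ∃ c : ℂ, x = c • (1 : H →L[ℂ] H)

/-- The predual: the norm closure in the dual of `M` of the span of the vector functionals. -/
def predual (M : VonNeumannAlgebra H) : Set (M.toStarSubalgebra →L[ℂ] ℂ) :=
  closure (Submodule.span ℂ
    {ω : M.toStarSubalgebra →L[ℂ] ℂ | ∃ η ζ : H, ∀ x, ω x = ⟪η, (x : H →L[ℂ] H) ζ⟫_ℂ} :
      Set (M.toStarSubalgebra →L[ℂ] ℂ))

/-- Faithful normal state. -/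
def IsFNState (M : VonNeumannAlgebra H) (φ : M.toStarSubalgebra →L[ℂ] ℂ) : Prop :=
  φ ∈ predual M ∧ φ 1 = 1 ∧ (∀ x, 0 ≤ φ (star x * x)) ∧ ∀ x, φ (star x * x) = 0 → x = 0

/-- Every positive number is in the spectrum of the modular operator of every faithful normal
state. -/
def FullSpectrum (M : VonNeumannAlgebra H) : Prop :=
  ∀ ψ, IsFNState M ψ → ∀ l : ℝ, 0 < l → (l : ℂ) ∈ modSpec ψ

/-- The bounded sequence `w` asymptotically centralizes `φ`: `‖w n φ - φ (w n)‖ → 0`. -/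
def AsCent (M : VonNeumannAlgebra H) (φ : M.toStarSubalgebra →L[ℂ] ℂ)
    (w : ℕ → M.toStarSubalgebra) : Prop :=
  (∃ C, ∀ n, ‖w n‖ ≤ C) ∧
    Tendsto (fun n => ‖φ ∘L (ContinuousLinearMap.mul ℂ M.toStarSubalgebra).flip (w n) -
      φ ∘L ContinuousLinearMap.mul ℂ M.toStarSubalgebra (w n)‖) atTop (𝓝 0)

/-- The bicentralizer `B(M, φ)`. -/
def bicentralizer (M : VonNeumannAlgebra H) (φ : M.toStarSubalgebra →L[ℂ] ℂ) :
    Set M.toStarSubalgebra :=
  {a | ∀ w, AsCent M φ w → ∀ η : H,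
    Tendsto (fun n => ((a * w n - w n * a : M.toStarSubalgebra) : H →L[ℂ] H) η) atTop (𝓝 0)}

end Vale.Agent.P132
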