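import Vale.Agent.P132.Basic

/-! P132: elementary properties of the functional calculus `Θ`. A star homomorphism of
C*-algebras is contractive (`NonUnitalStarAlgHom.norm_apply_le`). -/

namespace Vale.Agent.P132

open scoped InnerProductSpace BoundedContinuousFunction
open Filter Topology MeasureTheory Vale.Agent.P104

universe u

variable {H : Type u} [NormedAddCommGroup H] [InnerProductSpace ℂ H] [CompleteSpace H]

theorem rr_injective : Function.Injective rr := by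
  intro u v h
  unfold rr at h
  rw [div_eq_div_iff (by positivity) (by positivity)] at h
  exact Real.exp_injective (by linarith)

theorem exists_rr {r : ℝ} (h0 : 0 < r) (h2 : r < 2) : ∃ s, rr s = r := by
  have h : 0 < 2 / r - 1 := by
    rw [sub_pos, lt_div_iff₀ h0]
    linarith
  refine ⟨Real.log (2 / r - 1), ?_⟩
  unfold rr
  rw [Real.exp_log h]
  field_simp
  ring

theorem rr_neg (u : ℝ) : rr (-u) = 2 - rr u := by
  unfold rr
  rw [Real.exp_neg]
  have := Real.exp_pos u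
  field_simp
  ring

theorem rr_zero : rr 0 = 1 := by
  unfold rr
  rw [Real.exp_zero]
  norm_num

theorem sech_neg (u : ℝ) : sech (-u) = sech u := by
  unfold sech
  rw [neg_div, Real.cosh_neg]

theorem fcb_sech (u : ℝ) : sech u = 2 * Real.exp (u / 2) / (1 + Real.exp (u / 2) ^ 2) := by
  unfold sech
  rw [Real.cosh_eq, Real.exp_neg]
  have := Real.exp_pos (u / 2)
  field_simp
  ring

theorem fcb_rr (u : ℝ) : rr u = 2 / (1 + Real.exp (u / 2) ^ 2) := by
  unfold rr
  rw [sq, ← Real.exp_add, add_halves]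

theorem fcb_rr_anti : StrictAnti rr := by
  intro u v h
  unfold rr
  exact div_lt_div_of_pos_left (by norm_num) (by positivity) (by linarith [Real.exp_lt_exp.2 h])

theorem sech_sq (u : ℝ) : sech u ^ 2 = rr u * (2 - rr u) := by
  rw [fcb_sech, fcb_rr]
  have := Real.exp_pos (u / 2)
  field_simp
  ring

theorem two_sub_rr (u : ℝ) : 2 - rr u = Real.exp (u / 2) * sech u := by
  rw [fcb_sech, fcb_rr]
  have := Real.exp_pos (u / 2)
  field_simp
  ring

theorem rr_eq (u : ℝ) : rr u = Real.exp (-u / 2) * sech u := by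
  rw [fcb_sech, fcb_rr, neg_div, Real.exp_neg]
  have := Real.exp_pos (u / 2)
  field_simp

theorem sech_le_exp (u : ℝ) : sech u ≤ 2 * Real.exp (-|u| / 2) := by
  have h : sech |u| = sech u := by
    rcases abs_choice u with h | h <;> rw [h]
    exact sech_neg u
  rw [← h, fcb_sech, neg_div, Real.exp_neg]
  have := Real.exp_pos (|u| / 2)
  rw [div_le_iff₀ (by positivity)]
  field_simp
  nlinarith

namespace FC
variable (F : FC H)

theorem norm_Θ_le (f : ℝ →ᵇ ℂ) : ‖F.Θ f‖ ≤ ‖f‖ := by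
  exact NonUnitalStarAlgHom.norm_apply_le F.Θ f

theorem Θ_comm (f g : ℝ →ᵇ ℂ) : F.Θ f * F.Θ g = F.Θ g * F.Θ f := by
  rw [← map_mul, ← map_mul, mul_comm]

theorem Θ_sa {f : ℝ →ᵇ ℂ} (h : ∀ u, (f u).im = 0) : IsSelfAdjoint (F.Θ f) := by
  have hf : star f = f := by
    ext u
    exact Complex.conj_eq_iff_im.2 (h u)
  rw [IsSelfAdjoint, ← map_star, hf]

/-- `(|g|² + |g'|² - |f|²) = h* h` with `h` the pointwise square root -/
theorem norm_Θ_le_add {f g g' : ℝ →ᵇ ℂ} (h : ∀ u, ‖f u‖ ^ 2 ≤ ‖g u‖ ^ 2 + ‖g' u‖ ^ 2) (η : H) :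
    ‖F.Θ f η‖ ≤ ‖F.Θ g η‖ + ‖F.Θ g' η‖ := by
  let k : ℝ →ᵇ ℂ := reB (fun u => √(‖g u‖ ^ 2 + ‖g' u‖ ^ 2 - ‖f u‖ ^ 2)) (by fun_prop)
    (‖g‖ + ‖g'‖) fun u => by
      rw [abs_of_nonneg (Real.sqrt_nonneg _)]
      refine Real.sqrt_le_iff.2 ⟨by positivity, ?_⟩
      have h1 := g.norm_coe_le_norm u
      have h2 := g'.norm_coe_le_norm u
      nlinarith [norm_nonneg (g u), norm_nonneg (g' u), sq_nonneg ‖f u‖, norm_nonneg g,
        norm_nonneg g']
  have e : star k * k + star f * f = star g * g + star g' * g' := by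
    ext u
    have h1 : ∀ z : ℂ, star z * z = ((‖z‖ ^ 2 : ℝ) : ℂ) := fun z => by
      rw [Complex.star_def, Complex.conj_mul']
      norm_cast
    have h2 : ‖k u‖ ^ 2 = ‖g u‖ ^ 2 + ‖g' u‖ ^ 2 - ‖f u‖ ^ 2 := by
      simp only [k, reB_apply, Complex.norm_real, Real.norm_eq_abs, sq_abs]
      exact Real.sq_sqrt (sub_nonneg.2 (h u))
    simp only [BoundedContinuousFunction.coe_add, BoundedContinuousFunction.coe_mul,
      BoundedContinuousFunction.coe_star, Pi.add_apply, Pi.mul_apply, Pi.star_apply, h1, h2]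
    push_cast
    ring
  have e2 := congrArg (fun a => qf (F.Θ a) η) e
  simp only [map_add, map_mul, map_star, qf_add, qf_star_mul_self] at e2
  refine (sq_le_sq₀ (norm_nonneg _) (by positivity)).1 ?_
  nlinarith [sq_nonneg ‖F.Θ k η‖, mul_nonneg (norm_nonneg (F.Θ g η)) (norm_nonneg (F.Θ g' η))]

theorem norm_Θ_mono {f g : ℝ →ᵇ ℂ} (h : ∀ u, ‖f u‖ ≤ ‖g u‖) (η : H) :
    ‖F.Θ f η‖ ≤ ‖F.Θ g η‖ := by
  have := F.norm_Θ_le_add (f := f) (g := g) (g' := 0) (fun u => by
    simpa using pow_le_pow_left₀ (norm_nonneg _) (h u) 2) η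
  simpa using this

theorem R_sa : IsSelfAdjoint F.R := by
  exact F.Θ_sa fun u => by simp

theorem T_sa : IsSelfAdjoint F.T := by
  exact F.Θ_sa fun u => by simp

theorem T_mul_T : F.T * F.T = F.R * (2 - F.R) := by
  have e : sechB * sechB = rB * (2 - rB) := by
    ext u
    have := sech_sq u
    simp only [BoundedContinuousFunction.coe_mul, BoundedContinuousFunction.coe_sub, Pi.mul_apply,
      Pi.sub_apply, sechB_apply, rB_apply]
    rw [show (2 : ℝ →ᵇ ℂ) u = 2 from rfl, ← sq]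
    exact_mod_cast this
  unfold T R
  rw [← map_mul, e, map_mul, map_sub, map_ofNat]

theorem T_inj {η : H} (h : F.T η = 0) : η = 0 := F.inj η h

theorem T_cancel {a b : Op H} (h : F.T * a = F.T * b) : a = b := by
  ext η
  refine sub_eq_zero.1 (F.T_inj ?_)
  rw [map_sub, sub_eq_zero]
  exact congrArg (fun c : Op H => c η) h

theorem norm_R_le : ‖F.R‖ ≤ 2 := by
  refine (F.norm_Θ_le _).trans ((BoundedContinuousFunction.norm_le (by norm_num)).2 fun u => ?_)
  rw [rB_apply, Complex.norm_real, Real.norm_eq_abs, abs_of_pos (rr_pos u)]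
  exact (rr_lt_two u).le

theorem norm_R_sub_one : ‖F.R - 1‖ ≤ 1 := by
  have e : F.R - 1 = F.Θ (rB - 1) := by rw [map_sub, map_one, R]
  rw [e]
  refine (F.norm_Θ_le _).trans ((BoundedContinuousFunction.norm_le (by norm_num)).2 fun u => ?_)
  have : (rB - 1) u = ((rr u - 1 : ℝ) : ℂ) := by simp
  rw [this, Complex.norm_real, Real.norm_eq_abs, abs_le]
  constructor <;> linarith [rr_pos u, rr_lt_two u]

theorem norm_T_le : ‖F.T‖ ≤ 1 := by
  refine (F.norm_Θ_le _).trans ((BoundedContinuousFunction.norm_le (by norm_num)).2 fun u => ?_)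
  rw [sechB_apply, Complex.norm_real, Real.norm_eq_abs, abs_of_pos (sech_pos u)]
  exact sech_le_one u

/-- approximate eigenvectors of `R` are approximate eigenvectors of `Θ f`: pointwise
`|f u - f s|² ≤ ε² + K² |rr u - rr s|²` because `rr` is strictly antitone -/
theorem cf (f : ℝ →ᵇ ℂ) (s : ℝ) {ε : ℝ} (hε : 0 < ε) : ∃ K, 0 ≤ K ∧ ∀ η,
    ‖F.Θ f η - f s • η‖ ≤ ε * ‖η‖ + K * ‖F.R η - (rr s : ℂ) • η‖ := by
  obtain ⟨δ, hδ, hf⟩ := Metric.continuous_iff.1 f.continuous s ε hε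
  have m1 : 0 < rr (s - δ) - rr s := sub_pos.2 (fcb_rr_anti (by linarith))
  have m2 : 0 < rr s - rr (s + δ) := sub_pos.2 (fcb_rr_anti (by linarith))
  set m := min (rr (s - δ) - rr s) (rr s - rr (s + δ)) with hm
  have hm0 : 0 < m := lt_min m1 m2
  set K := 2 * ‖f‖ / m with hK
  have hK0 : 0 ≤ K := by positivity
  refine ⟨K, hK0, fun η => ?_⟩
  have key := F.norm_Θ_le_add (f := f - f s • 1) (g := (ε : ℂ) • 1)
    (g' := (K : ℂ) • (rB - (rr s : ℂ) • 1)) (fun u => ?_) η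
  · simp only [map_sub, map_smul, map_one, sub_apply,
      smul_apply, one_apply_eq_self, norm_smul, Complex.norm_real,
      Real.norm_eq_abs, abs_of_pos hε, abs_of_nonneg hK0] at key
    exact key
  have e1 : (f - f s • (1 : ℝ →ᵇ ℂ)) u = f u - f s := by simp
  have e2 : ‖((ε : ℂ) • (1 : ℝ →ᵇ ℂ)) u‖ = ε := by simp [abs_of_pos hε]
  have e3 : ‖((K : ℂ) • (rB - (rr s : ℂ) • (1 : ℝ →ᵇ ℂ))) u‖ = K * |rr u - rr s| := by
    have : ((K : ℂ) • (rB - (rr s : ℂ) • (1 : ℝ →ᵇ ℂ))) u = ((K * (rr u - rr s) : ℝ) : ℂ) := by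
      simp
    rw [this, Complex.norm_real, Real.norm_eq_abs, abs_mul, abs_of_nonneg hK0]
  rw [e1, e2, e3]
  by_cases hu : dist u s < δ
  · have := hf u hu
    rw [dist_eq_norm] at this
    nlinarith [norm_nonneg (f u - f s), sq_nonneg (K * |rr u - rr s|)]
  · have h1 : m ≤ |rr u - rr s| := by
      rw [Real.dist_eq, not_lt, le_abs] at hu
      rcases hu with hu | hu
      · have := fcb_rr_anti.antitone (show s + δ ≤ u by linarith)
        exact (min_le_right _ _).trans (le_abs.2 (Or.inr (by linarith)))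
      · have := fcb_rr_anti.antitone (show u ≤ s - δ by linarith)
        exact (min_le_left _ _).trans (le_abs.2 (Or.inl (by linarith)))
    have h2 : ‖f u - f s‖ ≤ K * |rr u - rr s| := by
      calc ‖f u - f s‖ ≤ 2 * ‖f‖ := by
            linarith [norm_sub_le (f u) (f s), f.norm_coe_le_norm u, f.norm_coe_le_norm s]
        _ = K * m := by rw [hK]; field_simp
        _ ≤ _ := mul_le_mul_of_nonneg_left h1 hK0
    nlinarith [norm_nonneg (f u - f s), sq_nonneg ε]

theorem fcb_le_zero {a c : ℝ} (h : ∀ ε, 0 < ε → a ≤ ε * c) : a ≤ 0 := by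
  have ht : Tendsto (fun ε : ℝ => ε * c) (𝓝[>] 0) (𝓝 (0 * c)) :=
    (tendsto_id.mul_const c).mono_left nhdsWithin_le_nhds
  rw [zero_mul] at ht
  exact ge_of_tendsto ht (eventually_nhdsWithin_of_forall h)

theorem eig {s : ℝ} {η : H} (h : F.R η = (rr s : ℂ) • η) (f : ℝ →ᵇ ℂ) : F.Θ f η = f s • η := by
  refine sub_eq_zero.1 (norm_le_zero_iff.1 (fcb_le_zero (c := ‖η‖) fun ε hε => ?_))
  obtain ⟨K, -, hK⟩ := F.cf f s hε
  simpa [h] using hK η

theorem fcb_abs_sech (u : ℝ) : |u| * sech u ≤ 4 := by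
  have h1 := sech_le_exp u
  have h2 : |u| / 2 + 1 ≤ Real.exp (|u| / 2) := Real.add_one_le_exp _
  have h3 := Real.exp_pos (|u| / 2)
  rw [neg_div, Real.exp_neg, ← div_eq_mul_inv, le_div_iff₀ h3] at h1
  nlinarith [sech_pos u, abs_nonneg u]

/-- It suffices to kill `g * sechB`. Cover the compact set `{ε ≤ |g sech|}` by finitely many
`{h i ≠ 0}`, put `h = ∑ |h i|²` and approximate `g sech` uniformly by `g sech h / (h + τ)`. -/
theorem loc0 {η : H} {g : ℝ →ᵇ ℂ}
    (h : ∀ s, g s ≠ 0 → ∃ k : ℝ →ᵇ ℂ, k s ≠ 0 ∧ F.Θ k η = 0) : F.Θ g η = 0 := by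
  refine F.T_inj (norm_le_zero_iff.1 (fcb_le_zero (c := ‖η‖) fun ε hε => ?_))
  have hK : IsCompact {u : ℝ | ε ≤ ‖(sechB * g) u‖} := by
    refine Metric.isCompact_of_isClosed_isBounded
      (isClosed_le continuous_const (sechB * g).continuous.norm) ?_
    refine (isBounded_iff_forall_norm_le).2 ⟨4 * ‖g‖ / ε, fun u hu => ?_⟩
    have h1 : ε ≤ sech u * ‖g‖ := by
      refine le_trans hu ?_
      simp only [BoundedContinuousFunction.coe_mul, Pi.mul_apply, sechB_apply, norm_mul,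
        Complex.norm_real, Real.norm_eq_abs, abs_of_pos (sech_pos u)]
      exact mul_le_mul_of_nonneg_left (g.norm_coe_le_norm u) (sech_pos u).le
    rw [le_div_iff₀ hε, Real.norm_eq_abs]
    calc |u| * ε ≤ |u| * (sech u * ‖g‖) := mul_le_mul_of_nonneg_left h1 (abs_nonneg u)
      _ = (|u| * sech u) * ‖g‖ := by ring
      _ ≤ 4 * ‖g‖ := mul_le_mul_of_nonneg_right (fcb_abs_sech u) (norm_nonneg g)
  have hp : ∃ k : ℝ →ᵇ ℂ, F.Θ k η = 0 ∧ ∀ u ∈ {u : ℝ | ε ≤ ‖(sechB * g) u‖}, 1 ≤ ‖k u‖ := by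
    refine hK.induction_on (p := fun S => ∃ k : ℝ →ᵇ ℂ, F.Θ k η = 0 ∧ ∀ u ∈ S, 1 ≤ ‖k u‖)
      ⟨0, by simp, by simp⟩ ?_ ?_ ?_
    · rintro S S' hS ⟨k, h1, h2⟩
      exact ⟨k, h1, fun u hu => h2 u (hS hu)⟩
    · rintro S S' ⟨k, h1, h2⟩ ⟨k', h1', h2'⟩
      refine ⟨star k * k + star k' * k', by simp [h1, h1'], fun u hu => ?_⟩
      have e : (star k * k + star k' * k') u = ((‖k u‖ ^ 2 + ‖k' u‖ ^ 2 : ℝ) : ℂ) := by
        simp only [BoundedContinuousFunction.coe_add, BoundedContinuousFunction.coe_mul,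
          BoundedContinuousFunction.coe_star, Pi.add_apply, Pi.mul_apply, Pi.star_apply,
          Complex.star_def, Complex.conj_mul']
        push_cast
        rfl
      rw [e, Complex.norm_real, Real.norm_eq_abs, abs_of_nonneg (by positivity)]
      rcases hu with hu | hu
      · nlinarith [h2 u hu, sq_nonneg ‖k' u‖]
      · nlinarith [h2' u hu, sq_nonneg ‖k u‖]
    · intro s hs
      have hg : g s ≠ 0 := by
        intro h0
        have : ε ≤ ‖(sechB * g) s‖ := hs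
        simp [h0] at this
        linarith
      obtain ⟨k, hk, hk0⟩ := h s hg
      have hk1 : 0 < ‖k s‖ := norm_pos_iff.2 hk
      refine ⟨{u | ‖k s‖ / 2 < ‖k u‖}, mem_nhdsWithin_of_mem_nhds
        ((isOpen_lt continuous_const k.continuous.norm).mem_nhds (half_lt_self hk1)),
        ((2 / ‖k s‖ : ℝ) : ℂ) • k, by simp [hk0], fun u hu => ?_⟩
      have hu' : ‖k s‖ / 2 < ‖k u‖ := hu
      simp only [BoundedContinuousFunction.coe_smul, smul_eq_mul, norm_mul, Complex.norm_real,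
        Real.norm_eq_abs, abs_of_pos (div_pos two_pos hk1)]
      rw [div_mul_eq_mul_div, le_div_iff₀ hk1]
      linarith
  obtain ⟨k, hk0, hk⟩ := hp
  have key := F.norm_Θ_le_add (f := sechB * g) (g := (ε : ℂ) • 1)
    (g' := ((‖sechB * g‖ : ℝ) : ℂ) • k) (fun u => ?_) η
  · simp only [map_mul, map_smul, map_one, smul_apply, one_apply_eq_self, hk0, smul_zero,
      norm_zero, add_zero, norm_smul, Complex.norm_real, Real.norm_eq_abs, abs_of_pos hε] at key
    exact key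
  have e2 : ‖((ε : ℂ) • (1 : ℝ →ᵇ ℂ)) u‖ = ε := by simp [abs_of_pos hε]
  have e3 : ‖(((‖sechB * g‖ : ℝ) : ℂ) • k) u‖ = ‖sechB * g‖ * ‖k u‖ := by simp
  rw [e2, e3]
  by_cases hu : ε ≤ ‖(sechB * g) u‖
  · have h1 : ‖(sechB * g) u‖ ≤ ‖sechB * g‖ * ‖k u‖ :=
      ((sechB * g).norm_coe_le_norm u).trans (le_mul_of_one_le_right (norm_nonneg _) (hk u hu))
    nlinarith [norm_nonneg ((sechB * g) u), sq_nonneg ε]
  · nlinarith [norm_nonneg ((sechB * g) u), sq_nonneg (‖sechB * g‖ * ‖k u‖), not_le.1 hu]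

theorem inj_of_ne {f : ℝ →ᵇ ℂ} (hf : ∀ u, f u ≠ 0) {η : H} (h : F.Θ f η = 0) : η = 0 := by
  have := F.loc0 (η := η) (g := 1) fun s _ => ⟨f, hf s, h⟩
  simpa using this

/-- dense range on an invariant subspace -/
theorem dense_range {f : ℝ →ᵇ ℂ} (hf : ∀ u, f u ≠ 0) {E : Op H} (hE : IsStarProjection E)
    (hc : ∀ g, E * F.Θ g = F.Θ g * E) {η : H} (hη : E η = η) {ε : ℝ} (hε : 0 < ε) :
    ∃ ζ, E ζ = ζ ∧ ‖η - F.Θ f ζ‖ ≤ ε := by
  let V : Submodule ℂ H := (F.Θ f * E).range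
  have hV : η ∈ V.topologicalClosure := by
    rw [← Submodule.orthogonal_orthogonal_eq_closure, Submodule.mem_orthogonal]
    intro q hq
    have h1 : star (F.Θ f * E) q = 0 := by
      refine ext_inner_left ℂ fun ζ => ?_
      rw [inner_star_right, inner_zero_right]
      exact (Submodule.mem_orthogonal _ _).1 hq _ ⟨ζ, rfl⟩
    rw [star_mul, hE.isSelfAdjoint.star_eq, ← map_star, hc] at h1
    have h2 : E q = 0 := F.inj_of_ne (f := star f) (fun u => by simpa using hf u) h1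
    rw [← hη, ← inner_star_left, hE.isSelfAdjoint.star_eq, h2, inner_zero_left]
  have hV' : η ∈ closure (V : Set H) := hV
  obtain ⟨_, ⟨ζ, rfl⟩, h2⟩ := Metric.mem_closure_iff.1 hV' ε hε
  refine ⟨E ζ, congrArg (fun c : Op H => c ζ) hE.isIdempotentElem.eq, ?_⟩
  rw [dist_eq_norm] at h2
  exact h2.le

theorem denseRange_T : DenseRange F.T := by
  refine Metric.denseRange_iff.2 fun η ε hε => ?_
  obtain ⟨ζ, -, h⟩ := F.dense_range (f := sechB) (E := 1)
    (fun u => by simpa using (sech_pos u).ne') (IsStarProjection.one _) (fun g => by simp)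
    (η := η) rfl (half_pos hε)
  refine ⟨ζ, ?_⟩
  rw [dist_eq_norm]
  exact h.trans_lt (half_lt_self hε)

/-- Otherwise `δ ‖ζ‖ ≤ ‖R ζ - rr s ζ‖` on the range of `E`; a bump `k` at `s` supported where
`|rr u - rr s| < δ / 2` has `Θ k η = 0`; use `loc0`. -/
theorem sp {E : Op H} (hE : IsStarProjection E) (hc : ∀ g, E * F.Θ g = F.Θ g * E) {f : ℝ →ᵇ ℂ}
    {η : H} (hη : E η = η) (h : F.Θ f η ≠ 0) : ∃ s, f s ≠ 0 ∧ ∀ δ > 0, ∃ ζ, ‖ζ‖ = 1 ∧ E ζ = ζ ∧
      ‖F.R ζ - (rr s : ℂ) • ζ‖ ≤ δ := by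
  by_contra hne
  push Not at hne
  refine h (F.loc0 fun s hs => ?_)
  obtain ⟨δ, hδ, hζ⟩ := hne s hs
  let k : ℝ →ᵇ ℂ := reB (fun u => max 0 (δ - |rr u - rr s|))
    (continuous_const.max (continuous_const.sub (continuous_rr.sub continuous_const).abs)) δ
    fun u => by
      rw [abs_of_nonneg (le_max_left _ _)]
      exact max_le hδ.le (by linarith [abs_nonneg (rr u - rr s)])
  refine ⟨k, by simp [k, hδ.le, hδ.ne'], ?_⟩
  by_contra h0
  have hn : 0 < ‖F.Θ k η‖ := norm_pos_iff.2 h0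
  have h1 : E (F.Θ k η) = F.Θ k η := by
    rw [← mul_apply_eq_comp, hc, mul_apply_eq_comp, hη]
  have h2 : ‖F.R (F.Θ k η) - (rr s : ℂ) • F.Θ k η‖ ≤ δ * ‖F.Θ k η‖ := by
    have key := F.norm_Θ_mono (f := (rB - (rr s : ℂ) • 1) * k) (g := (δ : ℂ) • k)
      (fun u => ?_) η
    · simp only [map_mul, map_sub, map_smul, map_one, smul_apply, mul_apply_eq_comp, sub_apply,
        one_apply_eq_self, norm_smul, Complex.norm_real, Real.norm_eq_abs, abs_of_pos hδ] at key
      exact key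
    have e1 : ((rB - (rr s : ℂ) • (1 : ℝ →ᵇ ℂ)) * k) u =
        (((rr u - rr s) * max 0 (δ - |rr u - rr s|) : ℝ) : ℂ) := by simp [k]
    have e2 : ((δ : ℂ) • k) u = ((δ * max 0 (δ - |rr u - rr s|) : ℝ) : ℂ) := by simp [k]
    rw [e1, e2, Complex.norm_real, Complex.norm_real, Real.norm_eq_abs, Real.norm_eq_abs, abs_mul,
      abs_mul, abs_of_pos hδ]
    rcases le_total (δ - |rr u - rr s|) 0 with h3 | h3
    · simp [max_eq_left h3]
    · exact mul_le_mul_of_nonneg_right (by linarith) (abs_nonneg _)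
  have h3 := hζ (((‖F.Θ k η‖⁻¹ : ℝ) : ℂ) • F.Θ k η)
    (by rw [norm_smul, Complex.norm_real, norm_inv, norm_norm, inv_mul_cancel₀ hn.ne'])
    (by rw [map_smul, h1])
  rw [map_smul, smul_comm, ← smul_sub, norm_smul, Complex.norm_real, norm_inv, norm_norm,
    ← div_eq_inv_mul, lt_div_iff₀ hn] at h3
  linarith

theorem Δ_zero : F.Δ 0 = 1 := by
  have e : eB 0 = 1 := by
    ext u
    simp
  rw [Δ, e, map_one]

theorem Δ_add (s t : ℝ) : F.Δ (s + t) = F.Δ s * F.Δ t := by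
  have e : eB (s + t) = eB s * eB t := by
    ext u
    simp only [eB_apply, BoundedContinuousFunction.coe_mul, Pi.mul_apply, ← Complex.exp_add]
    congr 1
    push_cast
    ring
  rw [Δ, e, map_mul, Δ, Δ]

theorem star_Δ (t : ℝ) : star (F.Δ t) = F.Δ (-t) := by
  have e : star (eB t) = eB (-t) := by
    ext u
    simp only [eB_apply, BoundedContinuousFunction.coe_star, Pi.star_apply, Complex.star_def,
      ← Complex.exp_conj, map_mul, Complex.conj_I, Complex.conj_ofReal]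
    congr 1
    push_cast
    ring
  rw [Δ, ← map_star, e, Δ]

theorem Δ_neg_mul (t : ℝ) : F.Δ (-t) * F.Δ t = 1 := by
  rw [← Δ_add, neg_add_cancel, Δ_zero]

theorem Δ_mul_neg (t : ℝ) : F.Δ t * F.Δ (-t) = 1 := by
  rw [← Δ_add, add_neg_cancel, Δ_zero]

theorem norm_Δ (t : ℝ) (η : H) : ‖F.Δ t η‖ = ‖η‖ := by
  have h := qf_star_mul_self (F.Δ t) η
  rw [star_Δ, Δ_neg_mul, qf_one] at h
  exact ((sq_eq_sq₀ (norm_nonneg _) (norm_nonneg _)).1 h).symm

theorem inner_Δ (t : ℝ) (η ζ : H) : ⟪F.Δ t η, F.Δ t ζ⟫_ℂ = ⟪η, ζ⟫_ℂ := by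
  rw [← inner_star_right, ← mul_apply_eq_comp, star_Δ, Δ_neg_mul, one_apply_eq_self]

/-- `t ↦ eB t * sechB` is norm continuous and `T` has dense range -/
theorem continuous_Δ (η : H) : Continuous fun t => F.Δ t η := by
  refine continuous_of_uniform_approx_of_continuous fun U hU => ?_
  obtain ⟨ε, hε, hU⟩ := Metric.mem_uniformity_dist.1 hU
  obtain ⟨ζ, hζ⟩ := Metric.denseRange_iff.1 F.denseRange_T η ε hε
  refine ⟨fun t => F.Δ t (F.T ζ), ?_, fun t => hU ?_⟩
  · refine (LipschitzWith.of_dist_le' (K := 4 * ‖ζ‖) fun t s => ?_).continuous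
    have e : F.Δ t (F.T ζ) - F.Δ s (F.T ζ) = F.Θ ((eB t - eB s) * sechB) ζ := by
      simp [Δ, T]
    have hb : ‖(eB t - eB s) * sechB‖ ≤ 4 * dist t s := by
      refine (BoundedContinuousFunction.norm_le (by positivity)).2 fun u => ?_
      have e1 : ((eB t - eB s) * sechB) u =
          eB s u * (Complex.exp (Complex.I * ((t - s) * u : ℝ)) - 1) * (sech u : ℂ) := by
        simp only [BoundedContinuousFunction.coe_mul, BoundedContinuousFunction.coe_sub,
          Pi.mul_apply, Pi.sub_apply, eB_apply, sechB_apply, mul_sub, mul_one, ← Complex.exp_add]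
        congr 3
        push_cast
        ring
      have e2 : ‖eB s u‖ = 1 := by
        rw [eB_apply, mul_assoc, ← Complex.ofReal_mul, mul_comm, Complex.norm_exp_ofReal_mul_I]
      rw [e1, norm_mul, norm_mul, e2, one_mul, Complex.norm_real, Real.norm_eq_abs,
        abs_of_pos (sech_pos u)]
      calc _ ≤ ‖(t - s) * u‖ * sech u :=
            mul_le_mul_of_nonneg_right Real.norm_exp_I_mul_ofReal_sub_one_le (sech_pos u).le
        _ = (|u| * sech u) * dist t s := by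
            rw [Real.norm_eq_abs, abs_mul, Real.dist_eq]
            ring
        _ ≤ _ := mul_le_mul_of_nonneg_right (fcb_abs_sech u) dist_nonneg
    rw [dist_eq_norm, e]
    calc _ ≤ ‖F.Θ ((eB t - eB s) * sechB)‖ * ‖ζ‖ := ContinuousLinearMap.le_opNorm _ _
      _ ≤ 4 * dist t s * ‖ζ‖ :=
          mul_le_mul_of_nonneg_right ((F.norm_Θ_le _).trans hb) (norm_nonneg _)
      _ = _ := by ring
  · rw [dist_eq_norm, ← map_sub, norm_Δ, ← dist_eq_norm]
    exact hζ

theorem σ_apply (t : ℝ) (x : Op H) (η : H) : F.σ t x η = F.Δ t (x (F.Δ (-t) η)) := rfl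

theorem σ_mul (t : ℝ) (x y : Op H) : F.σ t (x * y) = F.σ t x * F.σ t y := by
  unfold σ
  calc F.Δ t * (x * y) * F.Δ (-t) = F.Δ t * x * (F.Δ (-t) * F.Δ t) * y * F.Δ (-t) := by
        rw [Δ_neg_mul]
        simp only [mul_assoc, one_mul]
    _ = _ := by simp only [mul_assoc]

theorem σ_add (t : ℝ) (x y : Op H) : F.σ t (x + y) = F.σ t x + F.σ t y := by
  simp only [σ, mul_add, add_mul]

theorem σ_sub (t : ℝ) (x y : Op H) : F.σ t (x - y) = F.σ t x - F.σ t y := by
  simp only [σ, mul_sub, sub_mul]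

theorem σ_smul (t : ℝ) (c : ℂ) (x : Op H) : F.σ t (c • x) = c • F.σ t x := by
  simp only [σ, mul_smul_comm, smul_mul_assoc]

theorem σ_star (t : ℝ) (x : Op H) : F.σ t (star x) = star (F.σ t x) := by
  simp only [σ, star_mul, star_Δ, neg_neg, mul_assoc]

theorem σ_one (t : ℝ) : F.σ t 1 = 1 := by
  simp only [σ, mul_one, Δ_mul_neg]

theorem σ_zero (x : Op H) : F.σ 0 x = x := by
  simp only [σ, neg_zero, Δ_zero, mul_one, one_mul]

theorem σ_σ (s t : ℝ) (x : Op H) : F.σ s (F.σ t x) = F.σ (s + t) x := by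
  unfold σ
  rw [show -(s + t) = -t + -s by ring, Δ_add, Δ_add]
  simp only [mul_assoc]

theorem norm_σ (t : ℝ) (x : Op H) : ‖F.σ t x‖ = ‖x‖ := by
  have hu : ∀ t, F.Δ t ∈ unitary (Op H) := fun t =>
    Unitary.mem_iff.2 ⟨by rw [star_Δ, Δ_neg_mul], by rw [star_Δ, Δ_mul_neg]⟩
  unfold σ
  rw [CStarRing.norm_mul_mem_unitary _ (hu _), CStarRing.norm_mem_unitary_mul _ (hu _)]

theorem σ_eq_iff (t : ℝ) (x : Op H) : F.σ t x = x ↔ F.Δ t * x = x * F.Δ t := by
  unfold σ
  constructor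
  · intro h
    calc F.Δ t * x = F.Δ t * x * F.Δ (-t) * F.Δ t := by rw [mul_assoc, Δ_neg_mul, mul_one]
      _ = x * F.Δ t := by rw [h]
  · intro h
    rw [h, mul_assoc, Δ_mul_neg, mul_one]

theorem fcb_continuous_Δ {v : ℝ → H} (hv : Continuous v) : Continuous fun t => F.Δ t (v t) := by
  refine continuous_iff_continuousAt.2 fun s => tendsto_iff_norm_sub_tendsto_zero.2 ?_
  have h1 := tendsto_iff_norm_sub_tendsto_zero.1 (hv.tendsto s)
  have h2 := tendsto_iff_norm_sub_tendsto_zero.1 ((F.continuous_Δ (v s)).tendsto s)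
  have h3 := h1.add h2
  rw [add_zero] at h3
  refine squeeze_zero (fun _ => norm_nonneg _) (fun t => ?_) h3
  rw [← F.norm_Δ t (v t - v s), map_sub]
  exact norm_sub_le_norm_sub_add_norm_sub _ _ _

theorem continuous_σ (x : Op H) (η : H) : Continuous fun t => F.σ t x η := by
  exact F.fcb_continuous_Δ (x.continuous.comp ((F.continuous_Δ η).comp continuous_neg))

end FC

end Vale.Agent.P132
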