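import Vale.Agent.P132.BM
import Vale.Agent.P132.Lift

/-! P132: gaussian functions of `X` are averages of the unitary group. -/

namespace Vale.Agent.P132

open scoped InnerProductSpace BoundedContinuousFunction
open Filter Topology MeasureTheory Vale.Agent.P104

universe u

variable {H : Type u} [NormedAddCommGroup H] [InnerProductSpace ℂ H] [CompleteSpace H]

theorem gauss_sqrt {w : ℝ} (hw : 0 < w) : √(Real.pi / (w ^ 2 / 2)) = √(2 * Real.pi) / w := by
  have : Real.pi / (w ^ 2 / 2) = 2 * Real.pi / w ^ 2 := by field_simp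
  rw [this, Real.sqrt_div' _ (sq_nonneg w), Real.sqrt_sq hw.le]

theorem kap_pos {w : ℝ} (hw : 0 < w) (t : ℝ) : 0 < kap w t := by
  unfold kap
  have := Real.pi_pos
  positivity

theorem kap_neg (w t : ℝ) : kap w (-t) = kap w t := by
  unfold kap
  rw [neg_sq]

theorem continuous_kap (w : ℝ) : Continuous (kap w) := by
  unfold kap
  fun_prop

theorem integrable_kap {w : ℝ} (hw : 0 < w) : Integrable (kap w) := by
  have h := (integrable_exp_neg_mul_sq (b := w ^ 2 / 2) (by positivity)).const_mul
    (w / √(2 * Real.pi))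
  refine h.congr (Eventually.of_forall fun t => ?_)
  simp only [kap]
  congr 2
  ring

theorem integral_kap {w : ℝ} (hw : 0 < w) : ∫ t, kap w t = 1 := by
  have h : ∀ t, kap w t = w / √(2 * Real.pi) * Real.exp (-(w ^ 2 / 2) * t ^ 2) := fun t => by
    unfold kap
    congr 2
    ring
  simp only [h]
  rw [integral_const_mul, integral_gaussian, gauss_sqrt hw]
  have := Real.pi_pos
  have : 0 < √(2 * Real.pi) := by positivity
  field_simp

/-- `integral_cexp_quadratic` -/
theorem integral_kap_exp {w : ℝ} (hw : 0 < w) (v : ℝ) :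
    ∫ t, (kap w t : ℂ) * Complex.exp (Complex.I * t * v) = (gau 0 w v : ℂ) := by
  have hp := Real.pi_pos
  have hb : (0 : ℝ) < w ^ 2 / 2 := by positivity
  have h := fourierIntegral_gaussian (b := ((w ^ 2 / 2 : ℝ) : ℂ)) (by rw [Complex.ofReal_re]; exact hb)
    (v : ℂ)
  have h1 : ∀ t : ℝ, (kap w t : ℂ) * Complex.exp (Complex.I * t * v) =
      ((w / √(2 * Real.pi) : ℝ) : ℂ) *
        (Complex.exp (Complex.I * v * t) * Complex.exp (-((w ^ 2 / 2 : ℝ) : ℂ) * t ^ 2)) := by
    intro t
    unfold kap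
    rw [Complex.ofReal_mul, Complex.ofReal_exp, mul_assoc, mul_comm (Complex.exp _)]
    congr 3
    · ring
    · push_cast
      ring
  have h2 : ((Real.pi : ℂ) / ((w ^ 2 / 2 : ℝ) : ℂ)) ^ (1 / 2 : ℂ) =
      ((√(2 * Real.pi) / w : ℝ) : ℂ) := by
    rw [← gauss_sqrt hw, Real.sqrt_eq_rpow, Complex.ofReal_cpow (by positivity),
      Complex.ofReal_div]
    norm_num
  simp only [h1]
  rw [integral_const_mul, h, h2, ← mul_assoc, ← Complex.ofReal_mul]
  have h3 : w / √(2 * Real.pi) * (√(2 * Real.pi) / w) = 1 := by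
    have : 0 < √(2 * Real.pi) := by positivity
    field_simp
  rw [h3, Complex.ofReal_one, one_mul]
  unfold gau
  rw [Complex.ofReal_exp]
  congr 1
  push_cast
  ring

theorem kap_tail {w : ℝ} (hw : 0 < w) {ε : ℝ} (hε : 0 < ε) :
    ∃ L, 0 < L ∧ 1 - ε ≤ ∫ t in Set.Icc (-L) L, kap w t := by
  have h := intervalIntegral_tendsto_integral (integrable_kap hw) tendsto_neg_atTop_atBot
    (tendsto_id (x := (atTop : Filter ℝ)))
  rw [integral_kap hw] at h
  obtain ⟨L, h1, h2⟩ := ((h.eventually (lt_mem_nhds (show 1 - ε < 1 by linarith))).and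
    (eventually_gt_atTop 0)).exists
  refine ⟨L, h2, ?_⟩
  rw [integral_Icc_eq_integral_Ioc, ← intervalIntegral.integral_of_le (by linarith)]
  exact h1.le

/-- continuity of translation in `L¹` -/
theorem kap_shift {w : ℝ} (hw : 0 < w) :
    Tendsto (fun s => ∫ t, |kap w (t - s) - kap w t|) (𝓝 0) (𝓝 0) := by
  have hp := Real.pi_pos
  have hi := ((integrable_exp_neg_mul_sq (b := w ^ 2 / 4) (by positivity)).const_mul
    (w / √(2 * Real.pi) * Real.exp (w ^ 2 / 2))).add (integrable_kap hw)
  have h := tendsto_integral_filter_of_dominated_convergence (μ := volume) (l := 𝓝 (0 : ℝ))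
    (F := fun s t => |kap w (t - s) - kap w t|) (f := fun _ => (0 : ℝ)) _ ?_ ?_ hi ?_
  · simpa using h
  · refine Eventually.of_forall fun s => Continuous.aestronglyMeasurable ?_
    exact (((continuous_kap w).comp (continuous_sub_right s)).sub (continuous_kap w)).abs
  · have h1 : ∀ᶠ s : ℝ in 𝓝 0, |s| < 1 :=
      continuous_abs.continuousAt.eventually_lt continuousAt_const (by simp)
    filter_upwards [h1] with s hs
    refine Eventually.of_forall fun t => ?_
    rw [Real.norm_eq_abs, abs_abs]
    have h2 := kap_pos hw (t - s)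
    have h3 := kap_pos hw t
    have h4 : kap w (t - s) ≤
        w / √(2 * Real.pi) * Real.exp (w ^ 2 / 2) * Real.exp (-(w ^ 2 / 4) * t ^ 2) := by
      unfold kap
      rw [mul_assoc, ← Real.exp_add]
      refine mul_le_mul_of_nonneg_left (Real.exp_le_exp.2 ?_) (by positivity)
      have h5 : s ^ 2 ≤ 1 := by
        rw [← sq_abs]
        nlinarith [abs_nonneg s]
      have h6 : t ^ 2 / 2 - 1 ≤ (t - s) ^ 2 := by nlinarith [sq_nonneg (t - 2 * s)]
      nlinarith [mul_le_mul_of_nonneg_left h6 (sq_nonneg w)]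
    simp only [Pi.add_apply]
    rw [abs_le]
    constructor <;> linarith
  · refine Eventually.of_forall fun t => ?_
    have h1 : Continuous fun s => |kap w (t - s) - kap w t| :=
      (((continuous_kap w).comp (continuous_sub_left t)).sub continuous_const).abs
    simpa using h1.tendsto 0

/-- approximate identity -/
theorem kap_approx {E : Type*} [NormedAddCommGroup E] [NormedSpace ℝ E] [CompleteSpace E]
    {v : ℝ → E} (hv : Continuous v) {C : ℝ} (hC : ∀ t, ‖v t‖ ≤ C) :
    Tendsto (fun w => ∫ t, kap w t • v t) atTop (𝓝 (v 0)) := by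
  have h1 : ∀ᶠ w : ℝ in atTop, ∫ t, kap 1 t • v (t / w) = ∫ t, kap w t • v t := by
    filter_upwards [eventually_gt_atTop 0] with w hw
    have h := Measure.integral_comp_mul_left (fun t => kap 1 t • v (t / w)) w
    rw [abs_of_pos (inv_pos.2 hw)] at h
    have h2 : ∀ t, kap w t • v t = w • (kap 1 (w * t) • v (w * t / w)) := fun t => by
      rw [mul_div_cancel_left₀ _ hw.ne', smul_smul]
      congr 1
      unfold kap
      rw [one_pow, one_mul, mul_pow]
      ring
    simp only [h2]
    rw [integral_smul, h, smul_smul, mul_inv_cancel₀ hw.ne', one_smul]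
  refine Tendsto.congr' h1 ?_
  have h := tendsto_integral_filter_of_dominated_convergence (μ := volume) (l := (atTop : Filter ℝ))
    (F := fun w t => kap 1 t • v (t / w)) (f := fun t => kap 1 t • v 0) _ ?_ ?_
    ((integrable_kap one_pos).mul_const C) ?_
  · rwa [integral_smul_const, integral_kap one_pos, one_smul] at h
  · refine Eventually.of_forall fun w => Continuous.aestronglyMeasurable ?_
    exact (continuous_kap 1).smul (hv.comp (continuous_id.div_const w))
  · refine Eventually.of_forall fun w => Eventually.of_forall fun t => ?_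
    rw [norm_smul, Real.norm_eq_abs, abs_of_pos (kap_pos one_pos t)]
    exact mul_le_mul_of_nonneg_left (hC _) (kap_pos one_pos t).le
  · refine Eventually.of_forall fun t => Tendsto.const_smul ?_ _
    exact (hv.tendsto 0).comp (tendsto_const_nhds.div_atTop tendsto_id)

theorem exp_mul_gau (s : ℝ) {w : ℝ} (hw : 0 < w) (u : ℝ) :
    Real.exp (u / 2) * gau s w u = Real.exp (s / 2 + w ^ 2 / 8) * gau (s + w ^ 2 / 2) w u := by
  unfold gau
  rw [← Real.exp_add, ← Real.exp_add]
  congr 1
  field_simp
  ring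

theorem eps_small {ε : ℝ} (hε : 0 < ε) : ∃ w, 0 < w ∧ |eps w| ≤ ε := by
  have h1 : Continuous fun w => |eps w| := by
    unfold eps
    fun_prop
  have h2 : ∀ᶠ w in 𝓝 (0 : ℝ), |eps w| < ε :=
    h1.continuousAt.eventually_lt continuousAt_const (by
      unfold eps
      norm_num
      exact hε)
  obtain ⟨w, h3, h4⟩ := ((h2.filter_mono (nhdsWithin_le_nhds (s := Set.Ioi 0))).and
    self_mem_nhdsWithin).exists
  exact ⟨w, h4, le_of_lt h3⟩

theorem gauss_int {w : ℝ} (hw : 0 < w) (s u : ℝ) :
    ∫ t : ℝ, (kap w t : ℂ) * Complex.exp (-(Complex.I * t * s)) *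
      Complex.exp (Complex.I * t * u) = (gau s w u : ℂ) := by
  have h1 : gau s w u = gau 0 w (u - s) := by
    unfold gau
    rw [sub_zero]
  rw [h1, ← integral_kap_exp hw]
  refine integral_congr_ae (Eventually.of_forall fun t => ?_)
  simp only
  rw [mul_assoc, ← Complex.exp_add]
  congr 2
  push_cast
  ring

/-- `(1 + exp u) * exp (-u ^ 2 / 2)` -/
noncomputable def gaussK : ℝ →ᵇ ℂ := gB 0 1 + (Real.exp (1 / 2) : ℂ) • gB 1 1

theorem gaussK_apply (u : ℝ) : gaussK u = (((1 + Real.exp u) * gau 0 1 u : ℝ) : ℂ) := by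
  have h : Real.exp (1 / 2) * gau 1 1 u = Real.exp u * gau 0 1 u := by
    unfold gau
    rw [← Real.exp_add, ← Real.exp_add]
    congr 1
    ring
  rw [add_mul, one_mul, ← h, Complex.ofReal_add, Complex.ofReal_mul]
  rfl

theorem gaussK_ne (u : ℝ) : gaussK u ≠ 0 := by
  rw [gaussK_apply, Complex.ofReal_ne_zero]
  have := gau_pos 0 1 u
  positivity

theorem gaussK_mul : gaussK * rB = (2 : ℂ) • gB 0 1 := by
  ext u
  have h : (1 + Real.exp u) * gau 0 1 u * rr u = 2 * gau 0 1 u := by
    unfold rr
    have : 0 < 1 + Real.exp u := by positivity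
    field_simp
  simp only [BoundedContinuousFunction.coe_mul, Pi.mul_apply, BoundedContinuousFunction.coe_smul,
    gaussK_apply, rB_apply, gB_apply, smul_eq_mul]
  rw [← Complex.ofReal_mul, h]
  push_cast
  rfl

namespace FC
variable (F : FC H)

/-- `bm_one` with `Y = 1` and `g t = 1` -/
theorem Θ_gB (s : ℝ) {w : ℝ} (hw : 0 < w) (η : H) :
    F.Θ (gB s w) η = ∫ t, ((kap w t : ℂ) * Complex.exp (-(Complex.I * t * s))) • F.Δ t η := by
  have hn : ∀ t : ℝ, ‖(kap w t : ℂ) * Complex.exp (-(Complex.I * t * s))‖ = kap w t := fun t => by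
    have : -(Complex.I * t * s) = ((-(t * s) : ℝ) : ℂ) * Complex.I := by
      push_cast
      ring
    rw [norm_mul, this, Complex.norm_exp_ofReal_mul_I, mul_one, Complex.norm_real,
      Real.norm_eq_abs, abs_of_pos (kap_pos hw t)]
  have hc : Continuous fun t : ℝ => (kap w t : ℂ) * Complex.exp (-(Complex.I * t * s)) :=
    (Complex.continuous_ofReal.comp (continuous_kap w)).mul (by fun_prop)
  have hi : Integrable fun t : ℝ =>
      ((kap w t : ℂ) * Complex.exp (-(Complex.I * t * s))) • F.Δ t η := by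
    refine ((integrable_kap hw).mul_const ‖η‖).mono' (hc.smul (F.continuous_Δ η)).aestronglyMeasurable
      (Eventually.of_forall fun t => ?_)
    rw [norm_smul, hn, F.norm_Δ]
  have hd : Dom (fun t : ℝ => ((kap w t : ℂ) * Complex.exp (-(Complex.I * t * s))) • eB t)
      fun _ => 1 := by
    refine ⟨fun u => ?_, fun u => continuous_const, kap w, integrable_kap hw, fun t => ?_⟩
    · simp only [BoundedContinuousFunction.coe_smul, eB_apply, smul_eq_mul]
      exact hc.mul (by fun_prop)
    · have h1 : ‖eB t‖ ≤ 1 := by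
        refine (BoundedContinuousFunction.norm_le zero_le_one).2 fun u => ?_
        rw [eB_apply, mul_assoc, ← Complex.ofReal_mul, mul_comm, Complex.norm_exp_ofReal_mul_I]
      rw [norm_smul, hn, norm_one, mul_one]
      exact mul_le_of_le_one_right (kap_pos hw t).le h1
  refine ext_inner_left ℂ fun ζ => ?_
  have h := F.bm_one hd (a := gB s w) (b := 1) (fun u v => ?_) 1 ζ η
  · rw [← integral_inner hi]
    simp only [map_one, mul_one, map_smul] at h
    rw [← h]
    rfl
  · simp only [BoundedContinuousFunction.coe_smul, eB_apply, smul_eq_mul,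
      BoundedContinuousFunction.coe_one, Pi.one_apply, mul_one, gB_apply]
    exact gauss_int hw s u

/-- `Y` commutes with the gaussians, `rB * (gB 0 1 + exp (1/2) • gB 1 1) = 2 • gB 0 1`, and the
second factor has dense range (`dense_range` with `E = 1`); then `comm_of_R`. -/
theorem comm_of_Δ {Y : Op H} (h : ∀ t, F.Δ t * Y = Y * F.Δ t) (f : ℝ →ᵇ ℂ) :
    F.Θ f * Y = Y * F.Θ f := by
  have hg : ∀ a : ℝ, F.Θ (gB a 1) * Y = Y * F.Θ (gB a 1) := fun a => by
    ext η
    have h1 : ∀ t ζ, F.Δ t (Y ζ) = Y (F.Δ t ζ) := fun t ζ => DFunLike.congr_fun (h t) ζ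
    have hi : Integrable fun t : ℝ =>
        ((kap 1 t : ℂ) * Complex.exp (-(Complex.I * t * a))) • F.Δ t η := by
      have hc : Continuous fun t : ℝ => (kap 1 t : ℂ) * Complex.exp (-(Complex.I * t * a)) :=
        (Complex.continuous_ofReal.comp (continuous_kap 1)).mul (by fun_prop)
      refine ((integrable_kap one_pos).mul_const ‖η‖).mono'
        (hc.smul (F.continuous_Δ η)).aestronglyMeasurable (Eventually.of_forall fun t => ?_)
      have : -(Complex.I * t * a) = ((-(t * a) : ℝ) : ℂ) * Complex.I := by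
        push_cast
        ring
      rw [norm_smul, norm_mul, this, Complex.norm_exp_ofReal_mul_I, mul_one, Complex.norm_real,
        Real.norm_eq_abs, abs_of_pos (kap_pos one_pos t), F.norm_Δ]
    simp only [mul_apply_eq_comp]
    rw [F.Θ_gB a one_pos, F.Θ_gB a one_pos, ← Y.integral_comp_comm hi]
    simp only [h1, map_smul]
  have hK : F.Θ gaussK * Y = Y * F.Θ gaussK := by
    unfold gaussK
    rw [map_add, map_smul, add_mul, mul_add, smul_mul_assoc, mul_smul_comm, hg, hg]
  have hR : F.Θ gaussK * F.R = (2 : ℂ) • F.Θ (gB 0 1) := by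
    rw [← map_smul, ← gaussK_mul, map_mul]
    rfl
  refine F.comm_of_R ?_ f
  rw [← sub_eq_zero]
  ext η
  refine F.inj_of_ne gaussK_ne ?_
  have h1 : F.Θ gaussK * (F.R * Y - Y * F.R) = 0 := by
    rw [mul_sub, ← mul_assoc, ← mul_assoc, hK, mul_assoc Y, hR, smul_mul_assoc, mul_smul_comm, hg,
      sub_self]
  exact DFunLike.congr_fun h1 η

/-- same identity, `Θ (gB a 1) η = gau a 1 s • η` -/
theorem eig_of_Δ {s : ℝ} {η : H} (h : ∀ t : ℝ, F.Δ t η = Complex.exp (Complex.I * t * s) • η) :
    F.R η = (rr s : ℂ) • η := by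
  have hg : ∀ a : ℝ, F.Θ (gB a 1) η = gB a 1 s • η := fun a => by
    rw [F.Θ_gB a one_pos]
    simp only [h, smul_smul]
    rw [integral_smul_const, gauss_int one_pos, gB_apply]
  have hK : F.Θ gaussK η = gaussK s • η := by
    unfold gaussK
    rw [map_add, map_smul, add_apply, smul_apply, hg, hg,
      smul_smul, ← add_smul]
    rfl
  have hR : F.R * F.Θ gaussK = (2 : ℂ) • F.Θ (gB 0 1) := by
    rw [← map_smul, ← gaussK_mul, mul_comm gaussK, map_mul]
    rfl
  have h1 := DFunLike.congr_fun hR η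
  rw [mul_apply_eq_comp, hK, map_smul, smul_apply, hg,
    smul_smul] at h1
  have h2 : (2 : ℂ) * gB 0 1 s = gaussK s * rr s := (DFunLike.congr_fun gaussK_mul s).symm
  rw [h2, ← smul_smul] at h1
  exact smul_right_injective H (gaussK_ne s) h1

end FC

end Vale.Agent.P132
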