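import Vale.Agent.P132.Basic

/-! P132: finite families of vectors and operators. `l2 v` is the norm of `WithLp.toLp 2 v` in
`PiLp 2 fun _ => E`. -/

namespace Vale.Agent.P132

open scoped InnerProductSpace BoundedContinuousFunction
open Filter Topology MeasureTheory Vale.Agent.P104

universe u

variable {H : Type u} [NormedAddCommGroup H] [InnerProductSpace ℂ H] [CompleteSpace H]

section l2
variable {ι κ : Type*} [Fintype ι] [Fintype κ] {E E' : Type*} [NormedAddCommGroup E]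
  [NormedAddCommGroup E']

theorem l2_nonneg (v : ι → E) : 0 ≤ l2 v := by
  exact Real.sqrt_nonneg _

theorem l2_sq (v : ι → E) : l2 v ^ 2 = ∑ k, ‖v k‖ ^ 2 := by
  exact Real.sq_sqrt (Finset.sum_nonneg fun _ _ => sq_nonneg _)

theorem l2_le_iff {v : ι → E} {c : ℝ} (hc : 0 ≤ c) : l2 v ≤ c ↔ ∑ k, ‖v k‖ ^ 2 ≤ c ^ 2 := by
  exact Real.sqrt_le_left hc

theorem l2_eq_norm (v : ι → E) : l2 v = ‖(WithLp.toLp 2 v : PiLp 2 fun _ => E)‖ :=
  (PiLp.norm_eq_of_L2 (WithLp.toLp 2 v : PiLp 2 fun _ => E)).symm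

theorem l2_add_le (v w : ι → E) : l2 (fun k => v k + w k) ≤ l2 v + l2 w := by
  rw [l2_eq_norm, l2_eq_norm, l2_eq_norm]
  exact norm_add_le (WithLp.toLp 2 v : PiLp 2 fun _ => E) (WithLp.toLp 2 w)

theorem l2_sub_le (v w : ι → E) : l2 (fun k => v k - w k) ≤ l2 v + l2 w := by
  rw [l2_eq_norm, l2_eq_norm, l2_eq_norm]
  exact norm_sub_le (WithLp.toLp 2 v : PiLp 2 fun _ => E) (WithLp.toLp 2 w)

theorem l2_le_add_sub (v w : ι → E) : l2 v ≤ l2 w + l2 (fun k => v k - w k) := by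
  have h := l2_add_le w fun k => v k - w k
  simpa only [add_sub_cancel] using h

theorem l2_congr {v : ι → E} {w : ι → E'} (h : ∀ k, ‖v k‖ = ‖w k‖) : l2 v = l2 w := by
  simp only [l2, h]

theorem l2_le_mul {v : ι → E} {w : ι → E'} {c : ℝ} (hc : 0 ≤ c) (h : ∀ k, ‖v k‖ ≤ c * ‖w k‖) :
    l2 v ≤ c * l2 w := by
  rw [l2_le_iff (mul_nonneg hc (l2_nonneg w)), mul_pow, l2_sq, Finset.mul_sum]
  refine Finset.sum_le_sum fun k _ => ?_
  rw [← mul_pow]
  exact pow_le_pow_left₀ (norm_nonneg _) (h k) 2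

theorem l2_mono {v : ι → E} {w : ι → E'} (h : ∀ k, ‖v k‖ ≤ ‖w k‖) : l2 v ≤ l2 w := by
  have h1 := l2_le_mul (v := v) (w := w) zero_le_one fun k => by rw [one_mul]; exact h k
  rwa [one_mul] at h1

theorem norm_le_l2 (v : ι → E) (k : ι) : ‖v k‖ ≤ l2 v := by
  exact Real.le_sqrt_of_sq_le
    (Finset.single_le_sum (f := fun k => ‖v k‖ ^ 2) (fun _ _ => sq_nonneg _) (Finset.mem_univ k))

theorem l2_unique [Unique ι] (v : ι → E) : l2 v = ‖v default‖ := by
  rw [l2, Fintype.sum_unique, Real.sqrt_sq (norm_nonneg _)]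

theorem l2_outer {α : ι → Type*} [∀ i, Fintype (α i)] (v : ∀ i, α i → E) :
    (l2 fun i => l2 (v i)) = √(∑ i, ∑ j, ‖v i j‖ ^ 2) := by
  rw [l2]
  simp only [Real.norm_eq_abs, sq_abs, l2_sq]

theorem l2_prod (v : ι × κ → E) : l2 v = l2 fun i => l2 fun j => v (i, j) := by
  simp only [l2_outer]
  rw [l2, Fintype.sum_prod_type]

theorem l2_prod' (v : ι × κ → E) : l2 v = l2 fun j => l2 fun i => v (i, j) := by
  simp only [l2_outer]
  rw [l2, Fintype.sum_prod_type_right]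

theorem l2_sigma {α : ι → Type*} [∀ i, Fintype (α i)] (v : (Σ i, α i) → E) :
    l2 v = l2 fun i => l2 fun j => v ⟨i, j⟩ := by
  simp only [l2_outer]
  rw [l2, Fintype.sum_sigma]

/-- some member of the family is as good as the family -/
theorem l2_exists_le {v : ι → E} {w : ι → E'} {c : ℝ} (hc : 0 ≤ c) (h : l2 v ≤ c * l2 w)
    (h0 : 0 < l2 w) : ∃ k, w k ≠ 0 ∧ ‖v k‖ ≤ c * ‖w k‖ := by
  by_contra hn
  push Not at hn
  obtain ⟨k₀, hk₀⟩ : ∃ k, w k ≠ 0 := by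
    by_contra h1
    push Not at h1
    simp [l2, h1] at h0
  have h1 : ∀ k, c * ‖w k‖ ≤ ‖v k‖ := fun k => by
    by_cases hk : w k = 0
    · rw [hk, norm_zero, mul_zero]
      exact norm_nonneg _
    · exact (hn k hk).le
  rw [l2_le_iff (mul_nonneg hc h0.le), mul_pow, l2_sq, Finset.mul_sum] at h
  refine absurd h (not_le.2 (Finset.sum_lt_sum (fun k _ => ?_) ⟨k₀, Finset.mem_univ _, ?_⟩))
  · rw [← mul_pow]
    exact pow_le_pow_left₀ (mul_nonneg hc (norm_nonneg _)) (h1 k) 2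
  · rw [← mul_pow]
    exact pow_lt_pow_left₀ (hn k₀ hk₀) (mul_nonneg hc (norm_nonneg _)) two_ne_zero

end l2

variable {ι κ : Type*} [Fintype ι] [Fintype κ]

omit [CompleteSpace H] in
theorem norm_sum_inner_le (v w : ι → H) : ‖∑ k, ⟪v k, w k⟫_ℂ‖ ≤ l2 v * l2 w := by
  refine (norm_sum_le _ _).trans ((Finset.sum_le_sum fun k _ => norm_inner_le_norm _ _).trans ?_)
  exact Real.sum_mul_le_sqrt_mul_sqrt _ _ _

omit [CompleteSpace H] in
theorem l2_op_le (a : Op H) (v : ι → H) : l2 (fun k => a (v k)) ≤ ‖a‖ * l2 v := by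
  exact l2_le_mul (norm_nonneg a) fun k => a.le_opNorm _

theorem l2_cancel {a c : ℝ} (ha : 0 ≤ a) (hc : 0 ≤ c) (h : a ^ 2 ≤ a * c) : a ≤ c := by
  rcases ha.eq_or_lt with h0 | h0
  · rw [← h0]
    exact hc
  · rw [sq] at h
    exact le_of_mul_le_mul_left h h0

/-- weak lower semicontinuity -/
theorem l2_le_of_weak {I : Type*} {l : Filter I} [l.NeBot] {v : I → ι → H} {w : ι → H} {c : ℝ}
    (h : ∀ k η, Tendsto (fun i => ⟪η, v i k⟫_ℂ) l (𝓝 ⟪η, w k⟫_ℂ)) (hc : ∀ᶠ i in l, l2 (v i) ≤ c) :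
    l2 w ≤ c := by
  have h0 : 0 ≤ c := by
    obtain ⟨i, hi⟩ := hc.exists
    exact (l2_nonneg _).trans hi
  have h1 : Tendsto (fun i => ‖∑ k, ⟪w k, v i k⟫_ℂ‖) l (𝓝 ‖∑ k, ⟪w k, w k⟫_ℂ‖) :=
    (tendsto_finsetSum _ fun k _ => h k (w k)).norm
  have h2 : ‖∑ k, ⟪w k, w k⟫_ℂ‖ ≤ l2 w * c := le_of_tendsto h1 (hc.mono fun i hi =>
    (norm_sum_inner_le _ _).trans (mul_le_mul_of_nonneg_left hi (l2_nonneg w)))
  have h3 : l2 w ^ 2 ≤ ‖∑ k, ⟪w k, w k⟫_ℂ‖ := by
    refine le_trans (le_of_eq ?_) (Complex.re_le_norm _)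
    rw [l2_sq, Complex.re_sum]
    exact Finset.sum_congr rfl fun k _ => (qf_one (w k)).symm
  exact l2_cancel (l2_nonneg w) h0 (h3.trans h2)

theorem inner_gram (x : ι → Op H) (η ζ : H) : ⟪η, gram x ζ⟫_ℂ = ∑ k, ⟪x k η, x k ζ⟫_ℂ := by
  rw [gram, _root_.sum_apply, inner_sum]
  exact Finset.sum_congr rfl fun k _ => inner_star_right _ _ _

theorem qf_gram (x : ι → Op H) (ζ : H) : qf (gram x) ζ = l2 (fun k => x k ζ) ^ 2 := by
  rw [gram, qf_sum, l2_sq]
  exact Finset.sum_congr rfl fun k _ => qf_star_mul_self _ _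

theorem gram_sa (x : ι → Op H) : IsSelfAdjoint (gram x) := by
  exact isSelfAdjoint_sum _ fun k _ => IsSelfAdjoint.star_mul_self _

theorem gram_mem {N : VonNeumannAlgebra H} {x : ι → Op H} (h : ∀ k, x k ∈ N) : gram x ∈ N := by
  exact sum_mem fun k _ => mul_mem (star_mem (h k)) (h k)

omit [CompleteSpace H] in
theorem exists_col (x : ι → Op H) : ∃ C, 0 ≤ C ∧ Col x C := by
  refine ⟨l2 x, l2_nonneg x, fun ζ => ?_⟩
  rw [mul_comm]
  exact l2_le_mul (norm_nonneg ζ) fun k => ((x k).le_opNorm ζ).trans_eq (mul_comm _ _)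

omit [CompleteSpace H] in
theorem Col.mono {x : ι → Op H} {C C' : ℝ} (h : Col x C) (hC : C ≤ C') : Col x C' := by
  exact fun ζ => (h ζ).trans (mul_le_mul_of_nonneg_right hC (norm_nonneg ζ))

theorem Col.norm_gram {x : ι → Op H} {C : ℝ} (h : Col x C) (hC : 0 ≤ C) : ‖gram x‖ ≤ C ^ 2 := by
  refine norm_le_of_qf (gram_sa x) (sq_nonneg C) fun ζ => ?_
  rw [qf_gram, abs_of_nonneg (sq_nonneg _), ← mul_pow]
  exact pow_le_pow_left₀ (l2_nonneg _) (h ζ) 2

/-- the row of the adjoints -/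
theorem Col.sum_star {x : ι → Op H} {C : ℝ} (h : Col x C) (hC : 0 ≤ C) (v : ι → H) :
    ‖∑ k, star (x k) (v k)‖ ≤ C * l2 v := by
  set η := ∑ k, star (x k) (v k) with hη
  have h1 : ⟪η, η⟫_ℂ = ∑ k, ⟪x k η, v k⟫_ℂ := by
    conv_lhs => rw [hη, inner_sum]
    exact Finset.sum_congr rfl fun k _ => inner_star_right _ _ _
  have h2 : ‖η‖ ^ 2 ≤ ‖⟪η, η⟫_ℂ‖ := (qf_one η).symm.le.trans (Complex.re_le_norm _)
  refine l2_cancel (norm_nonneg η) (mul_nonneg hC (l2_nonneg v)) (h2.trans ?_)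
  rw [h1]
  refine (norm_sum_inner_le _ _).trans ((mul_le_mul_of_nonneg_right (h η) (l2_nonneg v)).trans_eq ?_)
  ring

omit [CompleteSpace H] in
theorem Col.mul_left {x : ι → Op H} {C : ℝ} (h : Col x C) (a : Op H) :
    Col (fun k => a * x k) (‖a‖ * C) := by
  intro ζ
  rw [mul_assoc]
  exact (l2_op_le a fun k => x k ζ).trans (mul_le_mul_of_nonneg_left (h ζ) (norm_nonneg a))

omit [CompleteSpace H] in
theorem Col.mul_right {x : ι → Op H} {C : ℝ} (h : Col x C) (hC : 0 ≤ C) (a : Op H) :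
    Col (fun k => x k * a) (C * ‖a‖) := by
  intro ζ
  rw [mul_assoc]
  exact (h (a ζ)).trans (mul_le_mul_of_nonneg_left (a.le_opNorm ζ) hC)

omit [CompleteSpace H] in
theorem Col.sub {x y : ι → Op H} {C C' : ℝ} (h : Col x C) (h' : Col y C') :
    Col (fun k => x k - y k) (C + C') := by
  intro ζ
  rw [add_mul]
  exact (l2_sub_le (fun k => x k ζ) fun k => y k ζ).trans (add_le_add (h ζ) (h' ζ))

omit [CompleteSpace H] in
theorem Col.l2_prod {x : ι → Op H} {C : ℝ} (h : Col x C) (hC : 0 ≤ C) (v : κ → H) :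
    l2 (fun p : ι × κ => x p.1 (v p.2)) ≤ C * l2 v := by
  rw [l2_prod']
  refine l2_le_mul hC fun j => ?_
  rw [Real.norm_of_nonneg (l2_nonneg _)]
  exact h (v j)

omit [CompleteSpace H] in
theorem Col.prod {x : ι → Op H} {y : κ → Op H} {C C' : ℝ} (h : Col x C) (h' : Col y C')
    (hC : 0 ≤ C) : Col (fun p : ι × κ => x p.1 * y p.2) (C * C') := by
  intro ζ
  rw [mul_assoc]
  exact (h.l2_prod hC fun j => y j ζ).trans (mul_le_mul_of_nonneg_left (h' ζ) hC)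

theorem Row.prod {x : ι → Op H} {y : κ → Op H} {μ ν C C' : ℝ} (h : Row x (fun _ => μ) C)
    (h' : Row y (fun _ => ν) C') (hC' : 0 ≤ C') :
    Row (fun p : ι × κ => x p.1 * y p.2) (fun _ => μ * ν) (C * C') := by
  intro ζ
  have e : ∀ i j, ((μ * ν) • star (x i * y j)) ζ = (ν • star (y j)) ((μ • star (x i)) ζ) := by
    intro i j
    rw [star_mul, ← mul_apply_eq_comp, smul_mul_smul_comm, mul_comm ν μ]
  rw [l2_prod]
  simp only [e]
  refine (l2_le_mul (w := fun i => (μ • star (x i)) ζ) hC' fun i => ?_).trans ?_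
  · rw [Real.norm_of_nonneg (l2_nonneg _)]
    exact h' _
  · exact (mul_le_mul_of_nonneg_left (h ζ) hC').trans_eq (by ring)

theorem Near.mono {N N' : VonNeumannAlgebra H} {ξ : H} {v : ι → H} {ε ε' : ℝ} (h : Near N ξ v ε)
    (hN : ∀ z ∈ N', z ∈ N) (hε : ε ≤ ε') : Near N' ξ v ε' := by
  exact fun z hz => (h z (hN z hz)).trans (mul_le_mul_of_nonneg_right hε (norm_nonneg z))

theorem Near.sq {N : VonNeumannAlgebra H} {ξ : H} {v : ι → H} {ε : ℝ} (h : Near N ξ v ε)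
    {a : Op H} (ha : a ∈ N) : |l2 (fun k => a (v k)) ^ 2 - ‖a ξ‖ ^ 2| ≤ ε * ‖a‖ ^ 2 := by
  have h1 := (Complex.abs_re_le_norm _).trans (h _ (mul_mem (star_mem ha) ha))
  rw [CStarRing.norm_star_mul_self, ← pow_two, Complex.sub_re, Complex.re_sum] at h1
  rw [l2_sq, ← qf_star_mul_self a ξ]
  simp only [← qf_star_mul_self]
  exact h1

theorem Near.perturb {N : VonNeumannAlgebra H} {ξ : H} {v w : ι → H} {ε δ : ℝ}
    (h : Near N ξ v ε) (hξ : ‖ξ‖ = 1) (hε : 0 ≤ ε) (hε1 : ε ≤ 1) (hδ1 : δ ≤ 1)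
    (hδ : l2 (fun k => w k - v k) ≤ δ) : Near N ξ w (ε + 4 * δ) := by
  intro z hz
  have hδ0 : 0 ≤ δ := (l2_nonneg _).trans hδ
  have hz0 := norm_nonneg z
  have h1 : l2 v ≤ 3 / 2 := by
    have h2 := (abs_le.1 (h.sq (one_mem N))).2
    simp only [one_apply_eq_self, hξ] at h2
    have h3 : ‖(1 : Op H)‖ ^ 2 ≤ 1 := pow_le_one₀ (norm_nonneg _) ContinuousLinearMap.norm_id_le
    have h4 := mul_le_mul_of_nonneg_left h3 hε
    refine (abs_le_of_sq_le_sq' ?_ (by norm_num)).2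
    change l2 v ^ 2 - 1 ^ 2 ≤ _ at h2
    linarith
  have h2 : l2 w ≤ 5 / 2 := by linarith [l2_le_add_sub w v]
  have e : ∑ k, ⟪w k, z (w k)⟫_ℂ - ⟪ξ, z ξ⟫_ℂ = (∑ k, ⟪v k, z (v k)⟫_ℂ - ⟪ξ, z ξ⟫_ℂ) +
      (∑ k, ⟪w k - v k, z (w k)⟫_ℂ + ∑ k, ⟪v k, z (w k - v k)⟫_ℂ) := by
    simp only [map_sub, inner_sub_left, inner_sub_right, Finset.sum_sub_distrib]
    ring
  have h3 : ‖∑ k, ⟪w k - v k, z (w k)⟫_ℂ‖ ≤ δ * (‖z‖ * (5 / 2)) :=
    (norm_sum_inner_le (fun k => w k - v k) fun k => z (w k)).trans (mul_le_mul hδ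
      ((l2_op_le z w).trans (mul_le_mul_of_nonneg_left h2 hz0)) (l2_nonneg _) hδ0)
  have h4 : ‖∑ k, ⟪v k, z (w k - v k)⟫_ℂ‖ ≤ 3 / 2 * (‖z‖ * δ) :=
    (norm_sum_inner_le v fun k => z (w k - v k)).trans (mul_le_mul h1
      ((l2_op_le z fun k => w k - v k).trans (mul_le_mul_of_nonneg_left hδ hz0)) (l2_nonneg _)
      (by norm_num))
  rw [e]
  refine (norm_add_le _ _).trans ((add_le_add (h z hz) ((norm_add_le _ _).trans
    (add_le_add h3 h4))).trans_eq ?_)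
  ring

theorem mem_inter {N : VonNeumannAlgebra H} {A : Set (Op H)} {x : Op H} :
    x ∈ inter N A ↔ x ∈ N ∧ ∀ a ∈ A, a * x = x * a ∧ star a * x = x * star a := by
  rw [inter, mem_vnComm]
  constructor
  · exact fun h => ⟨(mem_iff_comm N).2 fun s hs => (h s (Or.inl hs)).1, fun a ha => h a (Or.inr ha)⟩
  · rintro ⟨h1, h2⟩ s (hs | hs)
    · exact ⟨comm_of_mem hs h1, comm_of_mem (star_mem hs) h1⟩
    · exact h2 s hs

theorem l2_projOn_iff (W : Set H) (η : H) :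
    projOn W η = η ↔ η ∈ closure (Submodule.span ℂ W : Set H) := by
  rw [← Submodule.topologicalClosure_coe]
  exact Submodule.starProjection_eq_self_iff

/-- a vector in the closure of the orbit is fixed by the projection, and conversely -/
theorem projOn_orb_iff (N : VonNeumannAlgebra H) (ξ η : H) :
    projOn (orb N ξ) η = η ↔ η ∈ closure (orb (N : Set (Op H)) ξ) := by
  have e : (Submodule.span ℂ (orb (N : Set (Op H)) ξ) : Set H) = orb (N : Set (Op H)) ξ := by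
    refine Set.Subset.antisymm (fun ζ hζ => ?_) Submodule.subset_span
    induction hζ using Submodule.span_induction with
    | mem x hx => exact hx
    | zero => exact ⟨0, zero_mem N, rfl⟩
    | add x y _ _ hx hy =>
      obtain ⟨a, ha, rfl⟩ := hx
      obtain ⟨b, hb, rfl⟩ := hy
      exact ⟨a + b, add_mem ha hb, rfl⟩
    | smul c x _ hx =>
      obtain ⟨a, ha, rfl⟩ := hx
      exact ⟨c • a, SMulMemClass.smul_mem c ha, rfl⟩
  rw [l2_projOn_iff, e]

theorem projOn_comm' {W : Set H} {a : Op H} (h : ∀ η ∈ W, a η ∈ closure W)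
    (h' : ∀ η ∈ W, star a η ∈ closure W) : a * projOn W = projOn W * a := by
  have key : ∀ s : Op H, (∀ η ∈ W, s η ∈ closure W) → projOn W * s * projOn W = s * projOn W := by
    intro s hs
    have : ((1 - projOn W) * s) * projOn W = 0 := by
      refine mul_projOn_eq_zero fun η hη => ?_
      have h1 := (l2_projOn_iff W _).2 (closure_mono Submodule.subset_span (hs η hη))
      simp [h1]
    rw [sub_mul, sub_mul, one_mul, sub_eq_zero] at this
    exact this.symm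
  have h2 := congrArg star (key (star a) h')
  simp only [star_mul, star_star, (projOn_proj W).isSelfAdjoint.star_eq] at h2
  rw [← key a h, mul_assoc, h2]

end Vale.Agent.P132
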