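import Vale.Agent.P132.Sech

/-! P132: uniqueness for the two-sided Laplace transform. -/

namespace Vale.Agent.P132

open MeasureTheory

section
open Filter Topology

theorem lap_exp_le {x a t : ℝ} (h : |x| ≤ a) : Real.exp (x * t) ≤ Real.exp (a * |t|) := by
  refine Real.exp_le_exp.2 ?_
  have := le_abs_self (x * t)
  rw [abs_mul] at this
  exact this.trans (mul_le_mul_of_nonneg_right h (abs_nonneg _))

theorem lap_norm {g : ℝ → ℂ} {C : ℝ} (hC : ∀ t, ‖g t‖ ≤ C * Real.exp (-Real.pi * |t|))
    {z : ℂ} {a : ℝ} (hz : |z.re| ≤ a) (t : ℝ) :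
    ‖Complex.exp (z * t) * g t‖ ≤ C * Real.exp (-(Real.pi - a) * |t|) := by
  rw [norm_mul, Complex.norm_exp, Complex.re_mul_ofReal]
  calc Real.exp (z.re * t) * ‖g t‖ ≤ Real.exp (a * |t|) * (C * Real.exp (-Real.pi * |t|)) :=
        mul_le_mul (lap_exp_le hz) (hC t) (norm_nonneg _) (Real.exp_pos _).le
    _ = C * (Real.exp (a * |t|) * Real.exp (-Real.pi * |t|)) := by ring
    _ = _ := by rw [← Real.exp_add]; congr 2; ring

theorem lap_integrable {g : ℝ → ℂ} (hg : Continuous g) {C : ℝ}
    (hC : ∀ t, ‖g t‖ ≤ C * Real.exp (-Real.pi * |t|)) {z : ℂ} (hz : |z.re| < Real.pi) :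
    Integrable fun t : ℝ => Complex.exp (z * t) * g t := by
  refine ((sech_integrable_exp_abs (sub_pos.2 hz)).const_mul C).mono' ?_
    (Eventually.of_forall fun t => lap_norm hC le_rfl t)
  exact Continuous.aestronglyMeasurable (by fun_prop)

theorem lap_diff {g : ℝ → ℂ} (hg : Continuous g) {C : ℝ}
    (hC : ∀ t, ‖g t‖ ≤ C * Real.exp (-Real.pi * |t|)) {z₀ : ℂ} (hz : |z₀.re| < Real.pi) :
    DifferentiableAt ℂ (fun z : ℂ => ∫ t : ℝ, Complex.exp (z * t) * g t) z₀ := by
  have hC0 : 0 ≤ C := by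
    have := (norm_nonneg _).trans (hC 0)
    simpa using this
  obtain ⟨δ, hδ, hδ'⟩ : ∃ δ : ℝ, 0 < δ ∧ Real.pi - |z₀.re| = 3 * δ :=
    ⟨(Real.pi - |z₀.re|) / 3, by linarith, by ring⟩
  refine (hasDerivAt_integral_of_dominated_loc_of_deriv_le (μ := volume)
    (F := fun (z : ℂ) (t : ℝ) => Complex.exp (z * t) * g t)
    (F' := fun (z : ℂ) (t : ℝ) => (t : ℂ) * (Complex.exp (z * t) * g t))
    (bound := fun t => C / δ * Real.exp (-δ * |t|))
    (Metric.ball_mem_nhds z₀ hδ) ?_ (lap_integrable hg hC hz) ?_ ?_ ?_ ?_).2.differentiableAt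
  · exact Eventually.of_forall fun z => Continuous.aestronglyMeasurable (by fun_prop)
  · exact Continuous.aestronglyMeasurable (by fun_prop)
  · refine Eventually.of_forall fun t z hzz => ?_
    have h1 : |z.re| ≤ |z₀.re| + δ := by
      have h2 : |z.re - z₀.re| ≤ δ := by
        rw [← Complex.sub_re]
        exact (Complex.abs_re_le_norm _).trans (mem_ball_iff_norm.1 hzz).le
      have := abs_sub_abs_le_abs_sub z.re z₀.re
      linarith
    have h2 := lap_norm hC h1 t
    have h3 : |t| ≤ δ⁻¹ * Real.exp (δ * |t|) := by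
      rw [inv_mul_eq_div, le_div_iff₀ hδ]
      have := Real.add_one_le_exp (δ * |t|)
      linarith
    rw [norm_mul, Complex.norm_real, Real.norm_eq_abs]
    calc |t| * ‖Complex.exp (z * t) * g t‖
        ≤ (δ⁻¹ * Real.exp (δ * |t|)) * (C * Real.exp (-(Real.pi - (|z₀.re| + δ)) * |t|)) :=
          mul_le_mul h3 h2 (norm_nonneg _) (by positivity)
      _ = C / δ * (Real.exp (δ * |t|) * Real.exp (-(Real.pi - (|z₀.re| + δ)) * |t|)) := by ring
      _ = _ := by
          rw [← Real.exp_add]
          congr 2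
          have : Real.pi - (|z₀.re| + δ) = 2 * δ := by linarith
          rw [this]
          ring
  · exact (sech_integrable_exp_abs hδ).const_mul _
  · refine Eventually.of_forall fun t z _ => ?_
    have h1 := (((hasDerivAt_id z).mul_const (t : ℂ)).cexp).mul_const (g t)
    refine h1.congr_deriv ?_
    simp only [id]
    ring

theorem lap_zero {g : ℝ → ℂ} (hg : Continuous g) {C : ℝ}
    (hC : ∀ t, ‖g t‖ ≤ C * Real.exp (-Real.pi * |t|))
    (h : ∀ θ : ℝ, |θ| < Real.pi → ∫ t : ℝ, Complex.exp (θ * t) * g t = 0) {z : ℂ}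
    (hz : |z.re| < Real.pi) : ∫ t : ℝ, Complex.exp (z * t) * g t = 0 := by
  have hp := Real.pi_pos
  let S : Set ℂ := Complex.reLm ⁻¹' Set.Ioo (-Real.pi) Real.pi
  have hS : ∀ w : ℂ, w ∈ S ↔ |w.re| < Real.pi := fun w => by
    simp only [S, Set.mem_preimage, Set.mem_Ioo, abs_lt]
    rfl
  have ho : IsOpen S := isOpen_Ioo.preimage Complex.continuous_re
  have ha : AnalyticOnNhd ℂ (fun z : ℂ => ∫ t : ℝ, Complex.exp (z * t) * g t) S :=
    DifferentiableOn.analyticOnNhd
      (fun w hw => (lap_diff hg hC ((hS w).1 hw)).differentiableWithinAt) ho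
  have hc : IsPreconnected S := ((convex_Ioo _ _).linear_preimage Complex.reLm).isPreconnected
  refine ha.eqOn_zero_of_preconnected_of_frequently_eq_zero hc (z₀ := 0)
    ((hS 0).2 (by simpa using hp)) ?_ ((hS z).2 hz)
  have h1 : Tendsto (fun x : ℝ => (x : ℂ)) (𝓝[≠] 0) (𝓝[≠] 0) := by
    refine tendsto_nhdsWithin_iff.2 ⟨?_, ?_⟩
    · have := (Complex.continuous_ofReal.tendsto 0).mono_left
        (nhdsWithin_le_nhds (s := {0}ᶜ))
      simpa using this
    · filter_upwards [self_mem_nhdsWithin] with x hx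
      simpa using hx
  refine h1.frequently (Eventually.frequently ?_)
  have h2 : ∀ᶠ x : ℝ in 𝓝 0, |x| < Real.pi :=
    continuous_abs.continuousAt.eventually_lt continuousAt_const (by simpa using hp)
  filter_upwards [nhdsWithin_le_nhds h2] with x hx using h x hx

end

/-- Reduce to real `c`. The function `z ↦ ∫ exp (z t) / cosh (π t) * c t` is analytic on the strip
`|re z| < π` (for instance `ProbabilityTheory.analyticOnNhd_complexMGF` for the measures with
densities `c⁺ / cosh`, `c⁻ / cosh`), vanishes on a real segment, hence on the imaginary axis;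
conclude with `Measure.ext_of_charFun` or Fourier inversion, and continuity. -/
theorem laplace_unique {c : ℝ → ℂ} (hc : Continuous c) {C : ℝ} (hC : ∀ t, ‖c t‖ ≤ C)
    (h : ∀ θ : ℝ, |θ| < Real.pi →
      ∫ t : ℝ, ((Real.exp (θ * t) / Real.cosh (Real.pi * t) : ℝ) : ℂ) * c t = 0) (t : ℝ) :
    c t = 0 := by
  have hp := Real.pi_pos
  have hne : ∀ t : ℝ, ((Real.cosh (Real.pi * t) : ℝ) : ℂ) ≠ 0 := fun t => by
    exact_mod_cast (Real.cosh_pos _).ne'
  let g : ℝ → ℂ := fun t => c t / ((Real.cosh (Real.pi * t) : ℝ) : ℂ)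
  have hg : Continuous g := hc.div (by fun_prop) hne
  have hb : ∀ t, ‖g t‖ ≤ 2 * C * Real.exp (-Real.pi * |t|) := fun t => by
    have h1 := sech_exp_abs_le (Real.pi * t)
    have h2 := Real.cosh_pos (Real.pi * t)
    have hC0 : 0 ≤ C := (norm_nonneg _).trans (hC t)
    rw [abs_mul, abs_of_pos hp] at h1
    simp only [g]
    rw [norm_div, Complex.norm_real, Real.norm_eq_abs, abs_of_pos h2, div_le_iff₀ h2]
    have h3 : Real.exp (-Real.pi * |t|) * Real.exp (Real.pi * |t|) = 1 := by
      rw [← Real.exp_add]; simp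
    calc ‖c t‖ ≤ C := hC t
      _ = C * Real.exp (-Real.pi * |t|) * Real.exp (Real.pi * |t|) := by
          rw [mul_assoc, h3, mul_one]
      _ ≤ C * Real.exp (-Real.pi * |t|) * (2 * Real.cosh (Real.pi * t)) :=
          mul_le_mul_of_nonneg_left h1 (by positivity)
      _ = _ := by ring
  have h0 : ∀ θ : ℝ, |θ| < Real.pi → ∫ t : ℝ, Complex.exp (θ * t) * g t = 0 := fun θ hθ => by
    rw [← h θ hθ]
    refine integral_congr_ae (Filter.Eventually.of_forall fun t => ?_)
    simp only [g]
    push_cast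
    ring
  have hi : Integrable g := by
    have := lap_integrable hg hb (z := 0) (by simpa using hp)
    simpa using this
  have hF : FourierTransform.fourier g = fun _ => 0 := by
    funext w
    rw [Real.fourier_real_eq_integral_exp_smul,
      ← lap_zero hg hb h0 (z := -2 * Real.pi * w * Complex.I) (by simpa using hp)]
    refine integral_congr_ae (Filter.Eventually.of_forall fun t => ?_)
    simp only [smul_eq_mul]
    congr 2
    push_cast
    ring
  have hinv := hg.fourierInv_fourier_eq hi (by rw [hF]; exact integrable_zero _ _ _)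
  rw [hF] at hinv
  have h1 : g t = 0 := by
    rw [← hinv, Real.fourierInv_eq]
    simp
  simpa [g, hne t] using (div_eq_zero_iff.1 h1).resolve_right (hne t)

end Vale.Agent.P132
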