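import Vale.Agent.P132.Basic

/-! P132: the bounded operators of Rieffel and van Daele. -/

namespace Vale.Agent.P132

open scoped InnerProductSpace BoundedContinuousFunction
open Filter Topology MeasureTheory Vale.Agent.P104

universe u

variable {H : Type u} [NormedAddCommGroup H] [InnerProductSpace ℂ H] [CompleteSpace H]

omit [CompleteSpace H] in
theorem rvd_im (a b : H) : (⟪a, b⟫_ℂ).im = (⟪Complex.I • a, b⟫_ℂ).re := by
  simp

omit [CompleteSpace H] in
theorem rvd_re_symm (a b : H) : (⟪a, b⟫_ℂ).re = (⟪b, a⟫_ℂ).re := by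
  rw [← inner_conj_symm, Complex.conj_re]

theorem rvd_proj (W : Submodule ℝ H) : ∃ P : H →L[ℝ] H, (∀ η, P η ∈ closure (W : Set H)) ∧
    ∀ η, ∀ k ∈ closure (W : Set H), (⟪η - P η, k⟫_ℂ).re = 0 := by
  let : InnerProductSpace ℝ H := InnerProductSpace.complexToReal
  refine ⟨W.topologicalClosure.starProjection, fun η => W.topologicalClosure.starProjection_apply_mem η,
    fun η k hk => ?_⟩
  exact W.topologicalClosure.starProjection_inner_eq_zero η k hk

omit [CompleteSpace H] in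
theorem rvd_smul (P : H →L[ℝ] H) (c : ℂ) (η : H) :
    P (c • η) = (c.re : ℂ) • P η + (c.im : ℂ) • P (Complex.I • η) := by
  have : c • η = c.re • η + c.im • Complex.I • η := by
    conv_lhs => rw [← Complex.re_add_im c]
    rw [add_smul, mul_smul, Complex.coe_smul, Complex.coe_smul]
  rw [this, map_add, map_smul, map_smul, Complex.coe_smul, Complex.coe_smul]

omit [CompleteSpace H] in
theorem rvd_two (R : Op H) (η : H) : (2 - R) η = (2 : ℂ) • η - R η := by
  rw [sub_apply, ← one_add_one_eq_two, add_apply, two_smul]; rfl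

omit [CompleteSpace H] in
theorem rvd_II (η : H) : Complex.I • Complex.I • η = -η := by
  rw [smul_smul, Complex.I_mul_I, neg_one_smul]

omit [CompleteSpace H] in
theorem rvd_R (P : H →L[ℝ] H) :
    ∃ R : Op H, ∀ η, R η = P η - Complex.I • P (Complex.I • η) := by
  refine ⟨⟨⟨⟨fun η => P η - Complex.I • P (Complex.I • η), fun x y => ?_⟩, fun c x => ?_⟩, ?_⟩,
    fun _ => rfl⟩
  · simp only [smul_add, map_add]; abel
  · simp only [RingHom.id_apply]
    rw [smul_comm Complex.I c x, rvd_smul P c x, rvd_smul P c (Complex.I • x), rvd_II, map_neg]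
    conv_rhs => rw [← Complex.re_add_im c]
    match_scalars
    · ring
    · linear_combination (c.im : ℂ) * Complex.I_mul_I
  · change Continuous fun η => P η - Complex.I • P (Complex.I • η)
    fun_prop

omit [CompleteSpace H] in
theorem rvd_A (P : H →L[ℝ] H) :
    ∃ A : H →L⋆[ℂ] H, ∀ η, A η = P η + Complex.I • P (Complex.I • η) := by
  refine ⟨⟨⟨⟨fun η => P η + Complex.I • P (Complex.I • η), fun x y => ?_⟩, fun c x => ?_⟩, ?_⟩,
    fun _ => rfl⟩
  · simp only [smul_add, map_add]; abel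
  · simp only
    rw [smul_comm Complex.I c x, rvd_smul P c x, rvd_smul P c (Complex.I • x), rvd_II, map_neg]
    conv_rhs => rw [← Complex.re_add_im c]
    simp only [map_add, map_mul, Complex.conj_ofReal, Complex.conj_I]
    match_scalars
    · ring
    · linear_combination (c.im : ℂ) * Complex.I_mul_I
  · change Continuous fun η => P η + Complex.I • P (Complex.I • η)
    fun_prop

/-- Let `P` be the real orthogonal projection on the closure of `W` (for the real inner product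
`re ⟪·, ·⟫`, `InnerProductSpace.complexToReal`), `Q η = I • P (-I • η)`, `R = P + Q` (complex
linear), `A = P - Q` (conjugate linear). -/
theorem exists_rvd (W : Submodule ℝ H) : ∃ R A, RvD (W : Set H) R A := by
  obtain ⟨P, hm, ho⟩ := rvd_proj W
  obtain ⟨R, hR⟩ := rvd_R P
  obtain ⟨A, hA⟩ := rvd_A P
  have h2 : ∀ η, (2 - R) η = η + η - R η := fun η => by
    rw [rvd_two, two_smul]
  have hs1 : ∀ a b, (⟪P a, b⟫_ℂ).re = (⟪P a, P b⟫_ℂ).re := fun a b => by
    have := ho b _ (hm a)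
    rw [inner_sub_left, Complex.sub_re, sub_eq_zero] at this
    rw [rvd_re_symm, this, rvd_re_symm]
  have hs : ∀ a b, (⟪P a, b⟫_ℂ).re = (⟪a, P b⟫_ℂ).re := fun a b => by
    rw [hs1, rvd_re_symm a, hs1 b, rvd_re_symm]
  have hq : ∀ a b, (⟪Complex.I • P (Complex.I • a), b⟫_ℂ).re =
      (⟪a, Complex.I • P (Complex.I • b)⟫_ℂ).re := fun a b => by
    have h1 : ∀ u v : H, (⟪Complex.I • u, v⟫_ℂ).re = -(⟪u, Complex.I • v⟫_ℂ).re := fun u v => by
      simp
    rw [h1, hs, h1, neg_neg]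
  have hcl : ∀ a ∈ closure (W : Set H), ∀ b ∈ closure (W : Set H), a - b ∈ closure (W : Set H) :=
    fun a ha b hb => W.topologicalClosure.sub_mem ha hb
  have hfix : ∀ k ∈ closure (W : Set H), P k = k := fun k hk => by
    have := ho k _ (hcl _ hk _ (hm k))
    exact (sub_eq_zero.1 (inner_self_eq_zero (𝕜 := ℂ).1
      (Complex.ext this (inner_self_im (𝕜 := ℂ) _)))).symm
  have hPP : ∀ η, P (P η) = P η := fun η => hfix _ (hm η)
  have hzero : ∀ η, (∀ k ∈ W, (⟪k, η⟫_ℂ).re = 0) → P η = 0 := fun η h => by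
    have h1 : closure (W : Set H) ⊆ {k | (⟪k, η⟫_ℂ).re = 0} :=
      closure_minimal h (isClosed_eq (by fun_prop) continuous_const)
    have h3 : (⟪P η, η⟫_ℂ).re = 0 := h1 (hm η)
    rw [hs1] at h3
    exact inner_self_eq_zero (𝕜 := ℂ).1 (Complex.ext h3 (inner_self_im (𝕜 := ℂ) _))
  have hRs : ∀ a b, (⟪R a, b⟫_ℂ).re = (⟪a, R b⟫_ℂ).re := fun a b => by
    rw [hR, hR, inner_sub_left, inner_sub_right, Complex.sub_re, Complex.sub_re, hs, hq]
  have hAs : ∀ a b, (⟪A a, b⟫_ℂ).re = (⟪a, A b⟫_ℂ).re := fun a b => by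
    rw [hA, hA, inner_add_left, inner_add_right, Complex.add_re, Complex.add_re, hs, hq]
  have hn : ∀ η, (⟪η, P η⟫_ℂ).re = ‖P η‖ ^ 2 := fun η => by
    rw [rvd_re_symm, hs1]; exact inner_self_eq_norm_sq (𝕜 := ℂ) _
  have hle : ∀ η, ‖P η‖ ^ 2 ≤ ‖η‖ ^ 2 := fun η => by
    have h1 : ‖P η‖ ^ 2 ≤ ‖η‖ * ‖P η‖ := by
      rw [← hn]; exact re_inner_le_norm (𝕜 := ℂ) _ _
    nlinarith [sq_nonneg (‖η‖ - ‖P η‖)]
  have hqf : ∀ η, qf R η = ‖P η‖ ^ 2 + ‖P (Complex.I • η)‖ ^ 2 := fun η => by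
    rw [← hn, ← hn, qf, hR, inner_sub_right]
    simp [inner_smul_right]
  refine ⟨R, A, ?_, fun η => ?_, fun η => ?_, fun η ζ => ?_, fun η => ?_, fun η => ?_,
    fun k hk => ?_, fun ζ => ?_, fun η h => ?_, fun η h => ?_⟩
  · refine ContinuousLinearMap.isSelfAdjoint_iff_isSymmetric.2 fun a b => Complex.ext (hRs a b) ?_
    change (⟪R a, b⟫_ℂ).im = (⟪a, R b⟫_ℂ).im
    rw [rvd_im, rvd_im, ← map_smul, hRs]
  · rw [hqf]; positivity
  · have := hle (Complex.I • η)
    rw [norm_smul, Complex.norm_I, one_mul] at this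
    linarith [hqf η, hle η]
  · refine Complex.ext (by rw [hAs, rvd_re_symm]) ?_
    have h1 : Complex.I • A η = A (-Complex.I • η) := by simp
    rw [rvd_im, h1, hAs, rvd_re_symm]
    simp [inner_smul_right]
  · simp only [h2, hR, hA, smul_add, smul_sub, map_add, map_sub, rvd_II, map_neg, hPP, smul_neg]
    abel
  · simp only [h2, hR, hA, smul_add, smul_sub, map_add, map_sub, rvd_II, map_neg, hPP, smul_neg]
    abel
  · rw [h2, hR, hA, hfix k hk]; abel
  · refine ⟨P ζ, hm _, P (-(Complex.I • ζ)), hm _, ?_, ?_⟩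
    · rw [hR, map_neg, smul_neg, sub_eq_add_neg]
    · rw [hA, map_neg, smul_neg, sub_neg_eq_add]
  · rw [hR, hA, hzero (Complex.I • η) fun k hk => by simp [h k hk]]
    simp
  · rw [hR, hA, hzero η h]
    simp

namespace RvD
variable {W : Set H} {R : Op H} {A : H →L⋆[ℂ] H} (h : RvD W R A)
include h

theorem inner_A {k : H} (hk : k ∈ closure W) (ζ : H) : ⟪k, A ζ⟫_ℂ = ⟪(2 - R) ζ, k⟫_ℂ := by
  have h2 : IsSelfAdjoint (2 - R) := (IsSelfAdjoint.ofNat 2).sub h.sa
  rw [← inner_conj_symm, h.symm, h.onW k hk, ← h2.star_eq, inner_star_left, inner_conj_symm,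
    h2.star_eq]

theorem norm_A_sq (η : H) : (‖A η‖ ^ 2 : ℝ) = qf (R * (2 - R)) η := by
  rw [← inner_self_eq_norm_sq (𝕜 := ℂ), h.symm, h.AA, qf, rvd_re_symm]
  rfl

theorem norm_A_le (η : H) : ‖A η‖ ≤ ‖η‖ := by
  have h1 : ‖η - R η‖ ^ 2 = ‖η‖ ^ 2 - qf (R * (2 - R)) η := by
    have h2 : R * (2 - R) = R + R - star R * R := by rw [h.sa.star_eq]; noncomm_ring
    rw [h2, qf_sub, qf_add, qf_star_mul_self, norm_sub_sq (𝕜 := ℂ), qf]
    simp only [RCLike.re_to_complex]
    ring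
  refine (abs_le_of_sq_le_sq' ?_ (norm_nonneg _)).2
  rw [h.norm_A_sq]
  linarith [sq_nonneg ‖η - R η‖]

theorem inj0 (hW : ∀ η, (∀ k ∈ W, ⟪k, η⟫_ℂ = 0) → η = 0) (η : H) (h0 : R η = 0) : η = 0 := by
  have h1 : A η = 0 := by
    have h2 : R * (2 - R) = (2 - R) * R := by noncomm_ring
    have := h.norm_A_sq η
    rw [h2, qf, mul_apply_eq_comp, h0, map_zero, inner_zero_right] at this
    simpa using this
  refine hW η fun k hk => ?_
  have h3 := h.inner_A (subset_closure hk) η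
  have h4 : (2 - R) η = (2 : ℂ) • η := by
    rw [rvd_two, h0, sub_zero]
  rw [h1, h4, inner_zero_right, inner_smul_left] at h3
  rw [inner_eq_zero_symm]
  simpa using h3

theorem inj2 (hW : ∀ k₁ ∈ closure W, ∀ k₂ ∈ closure W, k₁ = Complex.I • k₂ → k₁ = 0) (η : H)
    (h0 : (2 - R) η = 0) : η = 0 := by
  have h1 : A η = 0 := by
    have := h.norm_A_sq η
    rw [qf, mul_apply_eq_comp, h0, map_zero, inner_zero_right] at this
    simpa using this
  obtain ⟨k₁, hk₁, k₂, hk₂, h2, h3⟩ := h.dec η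
  rw [h1, eq_comm, sub_eq_zero] at h3
  have h4 := hW k₁ hk₁ k₂ hk₂ h3
  rw [← h3, h4, add_zero] at h2
  have h5 : (2 - R) η = (2 : ℂ) • η := by
    rw [rvd_two, h2, sub_zero]
  rw [h5] at h0
  simpa using h0

theorem im_A {k k' : H} (hk : k ∈ closure W) (hk' : k' ∈ closure W) : (⟪A k, k'⟫_ℂ).im = 0 := by
  have h1 := h.inner_A hk' k
  rw [← h.onW k hk, ← inner_conj_symm] at h1
  exact Complex.conj_eq_iff_im.1 h1

/-- `P = (R + A) / 2` maps into the closure of `W` -/
theorem P_mem (ζ : H) : ∃ k ∈ closure W, R ζ + A ζ = (2 : ℂ) • k := by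
  obtain ⟨k₁, hk₁, k₂, -, h2, h3⟩ := h.dec ζ
  exact ⟨k₁, hk₁, by rw [h2, h3, two_smul]; abel⟩

theorem P_fix {k : H} (hk : k ∈ closure W) : R k + A k = (2 : ℂ) • k := by
  rw [h.onW k hk, rvd_two, add_sub_cancel]

end RvD

end Vale.Agent.P132
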