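import Vale.Agent.P132.L2
import Vale.Agent.P132.Gauss

/-! P132: elementary calculus in the standard form. -/

namespace Vale.Agent.P132

open scoped InnerProductSpace BoundedContinuousFunction
open Filter Topology MeasureTheory Vale.Agent.P104

universe u

variable {H : Type u} [NormedAddCommGroup H] [InnerProductSpace ℂ H] [CompleteSpace H]

namespace SF
variable (S : SF H) {x y : Op H}

theorem norm_J (η : H) : ‖S.J η‖ = ‖η‖ := by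
  rw [norm_eq_sqrt_re_inner (𝕜 := ℂ), S.inner_J, ← norm_eq_sqrt_re_inner]

theorem inner_J_left (η ζ : H) : ⟪S.J η, ζ⟫_ℂ = ⟪S.J ζ, η⟫_ℂ := by
  rw [← S.inner_J η (S.J ζ), S.JJ]

theorem sfb_inner_J_right (η ζ : H) : ⟪η, S.J ζ⟫_ℂ = ⟪ζ, S.J η⟫_ℂ := by
  rw [← S.inner_J (S.J η) ζ, S.JJ]

theorem J_rsmul (r : ℝ) (η : H) : S.J (r • η) = r • S.J η := by
  rw [← Complex.coe_smul, map_smulₛₗ, Complex.conj_ofReal, Complex.coe_smul]

theorem J_Δ (t : ℝ) (η : H) : S.J (S.Δ t η) = S.Δ t (S.J η) := by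
  have e : flat (eB t) = eB t := by
    ext u
    rw [flat_apply, eB_apply, eB_apply, ← Complex.exp_conj]
    simp
  rw [FC.Δ, S.J_Θ, e]

theorem Θ_ξ (f : ℝ →ᵇ ℂ) : S.Θ f S.ξ = f 0 • S.ξ := by
  refine S.eig ?_ f
  rw [rr_zero, Complex.ofReal_one, one_smul, S.R_ξ]

theorem Δ_ξ (t : ℝ) : S.Δ t S.ξ = S.ξ := by
  rw [FC.Δ, S.Θ_ξ]
  simp

theorem σ_ξ (t : ℝ) (x : Op H) : S.σ t x S.ξ = S.Δ t (x S.ξ) := by
  rw [S.σ_apply, S.Δ_ξ]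

theorem inner_σ (t : ℝ) (x : Op H) : ⟪S.ξ, S.σ t x S.ξ⟫_ℂ = ⟪S.ξ, x S.ξ⟫_ℂ := by
  rw [S.σ_ξ, ← S.inner_Δ t S.ξ (x S.ξ), S.Δ_ξ]

theorem ρ_apply (x : Op H) (η : H) : S.ρ x η = S.J (star x (S.J η)) := rfl

theorem ρ_ξ (x : Op H) : S.ρ x S.ξ = S.J (star x S.ξ) := by
  rw [S.ρ_apply, S.J_ξ]

theorem J_apply (x : Op H) (η : H) : S.J (x η) = S.ρ (star x) (S.J η) := by
  rw [S.ρ_apply, star_star, S.JJ]

theorem ρ_one : S.ρ 1 = 1 := by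
  ext η
  rw [S.ρ_apply, star_one, one_apply_eq_self, one_apply_eq_self, S.JJ]

theorem ρ_mul (x y : Op H) : S.ρ (x * y) = S.ρ y * S.ρ x := by
  ext η
  rw [mul_apply_eq_comp, S.ρ_apply, S.ρ_apply, S.ρ_apply, S.JJ, star_mul, mul_apply_eq_comp]

theorem ρ_add (x y : Op H) : S.ρ (x + y) = S.ρ x + S.ρ y := by
  ext η
  simp only [ρ_apply, star_add, add_apply, map_add]

theorem ρ_sub (x y : Op H) : S.ρ (x - y) = S.ρ x - S.ρ y := by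
  ext η
  simp only [ρ_apply, star_sub, sub_apply, map_sub]

theorem ρ_smul (c : ℂ) (x : Op H) : S.ρ (c • x) = c • S.ρ x := by
  ext η
  rw [smul_apply, ρ_apply, ρ_apply, star_smul, smul_apply, map_smulₛₗ]
  simp

theorem ρ_rsmul (c : ℝ) (x : Op H) : S.ρ (c • x) = c • S.ρ x := by
  exact S.ρ_smul (c : ℂ) x

theorem ρ_sum {ι : Type*} [Fintype ι] (x : ι → Op H) : S.ρ (∑ k, x k) = ∑ k, S.ρ (x k) := by
  ext η
  simp only [ρ_apply, star_sum, _root_.sum_apply, map_sum]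

theorem star_ρ (x : Op H) : star (S.ρ x) = S.ρ (star x) := by
  refine ((ContinuousLinearMap.eq_adjoint_iff _ _).2 fun η ζ => ?_).symm
  rw [ρ_apply, ρ_apply, star_star, S.inner_J_left, S.sfb_inner_J_right η, inner_star_left]

theorem norm_ρ (x : Op H) : ‖S.ρ x‖ = ‖x‖ := by
  have key : ∀ x : Op H, ‖S.ρ x‖ ≤ ‖x‖ := fun x =>
    ContinuousLinearMap.opNorm_le_bound _ (norm_nonneg x) fun η => by
      rw [ρ_apply, S.norm_J, ← norm_star x, ← S.norm_J η]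
      exact (star x).le_opNorm _
  have e : S.ρ (S.ρ x) = x := by
    ext η
    rw [ρ_apply, S.star_ρ, ← S.J_apply, S.JJ]
  refine le_antisymm (key x) ?_
  have h := key (S.ρ x)
  rwa [e] at h

theorem norm_ρ_apply (x : Op H) (η : H) : ‖S.ρ x η‖ = ‖star x (S.J η)‖ := by
  rw [ρ_apply, S.norm_J]

theorem ρ_σ (t : ℝ) (x : Op H) : S.ρ (S.σ t x) = S.σ t (S.ρ x) := by
  ext η
  rw [ρ_apply, ← S.σ_star, S.σ_apply, S.σ_apply, S.J_Δ, ← S.J_Δ (-t), ρ_apply]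

theorem ρ_mem (hx : x ∈ S.M) : S.ρ x ∈ S.M.commutant := by
  exact S.J_M _ (star_mem hx)

theorem ρ_comm (hx : x ∈ S.M) (hy : y ∈ S.M) : x * S.ρ y = S.ρ y * x := by
  exact (comm_of_mem (S.ρ_mem hy) hx).symm

theorem ρ_comm_apply (hx : x ∈ S.M) (hy : y ∈ S.M) (η : H) : x (S.ρ y η) = S.ρ y (x η) := by
  rw [← mul_apply_eq_comp, S.ρ_comm hx hy, mul_apply_eq_comp]

theorem qf_J (hx : IsSelfAdjoint x) (η : H) : qf x (S.J η) = qf (S.ρ x) η := by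
  rw [qf, qf, ρ_apply, hx.star_eq, S.sfb_inner_J_right η]
  exact inner_re_symm (𝕜 := ℂ) _ _

theorem sep (hx : x ∈ S.M) (h : x S.ξ = 0) : x = 0 := by
  have h1 : (x : H → H) = fun _ => 0 := by
    refine Continuous.ext_on S.cyc' x.continuous continuous_const ?_
    rintro _ ⟨y, hy, rfl⟩
    change x (y S.ξ) = 0
    rw [← mul_apply_eq_comp, ← comm_of_mem hy hx, mul_apply_eq_comp, h, map_zero]
  ext η
  exact congrFun h1 η

theorem ext_ξ (hx : x ∈ S.M) (hy : y ∈ S.M) (h : x S.ξ = y S.ξ) : x = y := by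
  refine sub_eq_zero.1 (S.sep (sub_mem hx hy) ?_)
  rw [sub_apply, h, sub_self]

theorem sfb_approx (ζ : H) {ε : ℝ} (hε : 0 < ε) : ∃ y ∈ S.M.commutant, ‖ζ - y S.ξ‖ ≤ ε := by
  obtain ⟨_, ⟨y, hy, rfl⟩, h⟩ := S.cyc'.exists_dist_lt ζ hε
  rw [dist_eq_norm] at h
  exact ⟨y, hy, h.le⟩

/-- approximate `ζ` by a vector `y' ξ` -/
theorem ua (ζ : H) {ε : ℝ} (hε : 0 < ε) : ∃ K, 0 ≤ K ∧ ∀ (ι : Type) [Fintype ι] (x : ι → Op H)
    (C : ℝ), 0 ≤ C → (∀ k, x k ∈ S.M) → Col x C →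
      l2 (fun k => x k ζ) ≤ ε * C + K * l2 fun k => x k S.ξ := by
  obtain ⟨y, hy, h⟩ := S.sfb_approx ζ hε
  refine ⟨‖y‖, norm_nonneg y, fun ι _ x C hC hx hcol => ?_⟩
  have e : (fun k => x k ζ) = fun k => x k (ζ - y S.ξ) + y (x k S.ξ) := by
    funext k
    rw [← mul_apply_eq_comp y, comm_of_mem hy (hx k), mul_apply_eq_comp, map_sub, sub_add_cancel]
  rw [e]
  refine (l2_add_le _ _).trans (add_le_add ((hcol _).trans ?_) (l2_op_le y _))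
  rw [mul_comm]
  exact mul_le_mul_of_nonneg_right h hC

theorem ua_one (ζ : H) {ε : ℝ} (hε : 0 < ε) :
    ∃ K, 0 ≤ K ∧ ∀ x ∈ S.M, ‖x ζ‖ ≤ ε * ‖x‖ + K * ‖x S.ξ‖ := by
  obtain ⟨y, hy, h⟩ := S.sfb_approx ζ hε
  refine ⟨‖y‖, norm_nonneg y, fun x hx => ?_⟩
  have e : x ζ = x (ζ - y S.ξ) + y (x S.ξ) := by
    rw [← mul_apply_eq_comp y, comm_of_mem hy hx, mul_apply_eq_comp, map_sub, sub_add_cancel]
  rw [e]
  refine (norm_add_le _ _).trans (add_le_add ((x.le_opNorm _).trans ?_) (y.le_opNorm _))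
  rw [mul_comm]
  exact mul_le_mul_of_nonneg_right h (norm_nonneg x)

theorem strong {I : Type*} {l : Filter I} {x : I → Op H} {C : ℝ} (hx : ∀ i, x i ∈ S.M)
    (hC : ∀ i, ‖x i‖ ≤ C) (h : Tendsto (fun i => x i S.ξ) l (𝓝 0)) (ζ : H) :
    Tendsto (fun i => x i ζ) l (𝓝 0) := by
  refine NormedAddGroup.tendsto_nhds_zero.2 fun δ hδ => ?_
  have hC1 : 0 < |C| + 1 := by positivity
  obtain ⟨K, -, hK⟩ := S.ua_one ζ (ε := δ / 2 / (|C| + 1)) (by positivity)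
  have h1 : Tendsto (fun i => K * ‖x i S.ξ‖) l (𝓝 (K * ‖(0 : H)‖)) := h.norm.const_mul K
  rw [norm_zero, mul_zero] at h1
  filter_upwards [h1.eventually (gt_mem_nhds (half_pos hδ))] with i hi
  have h2 : δ / 2 / (|C| + 1) * ‖x i‖ ≤ δ / 2 := by
    rw [div_mul_eq_mul_div, div_le_iff₀ hC1]
    exact mul_le_mul_of_nonneg_left (by linarith [hC i, le_abs_self C]) (half_pos hδ).le
  linarith [hK (x i) (hx i)]

theorem half_ρ (hx : x ∈ S.M) : S.T (S.ρ x S.ξ) = (2 - S.R) (x S.ξ) := by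
  rw [S.ρ_ξ, S.half x hx]

theorem sfb_two_sub : 2 - S.R = S.Θ (2 - rB) := by
  rw [map_sub, map_ofNat, FC.R]

theorem sfb_T_mul {f g : ℝ →ᵇ ℂ} (h : ∀ u, g u = f u * (Real.exp (u / 2) : ℝ)) :
    S.T * S.Θ g = (2 - S.R) * S.Θ f := by
  have e : sechB * g = (2 - rB) * f := by
    ext u
    have h1 : (2 : ℂ) - (rr u : ℂ) = ((Real.exp (u / 2) : ℝ) : ℂ) * (sech u : ℂ) := by
      exact_mod_cast two_sub_rr u
    change (sech u : ℂ) * g u = (2 - (rr u : ℂ)) * f u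
    rw [h u, h1]
    ring
  rw [S.sfb_two_sub, FC.T, ← map_mul, ← map_mul, e]

/-- `ξ x = Δ ^ (1/2) x ξ`; cancel `T` -/
theorem Θ_ρ (hx : x ∈ S.M) {f g : ℝ →ᵇ ℂ} (h : ∀ u, g u = f u * (Real.exp (u / 2) : ℝ)) :
    S.Θ f (S.ρ x S.ξ) = S.Θ g (x S.ξ) := by
  refine sub_eq_zero.1 (S.T_inj ?_)
  rw [map_sub, ← mul_apply_eq_comp S.T (S.Θ g), S.sfb_T_mul h, ← mul_apply_eq_comp S.T (S.Θ f),
    FC.T, S.Θ_comm, mul_apply_eq_comp, ← FC.T, S.half_ρ hx, ← mul_apply_eq_comp, S.sfb_two_sub,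
    S.Θ_comm, sub_self]

theorem ρ_of_Θ (hx : x ∈ S.M) {f g : ℝ →ᵇ ℂ} {η : H} (hη : x S.ξ = S.Θ f η)
    (h : ∀ u, g u = f u * (Real.exp (u / 2) : ℝ)) : S.ρ x S.ξ = S.Θ g η := by
  refine sub_eq_zero.1 (S.T_inj ?_)
  rw [map_sub, ← mul_apply_eq_comp S.T (S.Θ g), S.sfb_T_mul h, S.half_ρ hx, hη, mul_apply_eq_comp,
    sub_self]

theorem ρ_of_eig (hx : x ∈ S.M) {s : ℝ} (h : S.R (x S.ξ) = (rr s : ℂ) • x S.ξ) :
    S.ρ x S.ξ = Real.exp (s / 2) • x S.ξ := by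
  refine sub_eq_zero.1 (S.T_inj ?_)
  have h1 : (2 : ℂ) - (rr s : ℂ) = ((Real.exp (s / 2) : ℝ) : ℂ) * (sech s : ℂ) := by
    exact_mod_cast two_sub_rr s
  have h2 : S.T (x S.ξ) = (sech s : ℂ) • x S.ξ := S.eig h sechB
  have h3 : (2 - S.R) (x S.ξ) = ((2 : ℂ) - (rr s : ℂ)) • x S.ξ := by
    rw [S.sfb_two_sub]
    exact S.eig h (2 - rB)
  rw [map_sub, S.half_ρ hx, h3, ← Complex.coe_smul, map_smul, h2, smul_smul, h1, sub_self]

theorem D_mul (hx : x ∈ S.M) (hy : y ∈ S.M) (μ ν : ℝ) :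
    S.D (μ * ν) (x * y) = x (S.D ν y) + ν • S.ρ y (S.D μ x) := by
  simp only [D, ρ_mul, mul_apply_eq_comp, map_sub, ContinuousLinearMap.map_smul_of_tower,
    S.ρ_comm_apply hx hy]
  module

theorem D_star {μ : ℝ} (hμ : μ ≠ 0) (x : Op H) : S.D μ⁻¹ (μ • star x) = -S.J (S.D μ x) := by
  rw [D, D, S.ρ_rsmul, smul_apply, smul_apply, smul_smul, inv_mul_cancel₀ hμ, one_smul, map_sub,
    S.J_rsmul, S.ρ_ξ, S.ρ_ξ, star_star, S.JJ, neg_sub]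

theorem D_σ (μ t : ℝ) (x : Op H) : S.D μ (S.σ t x) = S.Δ t (S.D μ x) := by
  rw [D, D, S.ρ_σ, S.σ_ξ, S.σ_ξ, map_sub, ContinuousLinearMap.map_smul_of_tower]

theorem D_smul (μ : ℝ) (c : ℂ) (x : Op H) : S.D μ (c • x) = c • S.D μ x := by
  rw [D, D, S.ρ_smul, smul_apply, smul_apply, smul_sub, smul_comm μ c]

theorem D_rsmul (μ c : ℝ) (x : Op H) : S.D μ (c • x) = c • S.D μ x := by
  exact S.D_smul μ (c : ℂ) x

theorem D_add (μ : ℝ) (x y : Op H) : S.D μ (x + y) = S.D μ x + S.D μ y := by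
  rw [D, D, D, S.ρ_add, add_apply, add_apply, smul_add]
  abel

theorem D_sum {ι : Type*} [Fintype ι] (μ : ℝ) (x : ι → Op H) :
    S.D μ (∑ k, x k) = ∑ k, S.D μ (x k) := by
  simp only [D, S.ρ_sum, _root_.sum_apply, Finset.sum_sub_distrib, Finset.smul_sum]

theorem D_sub_D (μ ν : ℝ) (x : Op H) : S.D μ x - S.D ν x = (ν - μ) • S.ρ x S.ξ := by
  rw [D, D, sub_smul]
  abel

theorem D_one : S.D 1 1 = 0 := by
  rw [D, S.ρ_one, one_smul, sub_self]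

/-- the commutator applied to `ξ` -/
theorem comm_ξ {a w : Op H} (ha : a ∈ S.M) (hw : w ∈ S.M) :
    (a * w - w * a) S.ξ = a (S.D 1 w) - (w (a S.ξ) - S.ρ w (a S.ξ)) := by
  rw [D, one_smul, map_sub, S.ρ_comm_apply ha hw, sub_apply, mul_apply_eq_comp, mul_apply_eq_comp]
  abel

section Fam
variable {ι κ : Type*} [Fintype ι] [Fintype κ] {x : ι → Op H} {μ : ι → ℝ} {C : ℝ}

theorem col_ρ (h : Col x C) : Col (fun k => S.ρ (star (x k))) C := by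
  intro ζ
  rw [← S.norm_J ζ]
  refine le_of_eq_of_le (l2_congr fun k => ?_) (h (S.J ζ))
  rw [S.norm_ρ_apply, star_star]

theorem row_ρ (h : Row x μ C) : Col (fun k => μ k • S.ρ (x k)) C := by
  intro ζ
  rw [← S.norm_J ζ]
  refine le_of_eq_of_le (l2_congr fun k => ?_) (h (S.J ζ))
  rw [smul_apply, smul_apply, norm_smul, norm_smul, S.norm_ρ_apply]

/-- the right functional of a family -/
theorem sum_inner_J (hx : ∀ k, x k ∈ S.M) {z : Op H} (hz : z ∈ S.M) :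
    ∑ k, ⟪S.J (x k S.ξ), z (S.J (x k S.ξ))⟫_ℂ = ⟪S.J (z S.ξ), gram x S.ξ⟫_ℂ := by
  rw [inner_gram]
  refine Finset.sum_congr rfl fun k _ => ?_
  have e : z (S.J (x k S.ξ)) = S.J (x k (S.J (z S.ξ))) := by
    rw [S.J_apply (x k) S.ξ, S.J_ξ, S.ρ_comm_apply hz (star_mem (hx k)), ρ_apply, star_star]
  rw [e, S.inner_J]

theorem near_J (hx : ∀ k, x k ∈ S.M) {ε : ℝ} (h : ‖gram x S.ξ - S.ξ‖ ≤ ε) :
    Near S.M S.ξ (fun k => S.J (x k S.ξ)) ε := by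
  intro z hz
  rw [S.sum_inner_J hx hz, ← S.inner_J (z S.ξ) S.ξ, S.J_ξ, ← inner_sub_right, mul_comm]
  refine (norm_inner_le_norm _ _).trans (mul_le_mul ?_ h (norm_nonneg _) (norm_nonneg z))
  have h1 := z.le_opNorm S.ξ
  rwa [S.norm_ξ, mul_one, ← S.norm_J] at h1

theorem Dn_flip (hμ : ∀ k, 0 < μ k) :
    S.Dn (fun k => μ k • star (x k)) (fun k => (μ k)⁻¹) = S.Dn x μ := by
  refine l2_congr fun k => ?_
  rw [S.D_star (hμ k).ne', norm_neg, S.norm_J]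

/-- `J (μ x* ξ) = x ξ - D μ x` -/
theorem J_flip (μ : ℝ) (x : Op H) : S.J ((μ • star x) S.ξ) = x S.ξ - S.D μ x := by
  rw [D, sub_sub_cancel, smul_apply, S.J_rsmul, S.ρ_ξ]

theorem Dn_prod {y : κ → Op H} {μ ν C C' : ℝ} (hx : ∀ k, x k ∈ S.M) (hy : ∀ k, y k ∈ S.M)
    (h : Col x C) (h' : Row y (fun _ => ν) C') (hC : 0 ≤ C) (hC' : 0 ≤ C') :
    S.Dn (fun p : ι × κ => x p.1 * y p.2) (fun _ => μ * ν) ≤
      C * S.Dn y (fun _ => ν) + C' * S.Dn x fun _ => μ := by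
  unfold Dn
  simp only [fun i j => S.D_mul (hx i) (hy j) μ ν]
  refine (l2_add_le _ _).trans (add_le_add (h.l2_prod hC fun j => S.D ν (y j)) ?_)
  rw [l2_prod]
  refine l2_le_mul hC' fun i => ?_
  rw [Real.norm_of_nonneg (l2_nonneg _)]
  exact S.row_ρ h' (S.D μ (x i))

theorem Bin.perturb {N : VonNeumannAlgebra H} {y : ι → Op H} {ε δ : ℝ} (h : S.Bin N x ε)
    (hε : 0 ≤ ε) (hε1 : ε ≤ 1) (hδ1 : δ ≤ 1) (hδ : l2 (fun k => (y k - x k) S.ξ) ≤ δ) :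
    S.Bin N y (ε + 4 * δ) := by
  refine ⟨h.1.perturb S.norm_ξ hε hε1 hδ1 hδ, h.2.perturb S.norm_ξ hε hε1 hδ1 ?_⟩
  refine le_of_eq_of_le (l2_congr fun k => ?_) hδ
  rw [← map_sub, S.norm_J, sub_apply]

end Fam

theorem mem_C : x ∈ S.C ↔ x ∈ S.M ∧ ∀ t, S.σ t x = x := by
  rw [C, mem_inter]
  refine and_congr_right fun _ => ⟨fun h t => (S.σ_eq_iff t x).2 (h _ ⟨t, rfl⟩).1, ?_⟩
  rintro h _ ⟨t, rfl⟩
  refine ⟨(S.σ_eq_iff t x).1 (h t), ?_⟩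
  rw [S.star_Δ]
  exact (S.σ_eq_iff (-t) x).1 (h (-t))

theorem C_of_R (hx : x ∈ S.M) (h : S.R (x S.ξ) = x S.ξ) : x ∈ S.C := by
  refine S.mem_C.2 ⟨hx, fun t => S.ext_ξ (S.σ_M x hx t) hx ?_⟩
  have h1 : S.R (x S.ξ) = (rr 0 : ℂ) • x S.ξ := by rw [rr_zero, Complex.ofReal_one, one_smul, h]
  rw [S.σ_ξ, FC.Δ, S.eig h1]
  simp

theorem ρ_C {e : Op H} (he : e ∈ S.C) : S.ρ e S.ξ = e S.ξ := by
  obtain ⟨h1, h2⟩ := S.mem_C.1 he
  have h3 : S.R (e S.ξ) = (rr 0 : ℂ) • e S.ξ := S.eig_of_Δ fun t => by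
    rw [← S.σ_ξ, h2 t]
    simp
  rw [S.ρ_of_eig h1 h3]
  simp

theorem inner_C {e : Op H} (he : e ∈ S.C) (hx : x ∈ S.M) :
    ⟪S.ξ, (x * e) S.ξ⟫_ℂ = ⟪S.ξ, (e * x) S.ξ⟫_ℂ := by
  rw [mul_apply_eq_comp, mul_apply_eq_comp, ← S.ρ_C he, S.ρ_comm_apply hx (S.mem_C.1 he).1,
    ← inner_star_left, S.star_ρ, S.ρ_C (star_mem he), inner_star_left]

theorem sfb_qf {e : Op H} (he : e ∈ S.C) (hp : IsStarProjection e) (hx : x ∈ S.M) :
    qf x (e S.ξ) = qf (e * x) S.ξ := by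
  rw [← qf_conj, hp.isSelfAdjoint.star_eq, qf, S.inner_C he (mul_mem (S.mem_C.1 he).1 hx),
    ← mul_assoc, hp.isIdempotentElem.eq, qf]

theorem qf_split {e : Op H} (he : e ∈ S.C) (hp : IsStarProjection e) (hx : x ∈ S.M) :
    qf x S.ξ = qf x (e S.ξ) + qf x ((1 - e) S.ξ) := by
  rw [S.sfb_qf he hp hx, S.sfb_qf (sub_mem (one_mem _) he) hp.one_sub hx, ← qf_add, ← add_mul,
    add_sub_cancel, one_mul]

/-- `x ξ ∈ e H f` -/
theorem J_right {f : Op H} (hf : f ∈ S.C) (hp : IsStarProjection f) (hx : x ∈ S.M)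
    (h : x * f = x) : f (S.J (x S.ξ)) = S.J (x S.ξ) := by
  have e : x S.ξ = S.ρ f (x S.ξ) := by
    rw [← S.ρ_comm_apply hx (S.mem_C.1 hf).1, S.ρ_C hf, ← mul_apply_eq_comp, h]
  conv_rhs => rw [e, ρ_apply, S.JJ, hp.isSelfAdjoint.star_eq]

end SF

end Vale.Agent.P132
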