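import Mathlib

/-! P132: the Fourier - Laplace transform of `1 / cosh`. -/

namespace Vale.Agent.P132

open MeasureTheory

theorem sech_integrable_exp_abs {c : ℝ} (hc : 0 < c) :
    Integrable fun t : ℝ => Real.exp (-c * |t|) := by
  rw [← integrableOn_univ, ← Set.Iic_union_Ioi (a := (0 : ℝ))]
  refine IntegrableOn.union ?_ ?_
  · refine (integrableOn_exp_mul_Iic hc 0).congr_fun (fun t ht => ?_) measurableSet_Iic
    simp only [abs_of_nonpos (show t ≤ 0 from ht)]
    congr 1
    ring
  · refine (integrableOn_exp_mul_Ioi (neg_lt_zero.2 hc) 0).congr_fun (fun t ht => ?_)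
      measurableSet_Ioi
    simp only [abs_of_pos (show 0 < t from ht)]

theorem sech_exp_abs_le (x : ℝ) : Real.exp |x| ≤ 2 * Real.cosh x := by
  rw [← Real.cosh_abs, Real.cosh_eq]
  linarith [Real.exp_pos (-|x|)]

theorem integrable_sech {θ : ℝ} (h : |θ| < Real.pi) :
    Integrable fun t : ℝ => Real.exp (θ * t) / Real.cosh (Real.pi * t) := by
  have hc : 0 < Real.pi - |θ| := by linarith
  refine ((sech_integrable_exp_abs hc).const_mul 2).mono' ?_ (Filter.Eventually.of_forall fun t => ?_)
  · refine Continuous.aestronglyMeasurable ?_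
    exact (by fun_prop : Continuous fun t : ℝ => Real.exp (θ * t)).div (by fun_prop)
      fun t => (Real.cosh_pos _).ne'
  · have h1 := sech_exp_abs_le (Real.pi * t)
    have h2 := Real.cosh_pos (Real.pi * t)
    rw [Real.norm_eq_abs, abs_of_pos (div_pos (Real.exp_pos _) h2), div_le_iff₀ h2]
    rw [abs_mul, abs_of_pos Real.pi_pos] at h1
    have h3 : θ * t ≤ -(Real.pi - |θ|) * |t| + Real.pi * |t| := by
      have := le_abs_self (θ * t)
      rw [abs_mul] at this
      linarith
    calc Real.exp (θ * t) ≤ Real.exp (-(Real.pi - |θ|) * |t| + Real.pi * |t|) :=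
          Real.exp_le_exp.2 h3
      _ = Real.exp (-(Real.pi - |θ|) * |t|) * Real.exp (Real.pi * |t|) := Real.exp_add _ _
      _ ≤ Real.exp (-(Real.pi - |θ|) * |t|) * (2 * Real.cosh (Real.pi * t)) :=
          mul_le_mul_of_nonneg_left h1 (Real.exp_pos _).le
      _ = _ := by ring

/-- the logistic substitution -/
noncomputable def sechPhi (t : ℝ) : ℝ :=
  Real.exp (2 * Real.pi * t) / (1 + Real.exp (2 * Real.pi * t))

theorem sechPhi_deriv (t : ℝ) : HasDerivAt sechPhi
    (2 * Real.pi * Real.exp (2 * Real.pi * t) / (1 + Real.exp (2 * Real.pi * t)) ^ 2) t := by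
  have h1 : HasDerivAt (fun t : ℝ => Real.exp (2 * Real.pi * t))
      (Real.exp (2 * Real.pi * t) * (2 * Real.pi)) t := by
    have := ((hasDerivAt_id t).const_mul (2 * Real.pi)).exp
    simpa using this
  have h2 := h1.div (h1.const_add 1) (by positivity)
  refine h2.congr_deriv ?_
  have : (1 + Real.exp (2 * Real.pi * t)) ≠ 0 := by positivity
  field_simp
  ring

theorem sechPhi_inj : Function.Injective sechPhi := by
  intro a b hab
  unfold sechPhi at hab
  rw [div_eq_div_iff (by positivity) (by positivity)] at hab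
  have h1 : Real.exp (2 * Real.pi * a) = Real.exp (2 * Real.pi * b) := by linarith
  have h2 := Real.exp_injective h1
  have := Real.pi_pos
  exact mul_left_cancel₀ (by positivity) h2

theorem sechPhi_image : sechPhi '' Set.univ = Set.Ioo 0 1 := by
  ext x
  simp only [Set.image_univ, Set.mem_range, Set.mem_Ioo]
  constructor
  · rintro ⟨t, rfl⟩
    unfold sechPhi
    refine ⟨by positivity, ?_⟩
    rw [div_lt_one (by positivity)]
    linarith
  · rintro ⟨h0, h1⟩
    have hp := Real.pi_pos
    refine ⟨Real.log (x / (1 - x)) / (2 * Real.pi), ?_⟩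
    have h2 : 0 < 1 - x := by linarith
    unfold sechPhi
    rw [mul_div_cancel₀ _ (by positivity), Real.exp_log (div_pos h0 h2)]
    field_simp
    ring

theorem sech_point (s z : ℂ) (hs : s = 1 / 2 + Complex.I * z / (2 * Real.pi)) (t : ℝ) :
    |2 * Real.pi * Real.exp (2 * Real.pi * t) / (1 + Real.exp (2 * Real.pi * t)) ^ 2| •
      ((sechPhi t : ℂ) ^ (s - 1) * (1 - (sechPhi t : ℂ)) ^ (1 - s - 1)) =
    Real.pi * (Complex.exp (Complex.I * t * z) / (Real.cosh (Real.pi * t) : ℂ)) := by
  have hp := Real.pi_pos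
  set v := 2 * Real.pi * t with hv
  have hE : 0 < 1 + Real.exp v := by positivity
  set L := Real.log (1 + Real.exp v) with hL
  have hL' : Real.exp L = 1 + Real.exp v := Real.exp_log hE
  have e1 : sechPhi t = Real.exp (v - L) := by
    rw [Real.exp_sub, hL']; rfl
  have e2 : 1 - sechPhi t = Real.exp (-L) := by
    rw [Real.exp_neg, hL']
    unfold sechPhi
    rw [← hv]
    field_simp
    ring
  have e3 : 2 * Real.pi * Real.exp v / (1 + Real.exp v) ^ 2 =
      2 * Real.pi * Real.exp (v - 2 * L) := by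
    rw [Real.exp_sub, two_mul L, Real.exp_add, hL']
    field_simp
  have e4 : Real.cosh (Real.pi * t) = Real.exp (L - v / 2) / 2 := by
    rw [Real.exp_sub, hL', Real.cosh_eq]
    have h1 : Real.pi * t = v / 2 := by rw [hv]; ring
    have h2 : Real.exp v = Real.exp (v / 2) * Real.exp (v / 2) := by
      rw [← Real.exp_add]; congr 1; ring
    rw [h1, Real.exp_neg, h2]
    have := Real.exp_pos (v / 2)
    field_simp
    ring
  have e2' : (1 : ℂ) - (sechPhi t : ℂ) = ((Real.exp (-L) : ℝ) : ℂ) := by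
    rw [← e2]; push_cast; rfl
  have hpow : ∀ (a : ℝ) (w : ℂ), ((Real.exp a : ℝ) : ℂ) ^ w = Complex.exp (a * w) := by
    intro a w
    rw [Complex.cpow_def_of_ne_zero (by exact_mod_cast (Real.exp_pos a).ne'),
      ← Complex.ofReal_log (Real.exp_pos a).le, Real.log_exp]
  rw [e3, abs_of_pos (by positivity), e2', e1, hpow, hpow, e4, Complex.real_smul]
  have hpc : (Real.pi : ℂ) ≠ 0 := by exact_mod_cast hp.ne'
  have key : ((v - 2 * L : ℝ) : ℂ) + ((v - L : ℝ) : ℂ) * (s - 1) + ((-L : ℝ) : ℂ) * (1 - s - 1) +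
      ((L - v / 2 : ℝ) : ℂ) = Complex.I * t * z := by
    rw [hs, hv]
    push_cast
    field_simp
    ring
  rw [← key, Complex.exp_add, Complex.exp_add, Complex.exp_add]
  have h5 : Complex.exp ((L - v / 2 : ℝ) : ℂ) ≠ 0 := Complex.exp_ne_zero _
  simp only [Complex.ofReal_mul, Complex.ofReal_div, Complex.ofReal_exp, Complex.ofReal_ofNat]
  field_simp

/-- With `s = 1/2 + I z / (2 π)`, `0 < re s < 1`: substitute `x = e^v / (1 + e^v)`, `v = 2 π t`, in
`Complex.betaIntegral s (1 - s) = Γ s Γ (1 - s) = π / sin (π s)`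
(`Complex.Gamma_mul_Gamma_eq_betaIntegral`, `Complex.Gamma_mul_Gamma_one_sub`). -/
theorem integral_sech {z : ℂ} (h : |z.im| < Real.pi) :
    ∫ t : ℝ, Complex.exp (Complex.I * t * z) / (Real.cosh (Real.pi * t) : ℂ) =
      1 / Complex.cosh (z / 2) := by
  have hp := Real.pi_pos
  have hpc : (Real.pi : ℂ) ≠ 0 := by exact_mod_cast hp.ne'
  obtain ⟨s, hs⟩ : ∃ s : ℂ, s = 1 / 2 + Complex.I * z / (2 * Real.pi) := ⟨_, rfl⟩
  have hre : s.re = 1 / 2 - z.im / (2 * Real.pi) := by
    have : (2 * Real.pi : ℂ) = ((2 * Real.pi : ℝ) : ℂ) := by push_cast; rfl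
    rw [hs, this, Complex.add_re, Complex.div_ofReal_re]
    simp only [Complex.mul_re, Complex.I_re, Complex.I_im]
    norm_num
    ring
  obtain ⟨h1, h2⟩ := abs_lt.1 h
  have h3 : z.im / (2 * Real.pi) < 1 / 2 := by
    rw [div_lt_iff₀ (by positivity)]; linarith
  have h4 : -(1 / 2) < z.im / (2 * Real.pi) := by
    rw [lt_div_iff₀ (by positivity)]; linarith
  have hs0 : 0 < s.re := by rw [hre]; linarith
  have hs1 : 0 < (1 - s).re := by rw [Complex.sub_re, Complex.one_re, hre]; linarith
  have hb := Complex.Gamma_mul_Gamma_eq_betaIntegral hs0 hs1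
  rw [Complex.Gamma_mul_Gamma_one_sub, add_sub_cancel, Complex.Gamma_one, one_mul] at hb
  have hsin : Complex.sin (Real.pi * s) = Complex.cosh (z / 2) := by
    have : (Real.pi : ℂ) * s = z / 2 * Complex.I + Real.pi / 2 := by
      rw [hs]; field_simp; ring
    rw [this, Complex.sin_add_pi_div_two, Complex.cos_mul_I]
  rw [hsin, Complex.betaIntegral, intervalIntegral.integral_of_le zero_le_one,
    integral_Ioc_eq_integral_Ioo, ← sechPhi_image,
    integral_image_eq_integral_abs_deriv_smul MeasurableSet.univ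
      (fun t _ => (sechPhi_deriv t).hasDerivWithinAt) sechPhi_inj.injOn,
    Measure.restrict_univ] at hb
  simp only [sech_point s z hs] at hb
  rw [integral_const_mul] at hb
  refine mul_left_cancel₀ hpc ?_
  rw [← hb]
  ring

end Vale.Agent.P132
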