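import Vale.Agent.P132.RvD
import Vale.Agent.P132.FCB
import Vale.Agent.P078.Sakai

/-! P132: Tomita theory I, the operator identity coming from the linear Radon-Nikodym theorem. -/

namespace Vale.Agent.P132

open scoped InnerProductSpace BoundedContinuousFunction
open Filter Topology MeasureTheory Vale.Agent.P104

universe u

variable {H : Type u} [NormedAddCommGroup H] [InnerProductSpace ℂ H] [CompleteSpace H]

/-- the vectors `x ξ` with `x` selfadjoint -/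
def saOrb (M : VonNeumannAlgebra H) (ξ : H) : Submodule ℝ H where
  carrier := {η | ∃ x ∈ M, IsSelfAdjoint x ∧ η = x ξ}
  add_mem' := by
    rintro _ _ ⟨x, hx, hs, rfl⟩ ⟨y, hy, ht, rfl⟩
    exact ⟨x + y, add_mem hx hy, hs.add ht, rfl⟩
  zero_mem' := ⟨0, zero_mem _, IsSelfAdjoint.zero _, rfl⟩
  smul_mem' := by
    rintro r _ ⟨x, hx, hs, rfl⟩
    exact ⟨r • x, vn_rsmul_mem r hx, (IsSelfAdjoint.all r).smul hs, rfl⟩

/-- the data constructed before the commutation theorem -/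
structure Pre (M : VonNeumannAlgebra H) (ξ : H) (F : FC H) (A J : H →L⋆[ℂ] H) : Prop where
  cyc : Dense (orb M ξ)
  cyc' : Dense (orb M.commutant ξ)
  rvd : RvD (saOrb M ξ : Set H) F.R A
  JJ : ∀ η, J (J η) = η
  inner_J : ∀ η ζ, ⟪J η, J ζ⟫_ℂ = ⟪ζ, η⟫_ℂ
  JT : ∀ η, J (F.T η) = A η
  J_Θ : ∀ f η, J (F.Θ f η) = F.Θ (flat f) (J η)
  im : ∀ k ∈ closure (saOrb M ξ : Set H), ∀ k' ∈ closure (saOrb M ξ : Set H),
    (⟪J k, k'⟫_ℂ).im = 0

theorem tom1_split {N : VonNeumannAlgebra H} {x : Op H} (hx : x ∈ N) :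
    ∃ a ∈ N, ∃ b ∈ N, IsSelfAdjoint a ∧ IsSelfAdjoint b ∧ x = a + Complex.I • b := by
  refine ⟨realPart x, ?_, imaginaryPart x, ?_, (realPart x).2, (imaginaryPart x).2,
    (realPart_add_I_smul_imaginaryPart x).symm⟩
  · rw [realPart_apply_coe]
    exact vn_rsmul_mem _ (add_mem hx (star_mem hx))
  · rw [imaginaryPart_apply_coe]
    exact SMulMemClass.smul_mem _ (vn_rsmul_mem _ (sub_mem hx (star_mem hx)))

theorem tom1_ext {N : VonNeumannAlgebra H} {ξ : H} (hN : Dense (orb N ξ)) {D : Op H}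
    (h : ∀ y ∈ N, ∀ z ∈ N, IsSelfAdjoint y → IsSelfAdjoint z → ⟪z ξ, D (y ξ)⟫_ℂ = 0) : D = 0 := by
  have h1 : ∀ y ∈ N, ∀ z ∈ N, ⟪z ξ, D (y ξ)⟫_ℂ = 0 := by
    intro y hy z hz
    obtain ⟨a, ha, b, hb, sa, sb, rfl⟩ := tom1_split hy
    obtain ⟨c, hc, d, hd, sc, sd, rfl⟩ := tom1_split hz
    simp [h a ha c hc sa sc,
      h a ha d hd sa sd, h b hb c hc sb sc, h b hb d hd sb sd]
  have h2 : ∀ y ∈ N, D (y ξ) = 0 := fun y hy => by
    refine ext_inner_left ℂ fun ζ => ?_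
    rw [inner_zero_right]
    refine hN.induction ?_ (isClosed_eq (by fun_prop) continuous_const) ζ
    rintro _ ⟨z, hz, rfl⟩
    exact h1 y hy z hz
  ext η
  refine hN.induction ?_ (isClosed_eq (by fun_prop) (by fun_prop)) η
  rintro _ ⟨y, hy, rfl⟩
  exact h2 y hy

theorem tom1_sa_left {a : Op H} (ha : IsSelfAdjoint a) (η ζ : H) : ⟪a η, ζ⟫_ℂ = ⟪η, a ζ⟫_ℂ := by
  rw [← inner_star_left, ha.star_eq]

theorem tom1_real {M : VonNeumannAlgebra H} (ξ : H) {c t : Op H} (hc : c ∈ M)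
    (ht : t ∈ M.commutant) (sc : IsSelfAdjoint c) (st : IsSelfAdjoint t) :
    (⟪c ξ, t ξ⟫_ℂ).im = 0 := by
  rw [← Complex.conj_eq_iff_im, inner_conj_symm, tom1_sa_left st, tom1_sa_left sc]
  exact congrArg (fun a : Op H => ⟪ξ, a ξ⟫_ℂ) (comm_of_mem ht hc)

theorem tom1_sakai {M : VonNeumannAlgebra H} (ξ : H) {t : Op H} (ht : t ∈ M.commutant)
    (st : IsSelfAdjoint t) {lam : ℂ} (hl : 0 < lam.re) : ∃ x ∈ M, IsSelfAdjoint x ∧
      ∀ c ∈ M, IsSelfAdjoint c → (⟪c ξ, t ξ⟫_ℂ).re = (lam * ⟪c ξ, x ξ⟫_ℂ).re := by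
  have e : ∀ b, b ∈ StarSubalgebra.centralizer ℂ (M.commutant : Set (Op H)) ↔ b ∈ M := fun b => by
    rw [StarSubalgebra.mem_centralizer_iff]
    exact ⟨fun h => (mem_iff_comm M).2 fun s hs => (h s hs).1,
      fun h s hs => ⟨comm_of_mem hs h, comm_of_mem (star_mem hs) h⟩⟩
  obtain ⟨x, h1, h2, h3⟩ := P078.sakai_commutant (M.commutant : Set (Op H)) ξ st
    (fun b hb => (comm_of_mem ht ((e b).1 hb)).symm) hl
  exact ⟨x, (e x).1 h1, h2, fun c hc sc => h3 c ((e c).2 hc) sc⟩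

theorem tom1_sakai' {M : VonNeumannAlgebra H} (ξ : H) {t : Op H} (ht : t ∈ M.commutant)
    (st : IsSelfAdjoint t) {lam : ℂ} (hl : 0 < lam.re) : ∃ x ∈ M, IsSelfAdjoint x ∧
      ∀ w ∈ M, ⟪ξ, w (t ξ)⟫_ℂ =
        lam / 2 * ⟪ξ, w (x ξ)⟫_ℂ + (starRingEnd ℂ) lam / 2 * ⟪ξ, x (w ξ)⟫_ℂ := by
  obtain ⟨x, h1, h2, h3⟩ := tom1_sakai ξ ht st hl
  refine ⟨x, h1, h2, fun w hw => ?_⟩
  have key : ∀ c ∈ M, IsSelfAdjoint c → ⟪ξ, c (t ξ)⟫_ℂ =
      lam / 2 * ⟪ξ, c (x ξ)⟫_ℂ + (starRingEnd ℂ) lam / 2 * ⟪ξ, x (c ξ)⟫_ℂ := by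
    intro c hc sc
    have e1 := Complex.re_eq_add_conj (lam * ⟪c ξ, x ξ⟫_ℂ)
    rw [← h3 c hc sc, Complex.conj_eq_iff_re.1 (Complex.conj_eq_iff_im.2 (tom1_real ξ hc ht sc st)),
      map_mul, inner_conj_symm, tom1_sa_left sc, tom1_sa_left sc, tom1_sa_left h2] at e1
    rw [e1]
    ring
  obtain ⟨a, ha, b, hb, sa, sb, rfl⟩ := tom1_split hw
  simp only [_root_.add_apply, _root_.smul_apply, map_add, map_smul, inner_add_right,
    inner_smul_right, key a ha sa, key b hb sb]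
  ring

namespace Pre
variable {M : VonNeumannAlgebra H} {ξ : H} {F : FC H} {A J : H →L⋆[ℂ] H} (h : Pre M ξ F A J)
include h

/-- split `x` in real and imaginary parts and use `onW` -/
theorem A_star {x : Op H} (hx : x ∈ M) : A (star x ξ) = (2 - F.R) (x ξ) := by
  obtain ⟨a, ha, b, hb, sa, sb, rfl⟩ := tom1_split hx
  have h1 := h.rvd.onW (a ξ) (subset_closure ⟨a, ha, sa, rfl⟩)
  have h2 := h.rvd.onW (b ξ) (subset_closure ⟨b, hb, sb, rfl⟩)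
  rw [star_add, star_smul, sa.star_eq, sb.star_eq, _root_.add_apply, _root_.add_apply,
    _root_.smul_apply, _root_.smul_apply, map_add, map_add, map_smulₛₗ, map_smul, h1, h2]
  simp

theorem inner_A {x : Op H} (hx : x ∈ M) (ζ : H) :
    ⟪star x ξ, A ζ⟫_ℂ = ⟪(2 - F.R) ζ, x ξ⟫_ℂ := by
  have h2 : IsSelfAdjoint (2 - F.R) := (IsSelfAdjoint.ofNat 2).sub h.rvd.sa
  rw [← inner_conj_symm, h.rvd.symm, inner_conj_symm, h.A_star hx, tom1_sa_left h2]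

/-- `P078.sakai_commutant` with `lam = 1`, then `re0` for `y' ξ - y ξ` and `im0` for `y' ξ` -/
theorem rn {y' : Op H} (hy : y' ∈ M.commutant) (hs : IsSelfAdjoint y') :
    ∃ y ∈ M, IsSelfAdjoint y ∧ F.R (y' ξ) = y ξ ∧ A (y' ξ) = y ξ := by
  obtain ⟨y, h1, h2, h3⟩ := tom1_sakai ξ hy hs (lam := 1) (by simp)
  have e1 : A (y' ξ) = F.R (y' ξ) := h.rvd.im0 _ (by
    rintro _ ⟨c, hc, sc, rfl⟩
    exact tom1_real ξ hc hy sc hs)
  have e2 : A (y' ξ - y ξ) = -F.R (y' ξ - y ξ) := h.rvd.re0 _ (by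
    rintro _ ⟨c, hc, sc, rfl⟩
    rw [inner_sub_right, Complex.sub_re, h3 c hc sc, one_mul, sub_self])
  have e3 := h.rvd.onW (y ξ) (subset_closure ⟨y, h1, h2, rfl⟩)
  have e4 : (2 - F.R) (y ξ) = y ξ + y ξ - F.R (y ξ) := by
    rw [← one_add_one_eq_two]; rfl
  rw [map_sub, map_sub, e1, e3, e4] at e2
  have e5 : (2 : ℂ) • F.R (y' ξ) = (2 : ℂ) • y ξ := by
    rw [two_smul, two_smul, ← sub_eq_zero, ← sub_eq_zero.2 e2]
    abel
  have e6 := smul_right_injective H (two_ne_zero (α := ℂ)) e5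
  exact ⟨y, h1, h2, e6, e1.trans e6⟩

/-- `P078.sakai_commutant` gives `x` with `⟪ξ, w x' ξ⟫ = (lam φ (w x) + conj lam φ (x w)) / 2` for
all `w ∈ M`. For selfadjoint `y', z'` in the commutant and `y, z` as in `rn`, take `w = y z`:
`⟪z' ξ, T (J x' J) T y' ξ⟫ = ⟪y ξ, x' z ξ⟫`, `⟪z' ξ, (2 - R) x R y' ξ⟫ = φ (x y z)`,
`⟪z' ξ, R x (2 - R) y' ξ⟫ = φ (y z x)` (`inner_A`). Conclude by linearity and density. -/
theorem sakai_op {x' : Op H} (hx : x' ∈ M.commutant) (hs : IsSelfAdjoint x') {lam : ℂ}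
    (hl : 0 < lam.re) : ∃ x ∈ M, F.T * jconj J x' * F.T =
      (lam / 2) • (F.R * x * (2 - F.R)) + ((starRingEnd ℂ) lam / 2) • ((2 - F.R) * x * F.R) := by
  obtain ⟨x, h1, h2, h3⟩ := tom1_sakai' ξ hx hs hl
  refine ⟨x, h1, sub_eq_zero.1 (tom1_ext h.cyc' fun y' hy' z' hz' sy' sz' => ?_)⟩
  obtain ⟨y, hy, sy, ry, ay⟩ := h.rn hy' sy'
  obtain ⟨z, hz, sz, rz, az⟩ := h.rn hz' sz'
  have s2 : IsSelfAdjoint (2 - F.R) := (IsSelfAdjoint.ofNat 2).sub h.rvd.sa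
  have e1 : ⟪z' ξ, F.T (J (x' (J (F.T (y' ξ)))))⟫_ℂ = ⟪ξ, (y * z) (x' ξ)⟫_ℂ := by
    rw [← tom1_sa_left F.T_sa, ← h.JJ (F.T (z' ξ)), h.inner_J, h.JT, h.JT, ay, az,
      tom1_sa_left hs, tom1_sa_left sy]
    exact congrArg (fun a : Op H => ⟪ξ, y (a ξ)⟫_ℂ) (comm_of_mem hx hz)
  have e2 : ⟪z' ξ, F.R (x ((2 - F.R) (y' ξ)))⟫_ℂ = ⟪ξ, (y * z) (x ξ)⟫_ℂ := by
    have e := h.inner_A (mul_mem h1 hz) (y' ξ)
    rw [star_mul, sz.star_eq, h2.star_eq, ay] at e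
    rw [← tom1_sa_left h.rvd.sa, rz, ← tom1_sa_left h2, ← inner_conj_symm]
    refine (congrArg _ e.symm).trans ?_
    rw [inner_conj_symm, tom1_sa_left sy]
    rfl
  have e3 : ⟪z' ξ, (2 - F.R) (x (F.R (y' ξ)))⟫_ℂ = ⟪ξ, x ((y * z) ξ)⟫_ℂ := by
    have e := h.inner_A (mul_mem h1 hy) (z' ξ)
    rw [star_mul, sy.star_eq, h2.star_eq, az] at e
    rw [← tom1_sa_left s2, ry]
    refine e.symm.trans ?_
    rw [mul_apply_eq_comp, tom1_sa_left sy, tom1_sa_left h2]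
    rfl
  simp only [_root_.sub_apply (F.T * jconj J x' * F.T), _root_.add_apply, _root_.smul_apply,
    mul_apply_eq_comp, jconj_apply, inner_sub_right, inner_add_right, inner_smul_right]
  rw [e1, e2, e3, h3 _ (mul_mem hy hz), sub_self]

end Pre

end Vale.Agent.P132
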