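import Vale.Agent.P132.Tom1
import Vale.Agent.P132.BM
import Vale.Agent.P132.Lap

/-! P132: Tomita theory II, inversion of the operator identity. -/

namespace Vale.Agent.P132

open scoped InnerProductSpace BoundedContinuousFunction
open Filter Topology MeasureTheory Vale.Agent.P104

universe u

variable {H : Type u} [NormedAddCommGroup H] [InnerProductSpace ℂ H] [CompleteSpace H]

theorem Tom2_split {N : VonNeumannAlgebra H} {x : Op H} (hx : x ∈ N) :
    ∃ a ∈ N, ∃ b ∈ N, IsSelfAdjoint a ∧ IsSelfAdjoint b ∧ x = a + Complex.I • b ∧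
      star x = a - Complex.I • b := by
  have h := (realPart_add_I_smul_imaginaryPart x).symm
  refine ⟨realPart x, ?_, imaginaryPart x, ?_, (realPart x).2, (imaginaryPart x).2, h, ?_⟩
  · rw [realPart_apply_coe]
    exact vn_rsmul_mem _ (add_mem hx (star_mem hx))
  · rw [imaginaryPart_apply_coe]
    exact SMulMemClass.smul_mem _ (vn_rsmul_mem _ (sub_mem hx (star_mem hx)))
  · conv_lhs => rw [h]
    rw [star_add, star_smul, (realPart x).2.star_eq, (imaginaryPart x).2.star_eq, Complex.star_def,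
      Complex.conj_I, neg_smul, sub_eq_add_neg]

theorem Tom2_op {k : ℝ → ℝ} (hk : Integrable k) {S : ℝ → Op H} (hS : ∀ ζ, Continuous fun t => S t ζ)
    {C : ℝ} (hC : ∀ t, ‖S t‖ ≤ C) : (∀ η ζ, Integrable fun t => (k t : ℂ) * ⟪η, S t ζ⟫_ℂ) ∧
      ∃ Z : Op H, ∀ η ζ, ⟪η, Z ζ⟫_ℂ = ∫ t, (k t : ℂ) * ⟪η, S t ζ⟫_ℂ := by
  have hb : ∀ ζ t, ‖(k t : ℂ) • S t ζ‖ ≤ ‖k t‖ * C * ‖ζ‖ := fun ζ t => by
    rw [norm_smul, Complex.norm_real, mul_assoc]
    exact mul_le_mul_of_nonneg_left ((S t).le_of_opNorm_le (hC t) ζ) (norm_nonneg _)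
  have hi : ∀ ζ, Integrable fun t => (k t : ℂ) • S t ζ := fun ζ =>
    ((hk.norm.mul_const C).mul_const ‖ζ‖).mono'
      (hk.ofReal.aestronglyMeasurable.smul (hS ζ).aestronglyMeasurable)
      (Eventually.of_forall (hb ζ))
  refine ⟨fun η ζ => by simpa only [inner_smul_right] using (hi ζ).const_inner (𝕜 := ℂ) η,
    LinearMap.mkContinuous
      { toFun := fun ζ => ∫ t, (k t : ℂ) • S t ζ
        map_add' := fun ζ ζ' => by
          simp only [map_add, smul_add]
          exact integral_add (hi ζ) (hi ζ')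
        map_smul' := fun c ζ => by
          simp only [map_smul, smul_comm _ c, RingHom.id_apply]
          exact integral_smul c _ } (∫ t, ‖k t‖ * C) fun ζ => ?_, fun η ζ => ?_⟩
  · rw [← integral_mul_const]
    exact norm_integral_le_of_norm_le ((hk.norm.mul_const C).mul_const ‖ζ‖)
      (Eventually.of_forall (hb ζ))
  · simp only [← inner_smul_right]
    exact (integral_inner (hi ζ) η).symm

theorem Tom2_dom {k : ℝ → ℝ} (hk : Integrable k) (hc : Continuous k) (c : ℂ) (a b : ℝ →ᵇ ℂ) :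
    FC.Dom (fun t => ((k t : ℂ) * c) • (eB t * a)) fun t => b * eB (-t) := by
  have he : ∀ t, ‖eB t‖ ≤ 1 := fun t =>
    (BoundedContinuousFunction.norm_le zero_le_one).2 fun u => by
      rw [eB_apply, mul_assoc, ← Complex.ofReal_mul, mul_comm, Complex.norm_exp_ofReal_mul_I]
  refine ⟨fun u => ?_, fun u => ?_, fun t => ‖k t‖ * (‖c‖ * ‖a‖ * ‖b‖), hk.norm.mul_const _,
    fun t => ?_⟩
  · simp only [BoundedContinuousFunction.smul_apply, BoundedContinuousFunction.mul_apply, eB_apply]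
    fun_prop
  · simp only [BoundedContinuousFunction.mul_apply, eB_apply]
    fun_prop
  · rw [norm_smul, norm_mul, Complex.norm_real]
    have h1 : ‖eB t * a‖ ≤ ‖a‖ :=
      (norm_mul_le _ _).trans (mul_le_of_le_one_left (norm_nonneg _) (he t))
    have h2 : ‖b * eB (-t)‖ ≤ ‖b‖ :=
      (norm_mul_le _ _).trans (mul_le_of_le_one_right (norm_nonneg _) (he _))
    calc _ ≤ ‖k t‖ * ‖c‖ * ‖a‖ * ‖b‖ := by gcongr
      _ = _ := by ring

theorem Tom2_int {θ : ℝ} (hθ : |θ| < Real.pi) (c : ℂ) (a b : ℝ →ᵇ ℂ) (u v : ℝ) :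
    ∫ t : ℝ, ((((Real.exp (θ * t) / Real.cosh (Real.pi * t) : ℝ) : ℂ) * c) • (eB t * a)) u *
      (b * eB (-t)) v = c * a u * b v / Complex.cosh ((u - v - Complex.I * θ) / 2) := by
  rw [div_eq_mul_one_div, ← integral_sech (by simpa using hθ), ← integral_const_mul]
  refine integral_congr_ae (Eventually.of_forall fun t => ?_)
  have e : Complex.exp (Complex.I * t * (u - v - Complex.I * θ)) = Complex.exp (θ * t) *
      Complex.exp (Complex.I * t * u) * Complex.exp (Complex.I * (-t : ℝ) * v) := by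
    rw [← Complex.exp_add, ← Complex.exp_add]
    congr 1
    push_cast
    linear_combination (-(t : ℂ) * θ) * Complex.I_mul_I
  simp only [BoundedContinuousFunction.smul_apply, BoundedContinuousFunction.mul_apply, eB_apply,
    smul_eq_mul, e, Complex.ofReal_div, Complex.ofReal_exp, Complex.ofReal_mul]
  ring

theorem Tom2_scalar {θ : ℝ} (hθ : |θ| < Real.pi) (u v : ℝ) :
    Complex.exp (Complex.I * θ / 2) / 2 * rB u * (2 - rB) v /
        Complex.cosh ((u - v - Complex.I * θ) / 2) +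
      (starRingEnd ℂ) (Complex.exp (Complex.I * θ / 2)) / 2 * (2 - rB) u * rB v /
        Complex.cosh ((u - v - Complex.I * θ) / 2) = sechB u * sechB v := by
  have h2 : ∀ u, (2 - rB) u = Complex.exp (u / 2) * sech u := fun u => by
    have := congrArg Complex.ofReal (two_sub_rr u)
    push_cast at this
    rw [← this]
    rfl
  have h1 : ∀ u, rB u = Complex.exp (-u / 2) * sech u := fun u => by
    have := congrArg Complex.ofReal (rr_eq u)
    push_cast at this
    exact this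
  have h3 : Complex.cosh ((u - v - Complex.I * θ) / 2) ≠ 0 := by
    rw [← Complex.cos_mul_I, Ne, Complex.cos_eq_zero_iff]
    rintro ⟨k, hk⟩
    have h4 := congrArg Complex.re hk
    simp at h4
    have h5 : θ = (2 * k + 1) * Real.pi := by linarith
    have h6 : (1 : ℝ) ≤ |2 * (k : ℝ) + 1| := by
      have : (1 : ℤ) ≤ |2 * k + 1| := Int.one_le_abs (by omega)
      exact_mod_cast this
    rw [h5, abs_mul, abs_of_pos Real.pi_pos] at hθ
    nlinarith [Real.pi_pos]
  have h4 : (starRingEnd ℂ) (Complex.exp (Complex.I * θ / 2)) =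
      Complex.exp (-(Complex.I * θ / 2)) := by
    rw [← Complex.exp_conj, map_div₀, map_mul, Complex.conj_I, Complex.conj_ofReal, map_ofNat,
      neg_mul, neg_div]
  rw [← add_div, div_eq_iff h3, h4, h1, h1, h2, h2, sechB_apply, sechB_apply, Complex.cosh,
    show -((u - v - Complex.I * θ) / 2) = Complex.I * θ / 2 + -u / 2 + v / 2 by ring,
    show (u - v - Complex.I * θ) / 2 = -(Complex.I * θ / 2) + u / 2 + -v / 2 by ring]
  simp only [Complex.exp_add]
  ring

/-- `bm_two` and `integral_sech` with `z = u - v - I θ`: the scalar identity is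
`(lam rr u (2 - rr v) + conj lam (2 - rr u) rr v) / 2 = sech u sech v cosh ((u - v - I θ) / 2)`.
It gives `T x T = ∫ k t • Δ t (T Y T) Δ (-t)` weakly; cancel `T` (dense range). -/
theorem FC.invert (F : FC H) {x Y : Op H} {θ : ℝ} (hθ : |θ| < Real.pi)
    (h : F.T * Y * F.T = (Complex.exp (Complex.I * θ / 2) / 2) • (F.R * x * (2 - F.R)) +
      ((starRingEnd ℂ) (Complex.exp (Complex.I * θ / 2)) / 2) • ((2 - F.R) * x * F.R)) (η ζ : H) :
    ⟪η, x ζ⟫_ℂ =
      ∫ t : ℝ, ((Real.exp (θ * t) / Real.cosh (Real.pi * t) : ℝ) : ℂ) * ⟪η, F.σ t Y ζ⟫_ℂ := by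
  have hk := integrable_sech hθ
  have hc : Continuous fun t : ℝ => Real.exp (θ * t) / Real.cosh (Real.pi * t) :=
    Continuous.div (by fun_prop) (by fun_prop) fun t => (Real.cosh_pos _).ne'
  obtain ⟨-, Z, hZ⟩ := Tom2_op hk (F.continuous_σ Y) fun t => (F.norm_σ t Y).le
  suffices e : x = Z by rw [e, hZ]
  have d1 := Tom2_dom hk hc (Complex.exp (Complex.I * θ / 2) / 2) rB (2 - rB)
  have d2 := Tom2_dom hk hc ((starRingEnd ℂ) (Complex.exp (Complex.I * θ / 2)) / 2) (2 - rB) rB
  have e1 : F.T * (x * F.T) = F.T * (Z * F.T) := by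
    ext ζ
    refine ext_inner_left ℂ fun η => ?_
    have h1 := F.bm_two d1 d2 (a := sechB) (b := sechB)
      (fun u v => by rw [Tom2_int hθ, Tom2_int hθ, Tom2_scalar hθ]) x η ζ
    rw [← integral_add (F.bm_integrable d1 x η ζ) (F.bm_integrable d2 x η ζ)] at h1
    have h2 : ⟪η, (F.T * (Z * F.T)) ζ⟫_ℂ = ⟪F.T η, Z (F.T ζ)⟫_ℂ := by
      rw [← inner_star_right, F.T_sa.star_eq]
      rfl
    rw [h2, hZ, ← mul_assoc]
    refine h1.symm.trans (integral_congr_ae (Eventually.of_forall fun t => ?_))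
    have h3 : F.T * F.σ t Y * F.T = F.Δ t * (F.T * Y * F.T) * F.Δ (-t) := by
      have c1 : F.T * F.Δ t = F.Δ t * F.T := F.Θ_comm _ _
      have c2 : F.Δ (-t) * F.T = F.T * F.Δ (-t) := F.Θ_comm _ _
      rw [FC.σ, ← mul_assoc, ← mul_assoc, c1, mul_assoc _ (F.Δ (-t)), c2]
      simp only [mul_assoc]
    have h4 : ⟪F.T η, F.σ t Y (F.T ζ)⟫_ℂ = ⟪η, (F.T * F.σ t Y * F.T) ζ⟫_ℂ := by
      rw [← inner_star_right, F.T_sa.star_eq]
      rfl
    simp only [h4, h3, h, map_smul, map_mul, map_sub, map_ofNat, mul_add, add_mul, smul_mul_assoc,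
      mul_smul_comm, add_apply, smul_apply, inner_add_right, inner_smul_right, mul_assoc, FC.R,
      FC.Δ]
  have e2 := congrArg star (F.T_cancel e1)
  rw [star_mul, star_mul, F.T_sa.star_eq] at e2
  exact star_injective (F.T_cancel e2)

/-- for selfadjoint `x'` apply `laplace_unique` to `t ↦ ⟪η, (σ t Y * y' - y' * σ t Y) ζ⟫` -/
theorem Pre.σ_jconj {M : VonNeumannAlgebra H} {ξ : H} {F : FC H} {A J : H →L⋆[ℂ] H}
    (h : Pre M ξ F A J) {x' : Op H} (hx : x' ∈ M.commutant) (t : ℝ) :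
    F.σ t (jconj J x') ∈ M := by
  have key : ∀ a ∈ M.commutant, IsSelfAdjoint a → F.σ t (jconj J a) ∈ M := by
    intro a ha hs
    refine (mem_iff_comm M).2 fun y hy => ?_
    ext ζ
    refine ext_inner_left ℂ fun η => ?_
    have hb : ∀ η ζ : H, ∀ t, ‖⟪η, F.σ t (jconj J a) ζ⟫_ℂ‖ ≤ ‖η‖ * (‖jconj J a‖ * ‖ζ‖) :=
      fun η ζ t => (norm_inner_le_norm _ _).trans (mul_le_mul_of_nonneg_left
        (ContinuousLinearMap.le_of_opNorm_le _ (F.norm_σ t _).le ζ) (norm_nonneg _))
    have h1 := laplace_unique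
      (c := fun t => ⟪star y η, F.σ t (jconj J a) ζ⟫_ℂ - ⟪η, F.σ t (jconj J a) (y ζ)⟫_ℂ)
      ((continuous_const.inner (F.continuous_σ _ _)).sub
        (continuous_const.inner (F.continuous_σ _ _)))
      (fun t => (norm_sub_le _ _).trans (add_le_add (hb _ _ t) (hb _ _ t))) (fun θ hθ => ?_) t
    · rw [inner_star_left] at h1
      exact sub_eq_zero.1 h1
    have hi := (Tom2_op (integrable_sech hθ) (F.continuous_σ (jconj J a))
      fun t => (F.norm_σ t _).le).1
    obtain ⟨x, hx, e⟩ := h.sakai_op ha hs (lam := Complex.exp (Complex.I * θ / 2)) (by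
      rw [Complex.exp_re]
      refine mul_pos (Real.exp_pos _) (Real.cos_pos_of_mem_Ioo ?_)
      have := abs_lt.1 hθ
      constructor <;> simp <;> linarith [this.1, this.2])
    simp only [mul_sub]
    rw [integral_sub (hi _ _) (hi _ _), ← F.invert hθ e, ← F.invert hθ e, inner_star_left,
      sub_eq_zero]
    exact congrArg (fun z : Op H => ⟪η, z ζ⟫_ℂ) (comm_of_mem hy hx)
  obtain ⟨a, ha, b, hb, h1, h2, e, -⟩ := Tom2_split hx
  have e' : jconj J x' = jconj J a + (-Complex.I) • jconj J b := by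
    ext η
    simp [e]
  rw [e', F.σ_add, F.σ_smul]
  exact add_mem (key a ha h1) (SMulMemClass.smul_mem _ (key b hb h2))

end Vale.Agent.P132
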